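import Vale.Agent.P330.H874.Slots
import Vale.Agent.P330.H16.MDefs

/-!
# The machine of a NAND program

`mpOf n P k κ off` are the parameters (`H16.MP`) of the content machine for the NAND program `P`
with `n` inputs on `2 ^ k` slots: bitonic network, switch words of the keys `wireK`.
-/

namespace Vale.Agent.P330.H874

open Vale.Agent.P330.H16

/-! ### The values of the cells -/

/-- the values of the cells for the input bits `inp` -/
def cellV (n : ℕ) (P : List (ℕ × ℕ)) (inp : ℕ → Bool) (c : ℕ) : Bool :=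
  if c < n then inp c
  else if _h : (gt n P c).1 < c ∧ (gt n P c).2 < c then
    !(cellV n P inp (gt n P c).1 && cellV n P inp (gt n P c).2)
  else false
termination_by c
decreasing_by
  · exact _h.1
  · exact _h.2

theorem cellV_in {n : ℕ} {P : List (ℕ × ℕ)} {inp : ℕ → Bool} {c : ℕ} (hc : c < n) :
    cellV n P inp c = inp c := by
  rw [cellV, if_pos hc]

theorem isVal_cellV {n : ℕ} {P : List (ℕ × ℕ)} (hP : IsProg n P) (inp : ℕ → Bool) :
    IsVal n P (cellV n P inp) := by
  intro c hc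
  rw [cellV, if_neg (by omega), dif_pos (hP.gt_lt hc)]

/-- The values of the first `t` cells are determined by the rule. -/
theorem eq_cellV {n : ℕ} {P : List (ℕ × ℕ)} (hP : IsProg n P) {inp v : ℕ → Bool} {t : ℕ}
    (h0 : ∀ c < n, v c = inp c)
    (h1 : ∀ c, n ≤ c → c < t → v c = !(v (gt n P c).1 && v (gt n P c).2)) :
    ∀ c < t, v c = cellV n P inp c := by
  intro c
  induction c using Nat.strong_induction_on with
  | _ c ih =>
    intro hc
    rcases lt_or_ge c n with h | h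
    · rw [h0 c h, cellV_in h]
    · have hg := hP.gt_lt h
      rw [h1 c h hc, isVal_cellV hP inp c h, ih _ hg.1 (hg.1.trans hc), ih _ hg.2 (hg.2.trans hc)]

/-! ### The parameters of the machine -/

/-- the machine of a NAND program -/
def mpOf (n : ℕ) (P : List (ℕ × ℕ)) (k κ : ℕ) (off : Bool → ℕ) : MP where
  k := k
  κ := κ
  n := n
  L := stN k
  dir := dirS k
  sw := swS k (wireK (srcP n P) k)
  prev := fun x => (prevO (srcP n P) (2 ^ k) x).getD 0
  off := off

variable {n : ℕ} {P : List (ℕ × ℕ)} {k κ : ℕ} {off : Bool → ℕ}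

theorem mpOf_rt {α : Type} (w : ℕ → α) (s : ℕ) :
    (mpOf n P k κ off).rt w s = stW k (wireK (srcP n P) k) w s := by
  induction s with
  | zero => rfl
  | succ s ih =>
    funext x
    rw [stW_succ, ← ih]
    rfl

theorem mpOf_pos (a s : ℕ) :
    (mpOf n P k κ off).pos a s = posS k (wireK (srcP n P) k) a s := by
  induction s with
  | zero => rfl
  | succ s ih =>
    rw [posS_succ, ← ih]
    rfl

theorem mpOf_isCopy (x : ℕ) :
    (mpOf n P k κ off).isCopy x = true ↔ (srcP n P x).isSome = true := by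
  rw [isSome_srcP]
  unfold MP.isCopy
  rw [decide_eq_true_eq]
  change (x % 4 = 1 ∨ (x % 4 = 0 ∧ 4 * n ≤ x)) ↔ _
  omega

theorem mpOf_isIn (x : ℕ) :
    (mpOf n P k κ off).isIn x = true ↔ x % 4 = 0 ∧ x / 4 < n := by
  unfold MP.isIn
  rw [decide_eq_true_eq]
  change (x % 4 = 0 ∧ x < 4 * n) ↔ _
  omega

/-- the previous occurrence of a copy slot -/
theorem mpOf_prev (hP : IsProg n P) {x : ℕ} (hx : x < 2 ^ k)
    (hc : (mpOf n P k κ off).isCopy x = true) :
    ∃ a y, srcP n P x = some a ∧ prevO (srcP n P) (2 ^ k) x = some y ∧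
      (mpOf n P k κ off).prev x = y ∧ y < x ∧ (y = a ∨ srcP n P y = some a) := by
  rw [mpOf_isCopy] at hc
  obtain ⟨a, ha⟩ := Option.isSome_iff_exists.1 hc
  obtain ⟨y, h1, h2, h3, _⟩ := prevO_spec (hP.isSrc (2 ^ k)) hx ha
  refine ⟨a, y, ha, h1, ?_, h2, h3⟩
  change (prevO (srcP n P) (2 ^ k) x).getD 0 = y
  rw [h1]
  rfl

/-- The slot `4 i + 1` of the input cell `i` reads the slot `4 i`. -/
theorem mpOf_prev_inp (hP : IsProg n P) {i : ℕ} (hi : i < n) (hk : 4 * n ≤ 2 ^ k) :
    (mpOf n P k κ off).prev (4 * i + 1) = 4 * i := by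
  have hx : 4 * i + 1 < 2 ^ k := by omega
  have hs : srcP n P (4 * i + 1) = some (4 * i) := by
    rw [srcP_one (by omega) (by omega)]
    rfl
  obtain ⟨y, h1, h2, h3, h4⟩ := prevO_spec (hP.isSrc (2 ^ k)) hx hs
  change (prevO (srcP n P) (2 ^ k) (4 * i + 1)).getD 0 = 4 * i
  rw [h1]
  have := h4 (4 * i) (by omega) (Or.inl rfl)
  change y = 4 * i
  omega

/-- **The machine of a NAND program is good.** -/
theorem mpOf_good (hP : IsProg n P) (hk : 2 ≤ k) (hκ : k + 3 ≤ κ) (hn : 4 * n ≤ 2 ^ k)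
    (ho : ∀ z, off z < 2 ^ k) : (mpOf n P k κ off).Good where
  hk := hk
  hκ := hκ
  hn := hP.pos
  hnk := hn
  dir_lt _ hs := dirS_lt hs
  sw_symm s hs x _ := swS_symm hs _ x
  prev_lt x hx hc := by
    obtain ⟨a, y, _, _, h3, h4, _⟩ := mpOf_prev (k := k) hP hx hc
    rw [h3]
    exact h4
  route α w x hx hc := by
    obtain ⟨a, y, _, h2, h3, _, _⟩ := mpOf_prev (k := k) hP hx hc
    rw [h3, mpOf_rt]
    exact routed_prevO (hP.isSrc (2 ^ k)) w hx h2
  off_lt := ho
  prev_inp _ hi := mpOf_prev_inp hP hi hn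

/-- **The values of the slots.** -/
theorem mpOf_val (hP : IsProg n P) {v inp : ℕ → Bool} (hv : IsVal n P v)
    (h0 : ∀ c < n, v c = inp c) :
    ∀ x < 2 ^ k, (mpOf n P k κ off).val inp x = slotV n P v x := by
  intro x
  induction x using Nat.strong_induction_on with
  | _ x ih =>
    intro hx
    have h4 : x % 4 < 4 := Nat.mod_lt _ (by norm_num)
    rw [MP.val]
    by_cases h1 : (mpOf n P k κ off).isIn x = true
    · rw [if_pos h1]
      rw [mpOf_isIn] at h1
      rw [slotV_in h1.2 h1.1, h0 _ h1.2]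
    · rw [if_neg h1]
      by_cases h2 : (mpOf n P k κ off).isCopy x = true
      · obtain ⟨a, y, e1, _, e3, e4, e5⟩ := mpOf_prev hP hx h2
        rw [if_pos h2, e3, dif_pos e4, ih y e4 (e4.trans hx), slotV_src e1]
        rcases e5 with rfl | e5
        · rfl
        · rw [slotV_src e5]
      · rw [if_neg h2]
        rw [mpOf_isIn] at h1
        rw [mpOf_isCopy, isSome_srcP] at h2
        by_cases h3 : x % 4 = 2
        · rw [if_pos h3, slotV_nand hv h3, xor_two_of_mod h3, xor_three_of_mod h3,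
            ih (x - 2) (by omega) (by omega), ih (x - 1) (by omega) (by omega)]
        · rw [if_neg h3, slotV_three (by omega)]

/-! ### The output slots -/

theorem xor_low {m q x y : ℕ} (hx : x < 2 ^ m) (hy : y < 2 ^ m) :
    y ^^^ (2 ^ m * q + x) = 2 ^ m * q + (y ^^^ x) := by
  have h : y ^^^ x < 2 ^ m := Nat.xor_lt_two_pow hy hx
  apply Nat.eq_of_testBit_eq
  intro j
  rw [Nat.testBit_xor, Nat.testBit_two_pow_mul_add _ hx, Nat.testBit_two_pow_mul_add _ h]
  split_ifs with hj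
  · rw [Nat.testBit_xor]
  · rw [Nat.testBit_lt_two_pow (hy.trans_le (Nat.pow_le_pow_right (by norm_num) (not_lt.1 hj))),
      Bool.false_xor]

/-- The slot of the output cell `B + i`, for `2 ^ a ∣ B` and `i < 2 ^ a`. -/
theorem xor_out {a B i : ℕ} (hB : 2 ^ a ∣ B) (hi : i < 2 ^ a) :
    (4 * i) ^^^ (4 * B + 2) = 4 * (B + i) + 2 := by
  obtain ⟨q, rfl⟩ := hB
  have e1 : 4 * (2 ^ a * q) + 2 = 2 ^ (a + 2) * q + 2 := by ring
  have e2 : (2 : ℕ) ^ (a + 2) = 4 * 2 ^ a := by ring
  have h2 : 2 < 2 ^ (a + 2) := by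
    have : 0 < 2 ^ a := by positivity
    omega
  rw [e1, xor_low h2 (by omega)]
  have h3 := xor_pow_low (m := 1) (q := i) (x := 0) (by norm_num)
  have e3 : 2 ^ (1 + 1) * i + 0 = 4 * i := by norm_num
  have e4 : 2 ^ (1 + 1) * i + (2 ^ 1 + 0) = 4 * i + 2 := by norm_num
  have e5 : (2 : ℕ) ^ 1 = 2 := rfl
  rw [e3, e4, e5] at h3
  rw [h3, e2]
  ring

/-- the first output cells of the two circuits (`false`: `S`, `true`: `P`) -/
def outB (k a : ℕ) (z : Bool) : ℕ := if z then 2 ^ (k - 2) - 2 ^ a else 2 ^ (k - 2) - 2 * 2 ^ a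

/-- the output shifts -/
def offB (k a : ℕ) (z : Bool) : ℕ := 4 * outB k a z + 2

theorem dvd_outB {k a : ℕ} (h : a + 1 ≤ k - 2) (z : Bool) : 2 ^ a ∣ outB k a z := by
  have h1 : 2 ^ a ∣ 2 ^ (k - 2) := Nat.pow_dvd_pow 2 (by omega)
  unfold outB
  split_ifs
  · exact Nat.dvd_sub h1 dvd_rfl
  · exact Nat.dvd_sub h1 (Dvd.intro_left _ rfl)

theorem outB_add_le {k a : ℕ} (h : a + 1 ≤ k - 2) (z : Bool) : outB k a z + 2 ^ a ≤ 2 ^ (k - 2) := by
  have h1 : 2 * 2 ^ a ≤ 2 ^ (k - 2) := by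
    have := Nat.pow_le_pow_right (n := 2) (by norm_num) h
    rwa [pow_succ, mul_comm] at this
  unfold outB
  split_ifs <;> omega

theorem offB_lt {k a : ℕ} (h : a + 1 ≤ k - 2) (z : Bool) : offB k a z < 2 ^ k := by
  have h1 := outB_add_le h z
  have h2 : 2 ^ k = 4 * 2 ^ (k - 2) := by
    conv_lhs => rw [show k = k - 2 + 2 by omega, pow_succ, pow_succ]
    ring
  have h3 : 0 < 2 ^ a := by positivity
  unfold offB
  omega

/-- **The output bits are the values of the output cells.** -/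
theorem mpOf_nx (hP : IsProg n P) {a : ℕ} (ha : a + 1 ≤ k - 2) (hn : n ≤ 2 ^ a)
    {v inp : ℕ → Bool} (hv : IsVal n P v) (h0 : ∀ c < n, v c = inp c) (z : Bool) {i : ℕ}
    (hi : i < n) (hz : n ≤ outB k a z) :
    (mpOf n P k κ (offB k a)).nx z inp i = v (outB k a z + i) := by
  have h1 := outB_add_le ha z
  have h2 : 2 ^ k = 4 * 2 ^ (k - 2) := by
    conv_lhs => rw [show k = k - 2 + 2 by omega, pow_succ, pow_succ]
    ring
  have e : (4 * i) ^^^ (mpOf n P k κ (offB k a)).off z = cellSlot n (outB k a z + i) := by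
    change (4 * i) ^^^ (4 * outB k a z + 2) = _
    rw [xor_out (dvd_outB ha z) (hi.trans_le hn)]
    unfold cellSlot
    rw [if_neg (by omega)]
  unfold MP.nx
  rw [e, mpOf_val hP hv h0, slotV_cellSlot]
  unfold cellSlot
  rw [if_neg (by omega)]
  omega

end Vale.Agent.P330.H874
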