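import Vale.Agent.P330.H874.RMac
import Vale.Agent.P330.H933.Fld3
import Vale.Agent.Lib.PolyTime.Lists2

/-!
# Macros in polynomial time

`MT A l m`: the macro `m a` over the field `Fl (l a)` is given by a relative macro whose names are
computable in polynomial time.  `MTL A l L` is the same for weighted lists of macros.
-/

namespace Vale.Agent.P330.H874

open Vale.Agent.Lib.PolyTime

open Vale.Agent.P330.H16 (Ins Mac)

open Vale.Agent.P330.H933 (Fl cod FT)

/-! ### The encoding of instructions -/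

/-- instructions as raw data -/
def insRaw {F : Type} : Ins F → ℕ × (ℕ × ℕ × ℕ) × List (F × ℕ)
  | .lin l => (0, (0, 0, 0), l)
  | .tr j i => (1, (j, i, 0), [])
  | .mx j i => (2, (j, i, 0), [])
  | .pub p => (3, (p, 0, 0), [])
  | .sum i => (4, (0, i, 0), [])
  | .smul c i => (5, (0, c, i), [])

instance : Enc (Ins ℕ) := ⟨fun i => enc (insRaw i)⟩

variable {A : Set Word} {α β : Type*} [Enc α] [Enc β]

theorem PT.ofRaw {f : α → Ins ℕ} (h : PT A (fun a => insRaw (f a))) : PT A f := by
  obtain ⟨g, hg, hgf⟩ := h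
  exact ⟨g, hg, fun a => hgf a⟩

theorem PT.insRaw {f : α → Ins ℕ} (h : PT A f) : PT A (fun a => insRaw (f a)) := by
  obtain ⟨g, hg, hgf⟩ := h
  exact ⟨g, hg, fun a => hgf a⟩

/-! ### Relative registers -/

theorem PT.rat {n r : α → ℕ} {g : α → Rg} (hn : PT A n) (hr : PT A r) (hg : PT A g) :
    PT A (fun a => H874.rat (n a) (r a) (g a)) := by
  refine (PT.optCase (f := r) (g := fun a (q : Bool × ℕ) => bif q.1 then n a + q.2 else q.2) hg hr
    (PT.cond PT.snd'.fst (PT.add (hn.comp PT.fst') PT.snd'.snd) PT.snd'.snd)).congr fun a => ?_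
  unfold H874.rat
  rcases g a with _ | ⟨_ | _, i⟩ <;> rfl

theorem PT.rsh {o : α → ℕ} {g₀ g : α → Rg} (ho : PT A o) (h₀ : PT A g₀) (hg : PT A g) :
    PT A (fun a => H874.rsh (o a) (g₀ a) (g a)) := by
  refine (PT.optCase (f := g₀) (g := fun a (q : Bool × ℕ) =>
      bif q.1 then some (true, o a + q.2) else some (false, q.2)) hg h₀
    (PT.cond PT.snd'.fst (PT.some ((PT.const true).pair (PT.add (ho.comp PT.fst') PT.snd'.snd)))
      (PT.some ((PT.const false).pair PT.snd'.snd)))).congr fun a => ?_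
  unfold H874.rsh
  rcases g a with _ | ⟨_ | _, i⟩ <;> rfl

theorem PT.rinsSh {o : α → ℕ} {g₀ : α → Rg} {i : α → RIns ℕ} (ho : PT A o) (h₀ : PT A g₀)
    (hi : PT A i) : PT A (fun a => RIns.sh (o a) (g₀ a) (i a)) := by
  unfold RIns.sh
  refine PT.pair hi.fst (PT.pair (PT.pair hi.snd.fst.fst (PT.pair (PT.rsh ho h₀ hi.snd.fst.snd.fst)
    (PT.rsh ho h₀ hi.snd.fst.snd.snd))) ?_)
  exact PT.map hi.snd.snd (PT.pair PT.snd'.fst
    (PT.rsh (ho.comp PT.fst') (h₀.comp PT.fst') PT.snd'.snd))

theorem PT.rinsAt {n r : α → ℕ} {i : α → RIns ℕ} (hn : PT A n) (hr : PT A r) (hi : PT A i) :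
    PT A (fun a => RIns.at (n a) (r a) (i a)) := by
  have hr1 : PT A (fun a => H874.rat (n a) (r a) (i a).2.1.2.1) := PT.rat hn hr hi.snd.fst.snd.fst
  have hr2 : PT A (fun a => H874.rat (n a) (r a) (i a).2.1.2.2) := PT.rat hn hr hi.snd.fst.snd.snd
  have hp : PT A (fun a => (i a).2.1.1) := hi.snd.fst.fst
  have hl : PT A (fun a => (i a).2.2.map fun q => (q.1, H874.rat (n a) (r a) q.2)) :=
    PT.map hi.snd.snd (PT.pair PT.snd'.fst (PT.rat (hn.comp PT.fst') (hr.comp PT.fst') PT.snd'.snd))
  have ht : ∀ t : ℕ, PT A (fun a => decide ((i a).1 = t)) := fun t => PT.eqNat hi.fst (PT.const t)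
  have z : PT A (fun _ : α => (0 : ℕ)) := PT.const 0
  have e : PT A (fun _ : α => ([] : List (ℕ × ℕ))) := PT.const []
  have c : ∀ t : ℕ, PT A (fun _ : α => t) := fun t => PT.const t
  refine PT.ofRaw ?_
  refine (PT.ite (ht 0) ((c 0).pair ((z.pair (z.pair z)).pair hl))
    (PT.ite (ht 1) ((c 1).pair ((hp.pair (hr1.pair z)).pair e))
    (PT.ite (ht 2) ((c 2).pair ((hp.pair (hr1.pair z)).pair e))
    (PT.ite (ht 3) ((c 3).pair ((hp.pair (z.pair z)).pair e))
    (PT.ite (ht 4) ((c 4).pair ((z.pair (hr1.pair z)).pair e))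
      ((c 5).pair ((z.pair (hr1.pair hr2)).pair e))))))).congr fun a => ?_
  unfold RIns.at
  split_ifs <;> rfl

theorem PT.toMac {R : α → RMac ℕ} {n r : α → ℕ} (hR : PT A R) (hn : PT A n) (hr : PT A r) :
    PT A (fun a => (R a).toMac (n a) (r a)) :=
  PT.pair (PT.map hR.fst (PT.rinsAt (hn.comp PT.fst') (hr.comp PT.fst') PT.snd'))
    (PT.rat hn hr hR.snd)

/-! ### Sequences -/

theorem stR_fst_le (L : List (RMac ℕ)) : (stR L).1 ≤ esize L := by
  induction L using List.reverseRecOn with
  | nil => exact Nat.zero_le _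
  | append_singleton L m ih =>
    rw [stR_append, esize_append, esize_list_cons]
    have h1 := length_le_esize m.1
    have h2 := esize_fst_le m
    simp only
    omega

theorem esize_some_pair (b : Bool) (i : ℕ) : esize (some (b, i) : Rg) = esize i + 4 := by
  have h1 : esize (some (b, i) : Rg) = esize (b, i) + 1 := by
    simp [esize, enc_some]
  rw [h1, esize_pair, esize_bool]
  omega

theorem esize_stR_snd_le (L : List (RMac ℕ)) : esize (stR L).2 ≤ 2 * esize L + 5 := by
  induction L using List.reverseRecOn with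
  | nil =>
    have : esize (none : Rg) = 0 := rfl
    change esize (none : Rg) ≤ _
    omega
  | append_singleton L m ih =>
    rw [stR_append, esize_append, esize_list_cons]
    have h2 := esize_snd_le m
    have h3 := stR_fst_le L
    have h4 := esize_nat_le_self (stR L).1
    simp only
    rcases hg : m.2 with _ | ⟨_ | _, i⟩
    · simp only [rsh]; omega
    · simp only [rsh]
      rw [esize_some_pair]
      rw [hg, esize_some_pair] at h2
      omega
    · simp only [rsh]
      rw [esize_some_pair]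
      rw [hg, esize_some_pair] at h2
      have h5 := esize_nat_add_le (stR L).1 i
      omega

theorem PT.stR {L : α → List (RMac ℕ)} (hL : PT A L) : PT A (fun a => stR (L a)) := by
  unfold H874.stR
  have hb : PBd (fun a => 4 * esize (L a) + 6) :=
    ((PBd.const 4).mul hL.pbd).add (PBd.const 6)
  refine PT.foldl (f := fun _ (s : ℕ × Rg) (m : RMac ℕ) =>
    (s.1 + m.1.length, H874.rsh s.1 s.2 m.2)) hL (PT.const (0, none)) ?_ hb fun a i => ?_
  · exact PT.pair (PT.add PT.snd'.fst.fst (PT.length PT.snd'.snd.fst))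
      (PT.rsh PT.snd'.fst.fst PT.snd'.fst.snd PT.snd'.snd.snd)
  · have h1 := stR_fst_le ((L a).take i)
    have h2 := esize_stR_snd_le ((L a).take i)
    have h3 := esize_take_le i (L a)
    have h4 := esize_nat_le_self (H874.stR ((L a).take i)).1
    have h5 := esize_pair (H874.stR ((L a).take i)).1 (H874.stR ((L a).take i)).2
    change esize (H874.stR ((L a).take i)) ≤ _
    rw [Prod.mk.eta] at h5
    omega

theorem PT.seqR {L : α → List (RMac ℕ)} (hL : PT A L) : PT A (fun a => seqR (L a)) := by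
  unfold H874.seqR
  refine PT.pair ?_ (PT.stR hL).snd
  refine PT.flatMap (PT.range (PT.length hL) (PBd.length hL)) ?_
  have hL' : PT A (fun p : α × ℕ => L p.1) := hL.comp PT.fst'
  have h1 : PT A (fun p : α × ℕ => (L p.1).getD p.2 ([], none)) :=
    PT.getD hL' PT.snd' (PT.const ([], none))
  have h2 : PT A (fun p : α × ℕ => H874.stR ((L p.1).take p.2)) :=
    PT.stR (PT.take hL' PT.snd')
  exact PT.map h1.fst (PT.rinsSh (h2.fst.comp PT.fst') (h2.snd.comp PT.fst') PT.snd')

theorem PT.compR {R S : α → RMac ℕ} (hR : PT A R) (hS : PT A S) :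
    PT A (fun a => compR (R a) (S a)) := by
  unfold H874.compR
  have h1 := PT.length hR.fst
  exact PT.pair (PT.append hR.fst (PT.map hS.fst
    (PT.rinsSh (h1.comp PT.fst') (hR.snd.comp PT.fst') PT.snd'))) (PT.rsh h1 hR.snd hS.snd)

/-! ### Linear combinations -/

theorem PT.lcR {L : α → List (ℕ × RMac ℕ)} (hL : PT A L) : PT A (fun a => lcR (L a)) := by
  have hL' : PT A (fun p : α × ℕ => L p.1) := hL.comp PT.fst'
  have ho : PT A (fun p : α × ℕ => offL (L p.1) p.2) := by
    unfold offL
    exact PT.sum (PT.map (PT.take hL' PT.snd') (PT.length PT.snd'.snd.fst))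
  have hg : PT A (fun p : α × ℕ => (L p.1)[p.2]?) := PT.getElem? hL' PT.snd'
  have h1 : PT A (fun a => (lcAuxR (L a)).1) := by
    unfold lcAuxR
    refine PT.flatMap (PT.range (PT.length hL) (PBd.length hL)) ?_
    have h2 : PT A (fun p : α × ℕ => (((L p.1)[p.2]?.map fun q => q.2.1).getD [])) :=
      (PT.optCase (f := fun _ => []) (g := fun _ (q : ℕ × RMac ℕ) => q.2.1) hg (PT.const [])
        PT.snd'.snd.fst).congr fun p => by cases (L p.1)[p.2]? <;> rfl
    exact PT.map h2 (PT.rinsSh (ho.comp PT.fst') (PT.const none) PT.snd')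
  have h2 : PT A (fun a => (lcAuxR (L a)).2) := by
    unfold lcAuxR
    refine (PT.flatMap (l := fun a => List.range (L a).length)
      (f := fun a j => ((L a)[j]?.map fun q =>
        (q.1, H874.rsh (offL (L a) j) none q.2.2)).toList)
      (PT.range (PT.length hL) (PBd.length hL)) ?_).congr fun a => ?_
    · refine (PT.optCase (f := fun _ => []) (g := fun (p : α × ℕ) (q : ℕ × RMac ℕ) =>
        [(q.1, H874.rsh (offL (L p.1) p.2) none q.2.2)]) hg (PT.const []) ?_).congr fun p => ?_
      · exact PT.cons (PT.pair PT.snd'.fst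
          (PT.rsh (ho.comp PT.fst') (PT.const none) PT.snd'.snd.snd)) PT.nil
      · cases (L p.1)[p.2]? <;> rfl
    · rw [List.filterMap_eq_flatMap_toList]
  unfold H874.lcR
  refine PT.pair (PT.append h1 (PT.cons ?_ PT.nil))
    (PT.some ((PT.const true).pair (PT.length h1)))
  exact (PT.const 0).pair ((PT.const (0, none, none)).pair h2)

/-! ### Macros over the fields -/

/-- The macro is given by a relative macro with names in polynomial time. -/
def MT (A : Set Word) (l : α → ℕ) (m : ∀ a, Mac (Fl (l a))) : Prop :=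
  ∃ R : ∀ a, RMac (Fl (l a)), (∀ a, m a = (R a).toMac) ∧
    PT A (fun a => (R a).mapC (cod (l a)))

/-- Weighted lists of macros. -/
def MTL (A : Set Word) (l : α → ℕ) (L : ∀ a, List (Fl (l a) × Mac (Fl (l a)))) : Prop :=
  ∃ R : ∀ a, List (Fl (l a) × RMac (Fl (l a))),
    (∀ a, L a = (R a).map fun q => (q.1, q.2.toMac)) ∧
    PT A (fun a => mapCL (cod (l a)) (R a))

variable {l : α → ℕ}

namespace MT

variable {m m' : ∀ a, Mac (Fl (l a))}

theorem congr (h : MT A l m) (h2 : ∀ a, m a = m' a) : MT A l m' := by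
  obtain ⟨R, h3, h4⟩ := h
  exact ⟨R, fun a => by rw [← h2, h3], h4⟩

theorem comp (h : MT A l m) {u : β → α} (hu : PT A u) :
    MT A (fun b => l (u b)) (fun b => m (u b)) := by
  obtain ⟨R, h3, h4⟩ := h
  exact ⟨fun b => R (u b), fun b => h3 (u b),
    PT.comp (g := fun a => (R a).mapC (cod (l a))) h4 hu⟩

/-- The code of a macro is computable in polynomial time. -/
theorem code (h : MT A l m) {n r : α → ℕ} (hn : PT A n) (hr : PT A r) :
    PT A (fun a => ((m a (n a) (r a)).1.map (insMap (cod (l a))), (m a (n a) (r a)).2)) := by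
  obtain ⟨R, h3, h4⟩ := h
  refine (PT.toMac h4 hn hr).congr fun a => ?_
  rw [RMac.toMac_mapC, h3]

theorem id : MT A l (fun _ => H16.idM) :=
  ⟨fun _ => ([], none), fun _ => rfl, (PT.const ([], none)).congr fun _ => rfl⟩

theorem comp' (h : MT A l m) (h' : MT A l m') : MT A l (fun a => H16.comp (m a) (m' a)) := by
  obtain ⟨R, h3, h4⟩ := h
  obtain ⟨S, h5, h6⟩ := h'
  refine ⟨fun a => compR (R a) (S a), fun a => ?_, ?_⟩
  · beta_reduce
    rw [h3, h5, comp_toMac]
  · exact (PT.compR h4 h6).congr fun a => (compR_mapC _ _ _).symm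

/-- A single instruction. -/
theorem one {i : ∀ a, RIns (Fl (l a))} (hi : PT A (fun a => RIns.mapC (cod (l a)) (i a))) :
    MT A l (fun a => (oneR (i a)).toMac) :=
  ⟨fun a => oneR (i a), fun _ => rfl,
    (PT.pair (PT.cons hi PT.nil) (PT.const (some (true, 0)))).congr fun _ => rfl⟩

theorem tr {j : α → ℕ} (hj : PT A j) : MT A l (fun a => H16.trM (j a)) :=
  (one (i := fun a => (1, (j a, none, none), [])) (((PT.const 1).pair ((hj.pair
    (PT.const (none, none))).pair (PT.const []))).congr fun _ => rfl)).congr fun _ => rfl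

theorem mx {j : α → ℕ} (hj : PT A j) : MT A l (fun a => H16.mxM (j a)) :=
  (one (i := fun a => (2, (j a, none, none), [])) (((PT.const 2).pair ((hj.pair
    (PT.const (none, none))).pair (PT.const []))).congr fun _ => rfl)).congr fun _ => rfl

theorem sum : MT A l (fun _ => H16.sumM) :=
  (one (i := fun _ => (4, (0, none, none), [])) ((PT.const (4, (0, none, none), [])).congr
    fun _ => rfl)).congr fun _ => rfl

theorem sm {c : α → ℕ} (hc : PT A c) : MT A l (fun a => H16.smM (c a)) :=
  (one (i := fun a => (5, (0, some (false, c a), none), [])) (((PT.const 5).pair (((PT.const 0).pair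
    ((PT.some ((PT.const false).pair hc)).pair (PT.const none))).pair (PT.const []))).congr
      fun _ => rfl)).congr fun _ => rfl

/-- A hard-wired content (the input is ignored). -/
theorem pub {p : α → ℕ} (hp : PT A p) : MT A l (fun a n _ => ([.pub (p a)], n)) :=
  (one (i := fun a => (3, (p a, none, none), [])) (((PT.const 3).pair ((hp.pair
    (PT.const (none, none))).pair (PT.const []))).congr fun _ => rfl)).congr fun _ => rfl

/-- A multiple of the input. -/
theorem sc {c : ∀ a, Fl (l a)} (hc : FT A l c) : MT A l (fun a n r => ([.lin [(c a, r)]], n)) :=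
  (one (i := fun a => (0, (0, none, none), [(c a, none)])) (((PT.const 0).pair
    ((PT.const (0, none, none)).pair (PT.cons (hc.pair (PT.const none)) PT.nil))).congr
      fun _ => rfl)).congr fun _ => rfl

theorem lc {L : ∀ a, List (Fl (l a) × Mac (Fl (l a)))} (h : MTL A l L) :
    MT A l (fun a => H16.lc (L a)) := by
  obtain ⟨R, h3, h4⟩ := h
  refine ⟨fun a => lcR (R a), fun a => ?_, ?_⟩
  · beta_reduce
    rw [h3, lc_toMac]
  · exact (PT.lcR h4).congr fun a => (lcR_mapC _ _).symm

/-- Sequences of macros. -/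
theorem seq {γ : Type*} [Enc γ] {L : α → List γ} {M : ∀ a, γ → Mac (Fl (l a))} (hL : PT A L)
    (hM : MT A (fun p : α × γ => l p.1) (fun p => M p.1 p.2)) :
    MT A l (fun a => seqM ((L a).map (M a))) := by
  obtain ⟨R, h3, h4⟩ := hM
  refine ⟨fun a => seqR ((L a).map fun x => R (a, x)), fun a => ?_, ?_⟩
  · rw [← seqM_toMac, List.map_map]
    refine congrArg seqM ?_
    exact List.map_congr_left fun x _ => h3 (a, x)
  · refine (PT.seqR (PT.map (f := fun a x => (R (a, x)).mapC (cod (l a))) hL h4)).congr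
      fun a => ?_
    rw [seqR_mapC, List.map_map]
    rfl

/-- Iteration. -/
theorem iter {L : α → List ℕ} {M : ∀ a, ℕ → Mac (Fl (l a))} (hL : PT A L)
    (hM : MT A (fun p : α × ℕ => l p.1) (fun p => M p.1 p.2)) :
    MT A l (fun a => H16.iterM (M a) (L a)) :=
  (seq hL hM).congr fun _ => (iterM_eq _ _).symm

end MT

namespace MTL

variable {L L' : ∀ a, List (Fl (l a) × Mac (Fl (l a)))}

theorem congr (h : MTL A l L) (h2 : ∀ a, L a = L' a) : MTL A l L' := by
  obtain ⟨R, h3, h4⟩ := h
  exact ⟨R, fun a => by rw [← h2, h3], h4⟩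

theorem comp (h : MTL A l L) {u : β → α} (hu : PT A u) :
    MTL A (fun b => l (u b)) (fun b => L (u b)) := by
  obtain ⟨R, h3, h4⟩ := h
  exact ⟨fun b => R (u b), fun b => h3 (u b),
    PT.comp (g := fun a => mapCL (cod (l a)) (R a)) h4 hu⟩

theorem nil : MTL A l (fun _ => []) :=
  ⟨fun _ => [], fun _ => rfl, (PT.const []).congr fun _ => rfl⟩

theorem cons {c : ∀ a, Fl (l a)} {m : ∀ a, Mac (Fl (l a))} (hc : FT A l c) (hm : MT A l m)
    (h : MTL A l L) : MTL A l (fun a => (c a, m a) :: L a) := by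
  obtain ⟨S, h1, h2⟩ := hm
  obtain ⟨R, h3, h4⟩ := h
  refine ⟨fun a => (c a, S a) :: R a, fun a => ?_, ?_⟩
  · beta_reduce
    rw [h1, h3, List.map_cons]
  · exact (PT.cons (hc.pair h2) h4).congr fun a => rfl

theorem append (h : MTL A l L) (h' : MTL A l L') : MTL A l (fun a => L a ++ L' a) := by
  obtain ⟨R, h1, h2⟩ := h
  obtain ⟨S, h3, h4⟩ := h'
  refine ⟨fun a => R a ++ S a, fun a => ?_, ?_⟩
  · beta_reduce
    rw [h1, h3, List.map_append]
  · exact (PT.append h2 h4).congr fun a => (List.map_append ..).symm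

/-- Families. -/
theorem map {γ : Type*} [Enc γ] {K : α → List γ} {c : ∀ a, γ → Fl (l a)}
    {M : ∀ a, γ → Mac (Fl (l a))} (hK : PT A K)
    (hc : FT A (fun p : α × γ => l p.1) (fun p => c p.1 p.2))
    (hM : MT A (fun p : α × γ => l p.1) (fun p => M p.1 p.2)) :
    MTL A l (fun a => (K a).map fun x => (c a x, M a x)) := by
  obtain ⟨R, h3, h4⟩ := hM
  refine ⟨fun a => (K a).map fun x => (c a x, R (a, x)), fun a => ?_, ?_⟩
  · rw [List.map_map]
    exact List.map_congr_left fun x _ => Prod.ext rfl (h3 (a, x))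
  · refine (PT.map (f := fun a x => (cod (l a) (c a x), (R (a, x)).mapC (cod (l a)))) hK
      (PT.pair hc h4)).congr fun a => ?_
    unfold mapCL
    rw [List.map_map]
    rfl

end MTL

end Vale.Agent.P330.H874
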