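import Vale.Agent.P330.H874.TopPT

/-!
# The code and the registers of the content program in polynomial time
-/

namespace Vale.Agent.P330.H874

open Vale.Agent.Lib.PolyTime

open Vale.Agent.P330.H16 (Ins Mac UM Nm Kd Cmd PP genK compile)

open Vale.Agent.P330.H933 (Fl cod FT)

/-! ### Names of instructions -/

/-- The name of an instruction in the format of the public record: tag, direction or scalar,
register, linear combination. -/
def insN : Ins ℕ → ℕ × ℕ × ℕ × List (ℕ × ℕ)
  | .lin c => (0, 0, 0, c)
  | .tr j i => (1, j, i, [])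
  | .mx j i => (2, j, i, [])
  | .pub p => (3, p, 0, [])
  | .sum i => (4, 0, i, [])
  | .smul c i => (5, c, i, [])

section

variable {A : Set Word} {α : Type*} [Enc α]

theorem PT.insN {f : α → Ins ℕ} (hf : PT A f) : PT A (fun a => H874.insN (f a)) := by
  have h := PT.insRaw hf
  refine (PT.ite (p := fun a => (H874.insRaw (f a)).1 = 5) (PT.eqNat h.fst (PT.const 5))
    ((PT.const 5).pair (h.snd.fst.snd.fst.pair (h.snd.fst.snd.snd.pair (PT.const []))))
    (h.fst.pair (h.snd.fst.fst.pair (h.snd.fst.snd.fst.pair h.snd.snd)))).congr fun a => ?_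
  cases f a <;> simp [H874.insRaw, H874.insN]

end

/-! ### The content program -/

section

variable {F : Type} [Field F]

/-- The translation of the content program. -/
noncomputable def cpl (p : PP F) (off : Bool → ℕ) : (Nm → ℕ) × List (Ins F) :=
  compile (genK (H118.mac p.sc p.κ p.k off)) p.prog (fun x => p.base.idxOf x) p.base.length

end

variable {A : Set Word} {α : Type*} [Enc α] {l : α → ℕ}

namespace PPar

variable {p : ∀ a, PP (Fl (l a))} {off : α → Bool → ℕ}

/-- **The names of the instructions of the content program.** -/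
theorem ins (h : PPar A l p) (ho : ∀ z, PT A (fun a => off a z)) :
    PT A (fun a => (cpl (p a) (off a)).2.map (insMap (cod (l a)))) :=
  PT.cmplIns (h.cpar ho) h.prog h.base

/-- The names of the instructions in the format of the public record. -/
theorem insN (h : PPar A l p) (ho : ∀ z, PT A (fun a => off a z)) :
    PT A (fun a => (cpl (p a) (off a)).2.map fun i => H874.insN (insMap (cod (l a)) i)) :=
  (PT.map (f := fun _ i => H874.insN i) (h.ins ho) (PT.insN PT.snd')).congr fun a => by
    rw [List.map_map]
    rfl

/-- **The numbers of the registers of the content program.** -/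
theorem reg (h : PPar A l p) (ho : ∀ z, PT A (fun a => off a z)) {x : α → Nm} (hx : PT A x) :
    PT A (fun a => (cpl (p a) (off a)).1 (x a)) :=
  PT.cmplReg (h.cpar ho) h.prog h.base hx

theorem reg' (h : PPar A l p) (ho : ∀ z, PT A (fun a => off a z)) {γ : Type*} [Enc γ]
    {x : α × γ → Nm} (hx : PT A x) : PT A (fun q : α × γ => (cpl (p q.1) (off q.1)).1 (x q)) :=
  (h.comp PT.fst').reg (off := fun q : α × γ => off q.1) (fun z => (ho z).comp PT.fst') hx

/-- The registers of a list of names. -/
theorem regL (h : PPar A l p) (ho : ∀ z, PT A (fun a => off a z)) {x : α → List Nm}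
    (hx : PT A x) : PT A (fun a => (x a).map (cpl (p a) (off a)).1) :=
  PT.map hx (h.reg' ho PT.snd')

/-- The registers of a list of pairs of names. -/
theorem regL2 (h : PPar A l p) (ho : ∀ z, PT A (fun a => off a z)) {x : α → List (Nm × Nm)}
    (hx : PT A x) : PT A (fun a => (x a).map fun q =>
      ((cpl (p a) (off a)).1 q.1, (cpl (p a) (off a)).1 q.2)) :=
  PT.map hx ((h.reg' ho PT.snd'.fst).pair (h.reg' ho PT.snd'.snd))

/-- The registers of a list of triples of names. -/
theorem regL3 (h : PPar A l p) (ho : ∀ z, PT A (fun a => off a z)) {x : α → List (Nm × Nm × Nm)}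
    (hx : PT A x) : PT A (fun a => (x a).map fun q => ((cpl (p a) (off a)).1 q.1,
      (cpl (p a) (off a)).1 q.2.1, (cpl (p a) (off a)).1 q.2.2)) :=
  PT.map hx ((h.reg' ho PT.snd'.fst).pair ((h.reg' ho PT.snd'.snd.fst).pair
    (h.reg' ho PT.snd'.snd.snd)))

/-- **The asserted equalities.** -/
theorem eqsR (h : PPar A l p) (ho : ∀ z, PT A (fun a => off a z)) :
    PT A (fun a => (p a).eqs.map fun q =>
      ((cpl (p a) (off a)).1 q.1, (cpl (p a) (off a)).1 q.2)) :=
  h.regL2 ho h.eqs

/-- **The asserted products.** -/
theorem prodsR (h : PPar A l p) (ho : ∀ z, PT A (fun a => off a z)) :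
    PT A (fun a => (p a).prods.map fun q => ((cpl (p a) (off a)).1 q.1,
      (cpl (p a) (off a)).1 q.2.1, (cpl (p a) (off a)).1 q.2.2)) :=
  h.regL3 ho h.prods

/-- **The outputs.** -/
theorem outR (h : PPar A l p) (ho : ∀ z, PT A (fun a => off a z)) (d : Bool) :
    PT A (fun a => ((p a).outN d).map (cpl (p a) (off a)).1) :=
  h.regL ho (h.outN d)

/-- The outputs as a function of the number. -/
theorem outR' (h : PPar A l p) (ho : ∀ z, PT A (fun a => off a z)) {d : α → Bool} {i : α → ℕ}
    (hd : PT A d) (hi : PT A i) :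
    PT A (fun a => (cpl (p a) (off a)).1 (((p a).outN (d a)).getD (i a) .z)) := by
  refine h.reg ho ?_
  refine (PT.cond hd (PT.getD (h.outN true) hi (PT.const .z))
    (PT.getD (h.outN false) hi (PT.const .z))).congr fun a => ?_
  cases d a <;> rfl

end PPar

end Vale.Agent.P330.H874
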