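import Vale.Agent.P330.H874.RoutePT

/-!
# Copy constraints by one permutation

A slot `x` with `src x = some a` is a copy of the earlier slot `a` (which is not a copy itself).
`prevO src x` is the previous occurrence of the same value: the last `y < x` with `y = a` or
`src y = some a`.  `keyOf` extends an injective partial map `P` (destination `x` reads `P x`) to
destination keys which are a permutation of the numbers less than `N`.
-/

namespace Vale.Agent.P330.H874

open Vale.Agent.Lib.PolyTime

/-! ### The previous occurrence -/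

/-- `o = some y` as a Boolean -/
def isS (o : Option ℕ) (y : ℕ) : Bool :=
  match o with
  | some z => decide (z = y)
  | none => false

theorem isS_iff {o : Option ℕ} {y : ℕ} : isS o y = true ↔ o = some y := by
  cases o <;> simp [isS]

/-- the occurrences of the value of the slot `a` before `x` -/
def occL (src : ℕ → Option ℕ) (N a x : ℕ) : List ℕ :=
  (List.range N).filter fun y => decide (y < x) && (decide (y = a) || isS (src y) a)

/-- the previous occurrence of the value of the copy slot `x` -/
def prevO (src : ℕ → Option ℕ) (N x : ℕ) : Option ℕ :=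
  match src x with
  | some a => (occL src N a x).getLast?
  | none => none

theorem mem_occL {src : ℕ → Option ℕ} {N a x y : ℕ} :
    y ∈ occL src N a x ↔ y < N ∧ y < x ∧ (y = a ∨ src y = some a) := by
  unfold occL
  rw [List.mem_filter, List.mem_range, Bool.and_eq_true, Bool.or_eq_true, decide_eq_true_eq,
    decide_eq_true_eq, isS_iff]

theorem le_getLast {l : List ℕ} (hl : l.Pairwise (· < ·)) {y : ℕ} (hy : l.getLast? = some y) :
    ∀ z ∈ l, z ≤ y := by
  rw [List.getLast?_eq_some_iff] at hy
  obtain ⟨l', rfl⟩ := hy
  intro z hz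
  rw [List.mem_append, List.mem_singleton] at hz
  rcases hz with hz | rfl
  · exact ((List.pairwise_append.1 hl).2.2 z hz y (List.mem_singleton_self y)).le
  · exact le_rfl

/-- The sources are earlier slots which are not copies. -/
structure IsSrc (N : ℕ) (src : ℕ → Option ℕ) : Prop where
  lt : ∀ x < N, ∀ a, src x = some a → a < x
  none : ∀ x < N, ∀ a, src x = some a → src a = none

theorem prevO_none {src : ℕ → Option ℕ} {N x : ℕ} (h : src x = none) : prevO src N x = none := by
  unfold prevO
  rw [h]

theorem prevO_spec {N : ℕ} {src : ℕ → Option ℕ} (hs : IsSrc N src) {x a : ℕ} (hx : x < N)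
    (ha : src x = some a) :
    ∃ y, prevO src N x = some y ∧ y < x ∧ (y = a ∨ src y = some a) ∧
      ∀ z < x, (z = a ∨ src z = some a) → z ≤ y := by
  unfold prevO
  rw [ha]
  have h1 := hs.lt x hx a ha
  have h2 : a ∈ occL src N a x := mem_occL.2 ⟨h1.trans hx, h1, Or.inl rfl⟩
  obtain ⟨y, hy⟩ : ∃ y, (occL src N a x).getLast? = some y := by
    cases h : (occL src N a x).getLast? with
    | none =>
      rw [List.getLast?_eq_none_iff] at h
      rw [h] at h2
      simp at h2
    | some y => exact ⟨y, rfl⟩
  have hp : (occL src N a x).Pairwise (· < ·) := List.pairwise_lt_range.filter _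
  have h3 := mem_occL.1 (List.mem_of_getLast? hy)
  exact ⟨y, hy, h3.2.1, h3.2.2, fun z hz hz2 =>
    le_getLast hp hy z (mem_occL.2 ⟨hz.trans hx, hz, hz2⟩)⟩

theorem prevO_lt {N : ℕ} {src : ℕ → Option ℕ} (hs : IsSrc N src) {x y : ℕ} (hx : x < N)
    (h : prevO src N x = some y) : y < x := by
  cases ha : src x with
  | none => rw [prevO_none ha] at h; simp at h
  | some a =>
    obtain ⟨z, h1, h2, _⟩ := prevO_spec hs hx ha
    rw [h1] at h
    obtain rfl := Option.some.inj h
    exact h2

theorem prevO_inj {N : ℕ} {src : ℕ → Option ℕ} (hs : IsSrc N src) {x x' y : ℕ} (hx : x < N)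
    (hx' : x' < N) (h : prevO src N x = some y) (h' : prevO src N x' = some y) : x = x' := by
  -- by symmetry it is enough to exclude `x < x'`
  have key : ∀ u u' : ℕ, u < N → u' < N → prevO src N u = some y → prevO src N u' = some y →
      ¬ u < u' := by
    intro u u' hu hu' hp hp' hlt
    cases ha : src u with
    | none => rw [prevO_none ha] at hp; simp at hp
    | some a =>
      cases ha' : src u' with
      | none => rw [prevO_none ha'] at hp'; simp at hp'
      | some a' =>
        obtain ⟨z, h1, h2, h3, _⟩ := prevO_spec hs hu ha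
        obtain ⟨z', h1', h2', h3', h4'⟩ := prevO_spec hs hu' ha'
        rw [h1] at hp
        obtain rfl := Option.some.inj hp
        rw [h1'] at hp'
        obtain rfl := Option.some.inj hp'
        have e : a = a' := by
          rcases h3 with h3 | h3 <;> rcases h3' with h3' | h3'
          · rw [← h3, ← h3']
          · have := hs.none u hu a ha
            rw [← h3, h3'] at this
            simp at this
          · have := hs.none u' hu' a' ha'
            rw [← h3', h3] at this
            simp at this
          · rw [h3] at h3'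
            exact Option.some.inj h3'
        subst e
        have := h4' u hlt (Or.inr ha)
        omega
  rcases lt_trichotomy x x' with h1 | h1 | h1
  · exact absurd h1 (key x x' hx hx' h h')
  · exact h1
  · exact absurd h1 (key x' x hx' hx h' h)

/-- **Copies may be read from the previous occurrence**, for every prefix `t`. -/
theorem prevO_iff {α : Type*} {N : ℕ} {src : ℕ → Option ℕ} (hs : IsSrc N src) (w : ℕ → α) {t : ℕ}
    (ht : t ≤ N) :
    (∀ x < t, ∀ y, prevO src N x = some y → w x = w y) ↔
      (∀ x < t, ∀ a, src x = some a → w x = w a) := by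
  constructor
  · intro h x
    induction x using Nat.strong_induction_on with
    | _ x ih =>
      intro hx a ha
      obtain ⟨y, h1, h2, h3, _⟩ := prevO_spec hs (hx.trans_le ht) ha
      rw [h x hx y h1]
      rcases h3 with rfl | h3
      · rfl
      · exact ih y h2 (h2.trans hx) a h3
  · intro h x hx y hy
    cases ha : src x with
    | none => rw [prevO_none ha] at hy; simp at hy
    | some a =>
      obtain ⟨z, h1, h2, h3, _⟩ := prevO_spec hs (hx.trans_le ht) ha
      rw [h1] at hy
      obtain rfl := Option.some.inj hy
      rw [h x hx a ha]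
      rcases h3 with rfl | h3
      · rfl
      · exact (h z (h2.trans hx) a h3).symm

/-! ### Extension to a permutation -/

/-- the source `y` is used -/
def used (P : ℕ → Option ℕ) (N y : ℕ) : Bool := (List.range N).any fun x => isS (P x) y

/-- the destinations which read nothing -/
def freeD (P : ℕ → Option ℕ) (N : ℕ) : List ℕ := (List.range N).filter fun x => (P x).isNone

/-- the number of the unused sources before `y` -/
def rk (P : ℕ → Option ℕ) (N y : ℕ) : ℕ :=
  ((List.range N).filter fun z => decide (z < y) && !used P N z).length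

/-- the destination of `y` -/
def keyOf (P : ℕ → Option ℕ) (N y : ℕ) : ℕ :=
  ((List.range N).find? fun x => isS (P x) y).getD ((freeD P N).getD (rk P N y) 0)

/-- `P` is an injective partial map on the numbers less than `N`. -/
structure IsPInj (N : ℕ) (P : ℕ → Option ℕ) : Prop where
  lt : ∀ x < N, ∀ y, P x = some y → y < N
  inj : ∀ x < N, ∀ x' < N, ∀ y, P x = some y → P x' = some y → x = x'

theorem used_iff {P : ℕ → Option ℕ} {N y : ℕ} : used P N y = true ↔ ∃ x < N, P x = some y := by
  unfold used
  rw [List.any_eq_true]
  simp only [List.mem_range, isS_iff]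

theorem used_false {P : ℕ → Option ℕ} {N y : ℕ} : used P N y = false ↔ ∀ x < N, P x ≠ some y := by
  rw [← Bool.not_eq_true, used_iff]
  exact ⟨fun h x hx he => h ⟨x, hx, he⟩, fun h ⟨x, hx, he⟩ => h x hx he⟩

theorem keyOf_used {P : ℕ → Option ℕ} {N : ℕ} (hP : IsPInj N P) {x y : ℕ} (hx : x < N)
    (h : P x = some y) : keyOf P N y = x := by
  unfold keyOf
  cases hf : (List.range N).find? fun x => isS (P x) y with
  | none =>
    rw [List.find?_eq_none] at hf
    exact absurd (isS_iff.2 h) (hf x (List.mem_range.2 hx))
  | some z =>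
    have h1 := List.mem_range.1 (List.mem_of_find?_eq_some hf)
    have h2 := isS_iff.1 (List.find?_some (p := fun x => isS (P x) y) hf)
    exact hP.inj z h1 x hx y h2 h

theorem keyOf_unused {P : ℕ → Option ℕ} {N y : ℕ} (h : used P N y = false) :
    keyOf P N y = (freeD P N).getD (rk P N y) 0 := by
  unfold keyOf
  rw [List.find?_eq_none.2]
  · rfl
  · intro x hx
    rw [isS_iff]
    exact used_false.1 h x (List.mem_range.1 hx)

theorem length_filter_range (N : ℕ) (p : ℕ → Bool) :
    ((List.range N).filter p).length = ((Finset.range N).filter fun x => p x = true).card := by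
  induction N with
  | zero => rfl
  | succ N ih =>
    rw [List.range_succ, List.filter_append, List.length_append, ih, Finset.range_add_one,
      Finset.filter_insert]
    by_cases h : p N = true
    · rw [if_pos h, Finset.card_insert_of_notMem (by simp), List.filter_singleton, h]
      rfl
    · rw [if_neg h, List.filter_singleton, Bool.eq_false_iff.2 h]
      rfl

/-- As many sources are unused as there are destinations which read nothing. -/
theorem card_unused {P : ℕ → Option ℕ} {N : ℕ} (hP : IsPInj N P) :
    ((Finset.range N).filter fun y => used P N y = false).card = (freeD P N).length := by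
  unfold freeD
  rw [length_filter_range]
  have h1 : ((Finset.range N).filter fun y => used P N y = true).card =
      ((Finset.range N).filter fun x => ¬ (P x).isNone = true).card := by
    symm
    refine Finset.card_bij (fun x _ => (P x).getD 0) ?_ ?_ ?_
    · intro x hx
      rw [Finset.mem_filter, Finset.mem_range] at hx
      cases h : P x with
      | none => rw [h] at hx; simp at hx
      | some y =>
        rw [Finset.mem_filter, Finset.mem_range]
        exact ⟨hP.lt x hx.1 y h, used_iff.2 ⟨x, hx.1, h⟩⟩
    · intro x hx x' hx' he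
      rw [Finset.mem_filter, Finset.mem_range] at hx hx'
      cases h : P x with
      | none => rw [h] at hx; simp at hx
      | some y =>
        cases h' : P x' with
        | none => rw [h'] at hx'; simp at hx'
        | some y' =>
          rw [h, h'] at he
          simp only [Option.getD_some] at he
          subst he
          exact hP.inj x hx.1 x' hx'.1 y h h'
    · intro y hy
      rw [Finset.mem_filter, Finset.mem_range] at hy
      obtain ⟨x, hx, h⟩ := used_iff.1 hy.2
      refine ⟨x, ?_, ?_⟩
      · rw [Finset.mem_filter, Finset.mem_range, h]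
        exact ⟨hx, by simp⟩
      · rw [h]; rfl
  have h2 := Finset.card_filter_add_card_filter_not (s := Finset.range N)
    (fun y => used P N y = true)
  have h3 := Finset.card_filter_add_card_filter_not (s := Finset.range N)
    (fun x => (P x).isNone = true)
  have h4 : ((Finset.range N).filter fun y => ¬ used P N y = true) =
      (Finset.range N).filter fun y => used P N y = false := by
    refine Finset.filter_congr fun y _ => ?_
    rw [Bool.not_eq_true]
  rw [h4] at h2
  omega

theorem rk_eq (P : ℕ → Option ℕ) {N y : ℕ} (hy : y ≤ N) :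
    rk P N y = ((Finset.range y).filter fun z => used P N z = false).card := by
  unfold rk
  rw [length_filter_range]
  congr 1
  ext z
  simp only [Finset.mem_filter, Finset.mem_range, Bool.and_eq_true, decide_eq_true_eq,
    Bool.not_eq_true']
  constructor
  · rintro ⟨_, h2, h3⟩; exact ⟨h2, h3⟩
  · rintro ⟨h2, h3⟩; exact ⟨h2.trans_le hy, h2, h3⟩

theorem rk_lt_rk {P : ℕ → Option ℕ} {N y z : ℕ} (hy : used P N y = false) (hyz : y < z)
    (hz : z ≤ N) : rk P N y < rk P N z := by
  rw [rk_eq P (by omega), rk_eq P hz]
  refine Finset.card_lt_card ?_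
  rw [Finset.ssubset_iff_of_subset]
  · refine ⟨y, ?_, ?_⟩
    · rw [Finset.mem_filter, Finset.mem_range]; exact ⟨hyz, hy⟩
    · rw [Finset.mem_filter, Finset.mem_range]; simp
  · refine Finset.filter_subset_filter _ fun u hu => ?_
    rw [Finset.mem_range] at hu ⊢
    omega

theorem rk_lt {P : ℕ → Option ℕ} {N : ℕ} (hP : IsPInj N P) {y : ℕ} (hy : y < N)
    (h : used P N y = false) : rk P N y < (freeD P N).length := by
  rw [← card_unused hP, ← rk_eq P le_rfl]
  exact rk_lt_rk h hy le_rfl

theorem mem_freeD {P : ℕ → Option ℕ} {N x : ℕ} : x ∈ freeD P N ↔ x < N ∧ P x = none := by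
  unfold freeD
  rw [List.mem_filter, List.mem_range, Option.isNone_iff_eq_none]

theorem keyOf_unused_mem {P : ℕ → Option ℕ} {N : ℕ} (hP : IsPInj N P) {y : ℕ} (hy : y < N)
    (h : used P N y = false) : keyOf P N y ∈ freeD P N := by
  rw [keyOf_unused h, List.getD_eq_getElem _ _ (rk_lt hP hy h)]
  exact List.getElem_mem _

/-- **The keys are a permutation** (I). -/
theorem keyOf_lt {P : ℕ → Option ℕ} {N : ℕ} (hP : IsPInj N P) {y : ℕ} (hy : y < N) :
    keyOf P N y < N := by
  cases h : used P N y with
  | true =>
    obtain ⟨x, hx, hxy⟩ := used_iff.1 h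
    rw [keyOf_used hP hx hxy]
    exact hx
  | false => exact (mem_freeD.1 (keyOf_unused_mem hP hy h)).1

/-- **The keys are a permutation** (II). -/
theorem keyOf_inj {P : ℕ → Option ℕ} {N : ℕ} (hP : IsPInj N P) {y y' : ℕ} (hy : y < N)
    (hy' : y' < N) (h : keyOf P N y = keyOf P N y') : y = y' := by
  cases hu : used P N y with
  | true =>
    obtain ⟨x, hx, hxy⟩ := used_iff.1 hu
    rw [keyOf_used hP hx hxy] at h
    cases hu' : used P N y' with
    | true =>
      obtain ⟨x', hx', hxy'⟩ := used_iff.1 hu'
      rw [keyOf_used hP hx' hxy'] at h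
      subst h
      rw [hxy] at hxy'
      exact Option.some.inj hxy'
    | false =>
      have := (mem_freeD.1 (keyOf_unused_mem hP hy' hu')).2
      rw [← h, hxy] at this
      simp at this
  | false =>
    cases hu' : used P N y' with
    | true =>
      obtain ⟨x', hx', hxy'⟩ := used_iff.1 hu'
      rw [keyOf_used hP hx' hxy'] at h
      have := (mem_freeD.1 (keyOf_unused_mem hP hy hu)).2
      rw [h, hxy'] at this
      simp at this
    | false =>
      have h1 := rk_lt hP hy hu
      have h2 := rk_lt hP hy' hu'
      rw [keyOf_unused hu, keyOf_unused hu', List.getD_eq_getElem _ _ h1,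
        List.getD_eq_getElem _ _ h2] at h
      have hnd : (freeD P N).Nodup := List.nodup_range.filter _
      have h3 := (hnd.getElem_inj_iff).1 h
      rcases lt_trichotomy y y' with h4 | h4 | h4
      · exact absurd h3 (rk_lt_rk hu h4 hy'.le).ne
      · exact h4
      · exact absurd h3.symm (rk_lt_rk hu' h4 hy.le).ne

theorem isPInj_prevO {N : ℕ} {src : ℕ → Option ℕ} (hs : IsSrc N src) :
    IsPInj N (prevO src N) where
  lt _ hx _ h := (prevO_lt hs hx h).trans hx
  inj _ hx _ hx' _ h h' := prevO_inj hs hx hx' h h'

/-! ### The wiring of a slot program -/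

/-- the destination keys for the copy slots `src` on `2 ^ k` slots -/
def wireK (src : ℕ → Option ℕ) (k : ℕ) : ℕ → ℕ := keyOf (prevO src (2 ^ k)) (2 ^ k)

theorem wireK_lt {k : ℕ} {src : ℕ → Option ℕ} (hs : IsSrc (2 ^ k) src) :
    ∀ x < 2 ^ k, wireK src k x < 2 ^ k := fun _ hx => keyOf_lt (isPInj_prevO hs) hx

theorem wireK_inj {k : ℕ} {src : ℕ → Option ℕ} (hs : IsSrc (2 ^ k) src) :
    ∀ x < 2 ^ k, ∀ y < 2 ^ k, wireK src k x = wireK src k y → x = y :=
  fun _ hx _ hy h => keyOf_inj (isPInj_prevO hs) hx hy h

theorem wireK_prevO {k : ℕ} {src : ℕ → Option ℕ} (hs : IsSrc (2 ^ k) src) {x y : ℕ}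
    (hx : x < 2 ^ k) (h : prevO src (2 ^ k) x = some y) : wireK src k y = x :=
  keyOf_used (isPInj_prevO hs) hx h

/-- the word `w` after the routing -/
def routed {α : Type*} (src : ℕ → Option ℕ) (k : ℕ) (w : ℕ → α) : ℕ → α :=
  stW k (wireK src k) w (stN k)

theorem routed_prevO {α : Type*} {k : ℕ} {src : ℕ → Option ℕ} (hs : IsSrc (2 ^ k) src)
    (w : ℕ → α) {x y : ℕ} (hx : x < 2 ^ k) (h : prevO src (2 ^ k) x = some y) :
    routed src k w x = w y := by
  have hy : y < 2 ^ k := (isPInj_prevO hs).lt x hx y h
  have := stW_final (wireK_lt hs) (wireK_inj hs) w hy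
  rwa [wireK_prevO hs hx h] at this

/-- **The wiring.** A word agrees at all copy slots before `t` with the routed word if and only if
all copy slots before `t` carry the values of their sources. -/
theorem wiring {α : Type*} {k : ℕ} {src : ℕ → Option ℕ} (hs : IsSrc (2 ^ k) src) (w : ℕ → α)
    {t : ℕ} (ht : t ≤ 2 ^ k) :
    (∀ x < t, (src x).isSome = true → w x = routed src k w x) ↔
      (∀ x < t, ∀ a, src x = some a → w x = w a) := by
  rw [← prevO_iff hs w ht]
  constructor
  · intro h x hx y hy
    have h1 : (src x).isSome = true := by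
      cases ha : src x with
      | none => rw [prevO_none ha] at hy; simp at hy
      | some a => rfl
    rw [h x hx h1, routed_prevO hs w (hx.trans_le ht) hy]
  · intro h x hx hsx
    obtain ⟨a, ha⟩ := Option.isSome_iff_exists.1 hsx
    obtain ⟨y, hy, _⟩ := prevO_spec hs (hx.trans_le ht) ha
    rw [routed_prevO hs w (hx.trans_le ht) hy]
    exact h x hx y hy

/-- The routed word at a copy slot depends only on earlier slots, and it is the value of the source
if the earlier copy slots are right. -/
theorem routed_eq {α : Type*} {k : ℕ} {src : ℕ → Option ℕ} (hs : IsSrc (2 ^ k) src) (w : ℕ → α)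
    {x a : ℕ} (hx : x < 2 ^ k) (ha : src x = some a)
    (h : ∀ y < x, ∀ b, src y = some b → w y = w b) : routed src k w x = w a := by
  obtain ⟨y, h1, h2, h3, _⟩ := prevO_spec hs hx ha
  rw [routed_prevO hs w hx h1]
  rcases h3 with rfl | h3
  · rfl
  · exact h y h2 a h3

/-! ### Polynomial time -/

variable {A : Set Word} {α : Type*} [Enc α]

theorem PT.isS {o : α → Option ℕ} {y : α → ℕ} (ho : PT A o) (hy : PT A y) :
    PT A (fun a => isS (o a) (y a)) := by
  refine (PT.optCase (f := fun _ => false) (g := fun a z => decide (z = y a)) ho (PT.const false)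
    (PT.eqNat PT.snd' (hy.comp PT.fst'))).congr fun a => ?_
  unfold H874.isS
  cases o a <;> rfl

theorem PT.isNone {β : Type*} [Enc β] {o : α → Option β} (ho : PT A o) :
    PT A (fun a => (o a).isNone) := by
  refine (PT.not (PT.isSome ho)).congr fun a => ?_
  cases o a <;> rfl

/-- The previous occurrences for a list of sources. -/
theorem PT.prevO {sl : α → List (Option ℕ)} {N x : α → ℕ} (hs : PT A sl) (hN : PT A N)
    (hb : PBd N) (hx : PT A x) : PT A (fun a => H874.prevO (H874.fn none (sl a)) (N a) (x a)) := by
  have hsx : PT A (fun a => H874.fn none (sl a) (x a)) := PT.fn none hs hx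
  have h1 : PT A (fun p : α × ℕ =>
      (occL (H874.fn none (sl p.1)) (N p.1) p.2 (x p.1)).getLast?) := by
    refine PT.getLast? ?_
    unfold occL
    have hN' : PT A (fun p : α × ℕ => N p.1) := hN.comp PT.fst'
    have hb' : PBd (fun p : α × ℕ => N p.1) := hb.comp (PT.fst' (A := A))
    refine PT.filter (PT.range hN' hb') (PT.and (PT.lt PT.snd' (hx.comp PT.fst'.fst))
      (PT.or (PT.eqNat PT.snd' PT.fst'.snd)
        (PT.isS (PT.fn none (hs.comp PT.fst'.fst) PT.snd') PT.fst'.snd)))
  refine (PT.optCase (f := fun _ => none)
    (g := fun a c => (occL (H874.fn none (sl a)) (N a) c (x a)).getLast?) hsx (PT.const none)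
    h1).congr fun a => ?_
  unfold H874.prevO
  cases H874.fn none (sl a) (x a) <;> rfl

/-- The keys for a list of the values of the partial map. -/
theorem PT.keyOf {pl : α → List (Option ℕ)} {N y : α → ℕ} (hp : PT A pl) (hN : PT A N)
    (hb : PBd N) (hy : PT A y) : PT A (fun a => H874.keyOf (H874.fn none (pl a)) (N a) (y a)) := by
  have hN' : PT A (fun p : α × ℕ => N p.1) := hN.comp PT.fst'
  have hb' : PBd (fun p : α × ℕ => N p.1) := hb.comp (PT.fst' (A := A))
  have hused : PT A (fun p : α × ℕ => used (H874.fn none (pl p.1)) (N p.1) p.2) := by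
    unfold used
    exact PT.any (PT.range hN' hb')
      (PT.isS (PT.fn none (hp.comp PT.fst'.fst) PT.snd') PT.fst'.snd)
  have hfree : PT A (fun a => freeD (H874.fn none (pl a)) (N a)) := by
    unfold freeD
    exact PT.filter (PT.range hN hb) (PT.isNone (PT.fn none (hp.comp PT.fst') PT.snd'))
  have hrk : PT A (fun a => rk (H874.fn none (pl a)) (N a) (y a)) := by
    unfold rk
    exact PT.length (PT.filter (PT.range hN hb)
      (PT.and (PT.lt PT.snd' (hy.comp PT.fst')) (PT.not hused)))
  unfold H874.keyOf
  exact PT.optGetD (PT.find? (PT.range hN hb)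
    (PT.isS (PT.fn none (hp.comp PT.fst') PT.snd') (hy.comp PT.fst')))
    (PT.getD hfree hrk (PT.const 0))

theorem keyOf_congr {P P' : ℕ → Option ℕ} {N : ℕ} (h : ∀ x < N, P x = P' x) (y : ℕ) :
    keyOf P N y = keyOf P' N y := by
  have h1 : ∀ y, (List.range N).find? (fun x => isS (P x) y) =
      (List.range N).find? (fun x => isS (P' x) y) := fun y =>
    List.find?_congr fun x hx => by rw [h x (List.mem_range.1 hx)]
  have h2 : ∀ y, used P N y = used P' N y := fun y => by
    rw [Bool.eq_iff_iff, used_iff, used_iff]
    constructor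
    · rintro ⟨x, hx, hxy⟩; exact ⟨x, hx, by rw [← h x hx]; exact hxy⟩
    · rintro ⟨x, hx, hxy⟩; exact ⟨x, hx, by rw [h x hx]; exact hxy⟩
  have h3 : freeD P N = freeD P' N :=
    List.filter_congr fun x hx => by rw [h x (List.mem_range.1 hx)]
  have h4 : rk P N y = rk P' N y := by
    unfold rk
    simp only [h2]
  unfold keyOf
  rw [h1, h3, h4]

/-- the list of the destination keys for a list of sources -/
def wireL (sl : List (Option ℕ)) (k : ℕ) : List ℕ := tab (2 ^ k) (wireK (fn none sl) k)

theorem fn_wireL (sl : List (Option ℕ)) (k : ℕ) {x : ℕ} (hx : x < 2 ^ k) :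
    fn 0 (wireL sl k) x = wireK (fn none sl) k x := fn_tab _ _ hx

/-- **The destination keys are computable in polynomial time.** -/
theorem PT.wireL {sl : α → List (Option ℕ)} {k : α → ℕ} (hs : PT A sl) (hk : PT A k)
    (hb : PBd fun a => 2 ^ k a) : PT A (fun a => H874.wireL (sl a) (k a)) := by
  have hkb := PBd_of_two_pow hb
  have hp : PT A (fun a => 2 ^ k a) := PT.pow (PT.const 2) hk hkb
  have hp' : PT A (fun p : α × ℕ => 2 ^ k p.1) := hp.comp PT.fst'
  have hb' : PBd (fun p : α × ℕ => 2 ^ k p.1) := hb.comp (PT.fst' (A := A))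
  -- the table of the previous occurrences
  have h1 : PT A (fun a => H874.tab (2 ^ k a) (H874.prevO (H874.fn none (sl a)) (2 ^ k a))) :=
    PT.tab hp hb (PT.prevO (hs.comp PT.fst') hp' hb' PT.snd')
  have h2 : PT A (fun a => H874.tab (2 ^ k a)
      (H874.keyOf (H874.fn none (H874.tab (2 ^ k a)
        (H874.prevO (H874.fn none (sl a)) (2 ^ k a)))) (2 ^ k a))) :=
    PT.tab hp hb (PT.keyOf (h1.comp PT.fst') hp' hb' PT.snd')
  refine h2.congr fun a => tab_congr fun x _ => ?_
  unfold wireK
  exact keyOf_congr (fun y hy => fn_tab _ _ hy) x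

end Vale.Agent.P330.H874
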