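import Mathlib.Data.Nat.Bitwise
import Mathlib.Data.List.Basic
import Mathlib.Tactic

/-!
# Routing a permutation by conditional swaps along hypercube directions

`stages k` is the list of the comparators of the bitonic sorting network on `2 ^ k` positions, each
given by the number `t` of the bit of the position which decides about the direction of the
comparison, and by the number `j` of the bit which is flipped.  For destination keys `K` the switch
words `route (stages k) K` move, for every word `w`, the entry with the key `x` to the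
position `x`.
-/

namespace Vale.Agent.P330.H874

/-! ### Flipping a bit -/

theorem xor_pow_low {m q x : ℕ} (hx : x < 2 ^ m) :
    (2 ^ (m + 1) * q + x) ^^^ 2 ^ m = 2 ^ (m + 1) * q + (2 ^ m + x) := by
  have h1 : x < 2 ^ (m + 1) := hx.trans (Nat.pow_lt_pow_right (by norm_num) (by omega))
  have h2 : 2 ^ m + x < 2 ^ (m + 1) := by rw [pow_succ]; omega
  apply Nat.eq_of_testBit_eq
  intro j
  rw [Nat.testBit_xor, Nat.testBit_two_pow_mul_add _ h1, Nat.testBit_two_pow_mul_add _ h2,
    Nat.testBit_two_pow]
  have h3 : (2 ^ m + x).testBit j = if j < m then x.testBit j else decide (j = m) := by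
    have := Nat.testBit_two_pow_mul_add 1 hx j
    rw [mul_one] at this
    rw [this]
    split_ifs with h
    · rfl
    · rcases Nat.eq_or_lt_of_le (not_lt.1 h) with h4 | h4
      · subst h4; simp
      · rw [Nat.testBit_one_eq_true_iff_self_eq_zero.not.2 (by omega) |> Bool.eq_false_iff.2]
        simp; omega
  by_cases hj : j < m + 1
  · rw [if_pos hj, if_pos hj, h3]
    by_cases hj2 : j < m
    · have : ¬ m = j := by omega
      simp [hj2, this]
    · have : j = m := by omega
      subst this
      simp [Nat.testBit_lt_two_pow hx]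
  · rw [if_neg hj, if_neg hj]
    have : ¬ m = j := by omega
    simp [this]

theorem xor_pow_high {m q x : ℕ} (hx : x < 2 ^ m) :
    (2 ^ (m + 1) * q + (2 ^ m + x)) ^^^ 2 ^ m = 2 ^ (m + 1) * q + x := by
  rw [← xor_pow_low hx, Nat.xor_assoc, Nat.xor_self, Nat.xor_zero]

theorem xor_pow_lt {k j x : ℕ} (hj : j < k) (hx : x < 2 ^ k) : x ^^^ 2 ^ j < 2 ^ k :=
  Nat.xor_lt_two_pow hx (Nat.pow_lt_pow_right (by norm_num) hj)

theorem xor_pow_xor (x j : ℕ) : (x ^^^ 2 ^ j) ^^^ 2 ^ j = x := by
  rw [Nat.xor_assoc, Nat.xor_self, Nat.xor_zero]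

/-! ### The network on bits -/

/-- A stage of the network on bits. -/
def bst (t j : ℕ) (b : ℕ → Bool) : ℕ → Bool := fun x =>
  if Bool.xor (x.testBit j) (x.testBit t) then b x || b (x ^^^ 2 ^ j) else b x && b (x ^^^ 2 ^ j)

/-- The stages `m - 1, …, 0`. -/
def bmerge (t : ℕ) : ℕ → (ℕ → Bool) → ℕ → Bool
  | 0, b => b
  | m + 1, b => bmerge t m (bst t m b)

/-- The first `i` phases. -/
def bsort : ℕ → (ℕ → Bool) → ℕ → Bool
  | 0, b => b
  | i + 1, b => bmerge (i + 1) (i + 1) (bsort i b)

/-- A cyclic interval of length `L` starting at `s` in a cycle of length `n`. -/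
def arc (n s L x : ℕ) : Bool := decide ((s ≤ x ∧ x < s + L) ∨ (x < s ∧ x + n < s + L))

theorem arc_and {h s L x : ℕ} (hs : s ≤ 2 * h) (hx : x < h) :
    (arc (2 * h) s L x && arc (2 * h) s L (h + x)) =
      arc h (if s < h then s else s - h) (L - h) x := by
  unfold arc
  rw [← Bool.decide_and, decide_eq_decide]
  split_ifs with h1 <;> constructor <;> intro h2 <;> omega

theorem arc_or {h s L x : ℕ} (hs : s ≤ 2 * h) (hx : x < h) :
    (arc (2 * h) s L x || arc (2 * h) s L (h + x)) =
      arc h (if s < h then s else s - h) (min L h) x := by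
  unfold arc
  rw [← Bool.decide_or, decide_eq_decide]
  rcases le_total L h with h3 | h3
  · rw [min_eq_left h3]
    split_ifs with h1 <;> constructor <;> intro h2 <;> omega
  · rw [min_eq_right h3]
    split_ifs with h1 <;> constructor <;> intro h2 <;> omega

theorem testBit_block_low {m q x t : ℕ} (hx : x < 2 ^ m) (ht : m < t) :
    (2 ^ (m + 1) * q + x).testBit t = q.testBit (t - (m + 1)) := by
  rw [Nat.testBit_two_pow_mul_add _ (hx.trans (Nat.pow_lt_pow_right (by norm_num) (by omega))),
    if_neg (by omega)]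

theorem testBit_block_high {m q x t : ℕ} (hx : x < 2 ^ m) (ht : m < t) :
    (2 ^ (m + 1) * q + (2 ^ m + x)).testBit t = q.testBit (t - (m + 1)) := by
  rw [Nat.testBit_two_pow_mul_add _ (by rw [pow_succ]; omega), if_neg (by omega)]

theorem testBit_self_low {m q x : ℕ} (hx : x < 2 ^ m) :
    (2 ^ (m + 1) * q + x).testBit m = false := by
  rw [Nat.testBit_two_pow_mul_add _ (hx.trans (Nat.pow_lt_pow_right (by norm_num) (by omega))),
    if_pos (by omega), Nat.testBit_lt_two_pow hx]

theorem testBit_self_high {m q x : ℕ} (hx : x < 2 ^ m) :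
    (2 ^ (m + 1) * q + (2 ^ m + x)).testBit m = true := by
  rw [← xor_pow_low hx, Nat.testBit_xor, testBit_self_low hx, Nat.testBit_two_pow_self]
  rfl

/-- A stage on a block. -/
theorem bst_block {t m q : ℕ} (ht : m < t) (b : ℕ → Bool) {x : ℕ} (hx : x < 2 ^ m) :
    bst t m b (2 ^ (m + 1) * q + x) =
      (if q.testBit (t - (m + 1)) then
        b (2 ^ (m + 1) * q + x) || b (2 ^ (m + 1) * q + (2 ^ m + x))
      else b (2 ^ (m + 1) * q + x) && b (2 ^ (m + 1) * q + (2 ^ m + x))) ∧
    bst t m b (2 ^ (m + 1) * q + (2 ^ m + x)) =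
      (if q.testBit (t - (m + 1)) then
        b (2 ^ (m + 1) * q + x) && b (2 ^ (m + 1) * q + (2 ^ m + x))
      else b (2 ^ (m + 1) * q + x) || b (2 ^ (m + 1) * q + (2 ^ m + x))) := by
  constructor
  · unfold bst
    rw [testBit_self_low hx, testBit_block_low hx ht, xor_pow_low hx]
    cases q.testBit (t - (m + 1)) <;> simp
  · unfold bst
    rw [testBit_self_high hx, testBit_block_high hx ht, xor_pow_high hx]
    cases q.testBit (t - (m + 1)) <;> simp [Bool.and_comm, Bool.or_comm]

/-- **Merging.** A cyclic interval is sorted. -/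
theorem bmerge_spec (t : ℕ) : ∀ m ≤ t, ∀ (q s L : ℕ) (b : ℕ → Bool), s ≤ 2 ^ m → L ≤ 2 ^ m →
    (∀ x < 2 ^ m, b (2 ^ m * q + x) = arc (2 ^ m) s L x) → ∀ x < 2 ^ m,
    bmerge t m b (2 ^ m * q + x) =
      if q.testBit (t - m) then decide (x < L) else decide (2 ^ m ≤ x + L) := by
  intro m
  induction m with
  | zero =>
    intro _ q s L b hs hL hb x hx
    have h0 : x = 0 := by simpa using hx
    subst h0
    have h1 := hb 0 (by norm_num)
    simp only [bmerge]
    rw [h1]
    unfold arc
    simp only [pow_zero] at hs hL ⊢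
    split_ifs
    · rw [decide_eq_decide]; constructor <;> intro h2 <;> omega
    · rw [decide_eq_decide]; constructor <;> intro h2 <;> omega
  | succ m ih =>
    intro hm q s L b hs hL hb x hx
    have hp : 2 ^ (m + 1) = 2 * 2 ^ m := by rw [pow_succ]; ring
    have hpos : 0 < 2 ^ m := by positivity
    set s' := if s < 2 ^ m then s else s - 2 ^ m with hs'
    have hs'' : s' ≤ 2 ^ m := by rw [hs']; split_ifs <;> omega
    have e1 : ∀ y, 2 ^ m * (2 * q) + y = 2 ^ (m + 1) * q + y := fun y => by rw [hp]; ring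
    have e2 : ∀ y, 2 ^ m * (2 * q + 1) + y = 2 ^ (m + 1) * q + (2 ^ m + y) := fun y => by
      rw [hp]; ring
    have t1 : (2 * q).testBit (t - m) = q.testBit (t - (m + 1)) := by
      have : t - m = (t - (m + 1)) + 1 := by omega
      rw [this, Nat.testBit_succ]
      congr 1
      omega
    have t2 : (2 * q + 1).testBit (t - m) = q.testBit (t - (m + 1)) := by
      have : t - m = (t - (m + 1)) + 1 := by omega
      rw [this, Nat.testBit_succ]
      congr 1
      omega
    -- the two halves after the stage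
    have hA : ∀ y < 2 ^ m, b (2 ^ (m + 1) * q + y) = arc (2 * 2 ^ m) s L y := fun y hy => by
      rw [← hp]; exact hb y (by omega)
    have hB : ∀ y < 2 ^ m, b (2 ^ (m + 1) * q + (2 ^ m + y)) = arc (2 * 2 ^ m) s L (2 ^ m + y) :=
      fun y hy => by rw [← hp]; exact hb _ (by omega)
    have hand : ∀ y < 2 ^ m, (b (2 ^ (m + 1) * q + y) && b (2 ^ (m + 1) * q + (2 ^ m + y))) =
        arc (2 ^ m) s' (L - 2 ^ m) y := fun y hy => by
      rw [hA y hy, hB y hy]
      exact arc_and (by omega) hy
    have hor : ∀ y < 2 ^ m, (b (2 ^ (m + 1) * q + y) || b (2 ^ (m + 1) * q + (2 ^ m + y))) =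
        arc (2 ^ m) s' (min L (2 ^ m)) y := fun y hy => by
      rw [hA y hy, hB y hy]
      exact arc_or (by omega) hy
    have hst := fun (y : ℕ) (hy : y < 2 ^ m) => bst_block (t := t) (m := m) (q := q) (by omega) b hy
    simp only [bmerge]
    cases hq : q.testBit (t - (m + 1)) with
    | false =>
      simp only [hq, Bool.false_eq_true, if_false] at hst ⊢
      rcases lt_or_ge x (2 ^ m) with h1 | h1
      · have := ih (by omega) (2 * q) s' (L - 2 ^ m) (bst t m b) hs'' (by omega)
          (fun y hy => by rw [e1, (hst y hy).1, hand y hy]) x h1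
        rw [← e1, this, t1, hq]
        simp only [Bool.false_eq_true, if_false]
        rw [decide_eq_decide]
        constructor <;> intro h2 <;> omega
      · obtain ⟨y, rfl⟩ := Nat.exists_eq_add_of_le h1
        have hy : y < 2 ^ m := by omega
        have := ih (by omega) (2 * q + 1) s' (min L (2 ^ m)) (bst t m b) hs'' (min_le_right _ _)
          (fun y hy => by rw [e2, (hst y hy).2, hor y hy]) y hy
        rw [← e2, this, t2, hq]
        simp only [Bool.false_eq_true, if_false]
        rw [decide_eq_decide]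
        rcases le_total L (2 ^ m) with h3 | h3
        · rw [min_eq_left h3]; constructor <;> intro h2 <;> omega
        · rw [min_eq_right h3]; constructor <;> intro h2 <;> omega
    | true =>
      simp only [hq, if_true] at hst ⊢
      rcases lt_or_ge x (2 ^ m) with h1 | h1
      · have := ih (by omega) (2 * q) s' (min L (2 ^ m)) (bst t m b) hs'' (min_le_right _ _)
          (fun y hy => by rw [e1, (hst y hy).1, hor y hy]) x h1
        rw [← e1, this, t1, hq]
        simp only [if_true]
        rw [decide_eq_decide]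
        rcases le_total L (2 ^ m) with h3 | h3
        · rw [min_eq_left h3]
        · rw [min_eq_right h3]; constructor <;> intro h2 <;> omega
      · obtain ⟨y, rfl⟩ := Nat.exists_eq_add_of_le h1
        have hy : y < 2 ^ m := by omega
        have := ih (by omega) (2 * q + 1) s' (L - 2 ^ m) (bst t m b) hs'' (by omega)
          (fun y hy => by rw [e2, (hst y hy).2, hand y hy]) y hy
        rw [← e2, this, t2, hq]
        simp only [if_true]
        rw [decide_eq_decide]
        constructor <;> intro h2 <;> omega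

/-- After the first `i` phases the blocks of length `2 ^ i` are sorted. -/
theorem bsort_spec (b : ℕ → Bool) : ∀ i q : ℕ, ∃ L ≤ 2 ^ i, ∀ x < 2 ^ i,
    bsort i b (2 ^ i * q + x) =
      if q.testBit 0 then decide (x < L) else decide (2 ^ i ≤ x + L) := by
  intro i
  induction i with
  | zero =>
    intro q
    refine ⟨(b q).toNat, by cases b q <;> simp, fun x hx => ?_⟩
    have h0 : x = 0 := by simpa using hx
    subst h0
    simp only [bsort, pow_zero, one_mul, add_zero, zero_add]
    cases b q <;> simp
  | succ i ih =>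
    intro q
    obtain ⟨L1, hL1, h1⟩ := ih (2 * q)
    obtain ⟨L2, hL2, h2⟩ := ih (2 * q + 1)
    have hp : 2 ^ (i + 1) = 2 * 2 ^ i := by rw [pow_succ]; ring
    have e1 : ∀ y, 2 ^ i * (2 * q) + y = 2 ^ (i + 1) * q + y := fun y => by rw [hp]; ring
    have e2 : ∀ y, 2 ^ i * (2 * q + 1) + y = 2 ^ (i + 1) * q + (2 ^ i + y) := fun y => by
      rw [hp]; ring
    have t1 : (2 * q).testBit 0 = false := by simp [Nat.testBit_zero]
    have t2 : (2 * q + 1).testBit 0 = true := by simp [Nat.testBit_zero]
    refine ⟨L1 + L2, by omega, fun x hx => ?_⟩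
    have := bmerge_spec (i + 1) (i + 1) le_rfl q (2 ^ i - L1) (L1 + L2) (bsort i b) (by omega)
      (by omega) (fun y hy => ?_) x hx
    · simp only [bsort]
      rw [this, Nat.sub_self]
    · unfold arc
      rcases lt_or_ge y (2 ^ i) with h3 | h3
      · have h4 := h1 y h3
        rw [e1, t1] at h4
        simp only [Bool.false_eq_true, if_false] at h4
        rw [h4, decide_eq_decide]
        constructor <;> intro h5 <;> omega
      · obtain ⟨z, rfl⟩ := Nat.exists_eq_add_of_le h3
        have h4 := h2 z (by omega)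
        rw [e2, t2] at h4
        simp only [if_true] at h4
        rw [h4, decide_eq_decide]
        constructor <;> intro h5 <;> omega

/-! ### The network on keys -/

/-- the switch word of a comparator -/
def csw (t j : ℕ) (K : ℕ → ℕ) (x : ℕ) : Bool :=
  if Bool.xor (x.testBit j) (x.testBit t) then decide (K x < K (x ^^^ 2 ^ j))
  else decide (K (x ^^^ 2 ^ j) < K x)

/-- conditional swap along the direction `j` -/
def swapW {α : Type*} (j : ℕ) (c : ℕ → Bool) (w : ℕ → α) : ℕ → α :=
  fun x => if c x then w (x ^^^ 2 ^ j) else w x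

theorem csw_symm {t j : ℕ} (h : j ≠ t) (K : ℕ → ℕ) (x : ℕ) :
    csw t j K (x ^^^ 2 ^ j) = csw t j K x := by
  unfold csw
  rw [xor_pow_xor, Nat.testBit_xor, Nat.testBit_xor, Nat.testBit_two_pow_self,
    Nat.testBit_two_pow_of_ne h]
  cases x.testBit j <;> cases x.testBit t <;> simp

theorem le_swapW_csw (t j : ℕ) (K : ℕ → ℕ) (θ x : ℕ) :
    decide (θ ≤ swapW j (csw t j K) K x) = bst t j (fun y => decide (θ ≤ K y)) x := by
  unfold swapW csw bst
  cases Bool.xor (x.testBit j) (x.testBit t)
  · simp only [Bool.false_eq_true, if_false]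
    rw [← Bool.decide_and, decide_eq_decide]
    split_ifs with h <;> simp only [decide_eq_true_eq] at h <;>
      constructor <;> intro h2 <;> omega
  · simp only [if_true]
    rw [← Bool.decide_or, decide_eq_decide]
    split_ifs with h <;> simp only [decide_eq_true_eq] at h <;>
      constructor <;> intro h2 <;> omega

/-- the comparators `(t, m - 1), …, (t, 0)` -/
def mstages (t : ℕ) : ℕ → List (ℕ × ℕ)
  | 0 => []
  | m + 1 => (t, m) :: mstages t m

/-- the comparators of the sorting network on `2 ^ k` positions -/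
def stages : ℕ → List (ℕ × ℕ)
  | 0 => []
  | i + 1 => stages i ++ mstages (i + 1) (i + 1)

theorem mem_mstages {t m : ℕ} {p : ℕ × ℕ} (hp : p ∈ mstages t m) : p.1 = t ∧ p.2 < m := by
  induction m with
  | zero => simp [mstages] at hp
  | succ m ih =>
    rw [mstages, List.mem_cons] at hp
    rcases hp with rfl | hp
    · exact ⟨rfl, Nat.lt_succ_self _⟩
    · exact ⟨(ih hp).1, (ih hp).2.trans (Nat.lt_succ_self _)⟩

theorem mem_stages {k : ℕ} {p : ℕ × ℕ} (hp : p ∈ stages k) : p.2 < p.1 ∧ p.2 < k := by
  induction k with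
  | zero => simp [stages] at hp
  | succ k ih =>
    rw [stages, List.mem_append] at hp
    rcases hp with hp | hp
    · exact ⟨(ih hp).1, (ih hp).2.trans (Nat.lt_succ_self _)⟩
    · have := mem_mstages hp
      omega

theorem length_mstages (t m : ℕ) : (mstages t m).length = m := by
  induction m with
  | zero => rfl
  | succ m ih => simp [mstages, ih]

theorem length_stages (k : ℕ) : (stages k).length = k * (k + 1) / 2 := by
  have : 2 * (stages k).length = k * (k + 1) := by
    induction k with
    | zero => rfl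
    | succ k ih =>
      rw [stages, List.length_append, length_mstages, mul_add, ih]
      ring
  omega

/-- The keys after the comparators. -/
def runK (l : List (ℕ × ℕ)) (K : ℕ → ℕ) : ℕ → ℕ :=
  l.foldl (fun K p => swapW p.2 (csw p.1 p.2 K) K) K

theorem runK_append (l l' : List (ℕ × ℕ)) (K : ℕ → ℕ) : runK (l ++ l') K = runK l' (runK l K) :=
  List.foldl_append

theorem le_runK_mstages (t : ℕ) (θ : ℕ) : ∀ (m : ℕ) (K : ℕ → ℕ),
    (fun x => decide (θ ≤ runK (mstages t m) K x)) = bmerge t m fun y => decide (θ ≤ K y) := by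
  intro m
  induction m with
  | zero => intro K; rfl
  | succ m ih =>
    intro K
    have h : (fun y => decide (θ ≤ swapW m (csw t m K) K y)) =
        bst t m (fun y => decide (θ ≤ K y)) := funext (le_swapW_csw t m K θ)
    have h2 := ih (swapW m (csw t m K) K)
    rw [h] at h2
    exact h2

theorem le_runK_stages (θ : ℕ) (K : ℕ → ℕ) : ∀ k : ℕ,
    (fun x => decide (θ ≤ runK (stages k) K x)) = bsort k fun y => decide (θ ≤ K y) := by
  intro k
  induction k with
  | zero => rfl
  | succ k ih =>
    simp only [stages, bsort]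
    rw [← ih]
    have := le_runK_mstages (k + 1) θ (k + 1) (runK (stages k) K)
    rw [← runK_append] at this
    exact this

/-- The keys are sorted in the end. -/
theorem runK_mono (k : ℕ) (K : ℕ → ℕ) {x y : ℕ} (hxy : x ≤ y) (hy : y < 2 ^ k) :
    runK (stages k) K x ≤ runK (stages k) K y := by
  set θ := runK (stages k) K x with hθ
  obtain ⟨L, hL, h⟩ := bsort_spec (fun y => decide (θ ≤ K y)) k 0
  have e := le_runK_stages θ K k
  have h1 := h x (by omega)
  have h2 := h y hy
  rw [← e] at h1 h2
  simp only [mul_zero, zero_add, Nat.zero_testBit, Bool.false_eq_true, if_false] at h1 h2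
  have h3 : 2 ^ k ≤ x + L := by
    rw [decide_eq_decide] at h1
    exact h1.1 le_rfl
  rw [decide_eq_decide] at h2
  exact h2.2 (by omega)

/-- Directions and switch words. -/
def route : List (ℕ × ℕ) → (ℕ → ℕ) → List (ℕ × (ℕ → Bool))
  | [], _ => []
  | p :: l, K => (p.2, csw p.1 p.2 K) :: route l (swapW p.2 (csw p.1 p.2 K) K)

/-- The effect of conditional swaps. -/
def applyR {α : Type*} (cs : List (ℕ × (ℕ → Bool))) (w : ℕ → α) : ℕ → α :=
  cs.foldl (fun w p => swapW p.1 p.2 w) w

theorem applyR_route (l : List (ℕ × ℕ)) (K : ℕ → ℕ) : applyR (route l K) K = runK l K := by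
  induction l generalizing K with
  | nil => rfl
  | cons p l ih => exact ih (swapW p.2 (csw p.1 p.2 K) K)

/-- naturality -/
theorem applyR_comp {α β : Type*} (cs : List (ℕ × (ℕ → Bool))) (f : α → β) (w : ℕ → α) :
    applyR cs (fun x => f (w x)) = fun x => f (applyR cs w x) := by
  induction cs generalizing w with
  | nil => rfl
  | cons p l ih =>
    have : swapW p.1 p.2 (fun x => f (w x)) = fun x => f (swapW p.1 p.2 w x) := by
      funext x
      unfold swapW
      split_ifs <;> rfl
    simp only [applyR, List.foldl_cons] at ih ⊢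
    rw [this]
    exact ih _

theorem applyR_eq {α : Type*} (cs : List (ℕ × (ℕ → Bool))) (w : ℕ → α) (x : ℕ) :
    applyR cs w x = w (applyR cs (fun y => y) x) :=
  congrFun (applyR_comp cs w fun y => y) x

theorem applyR_lt {k : ℕ} (cs : List (ℕ × (ℕ → Bool))) (h : ∀ p ∈ cs, p.1 < k) :
    ∀ (w : ℕ → ℕ), (∀ x < 2 ^ k, w x < 2 ^ k) → ∀ x < 2 ^ k, applyR cs w x < 2 ^ k := by
  induction cs with
  | nil => exact fun w hw => hw
  | cons p l ih =>
    intro w hw
    refine ih (fun q hq => h q (List.mem_cons_of_mem _ hq)) (swapW p.1 p.2 w) fun x hx => ?_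
    unfold swapW
    split_ifs
    · exact hw _ (xor_pow_lt (h p (List.mem_cons_self ..)) hx)
    · exact hw _ hx

theorem mem_route {l : List (ℕ × ℕ)} {K : ℕ → ℕ} {q : ℕ × (ℕ → Bool)} (hq : q ∈ route l K) :
    ∃ p ∈ l, ∃ K' : ℕ → ℕ, q = (p.2, csw p.1 p.2 K') := by
  induction l generalizing K with
  | nil => simp [route] at hq
  | cons p l ih =>
    rw [route, List.mem_cons] at hq
    rcases hq with rfl | hq
    · exact ⟨p, List.mem_cons_self .., K, rfl⟩
    · obtain ⟨p', h1, h2⟩ := ih hq
      exact ⟨p', List.mem_cons_of_mem _ h1, h2⟩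

theorem route_dir_lt {k : ℕ} {K : ℕ → ℕ} {q : ℕ × (ℕ → Bool)} (hq : q ∈ route (stages k) K) :
    q.1 < k := by
  obtain ⟨p, hp, K', rfl⟩ := mem_route hq
  exact (mem_stages hp).2

theorem route_symm {k : ℕ} {K : ℕ → ℕ} {q : ℕ × (ℕ → Bool)} (hq : q ∈ route (stages k) K)
    (x : ℕ) : q.2 (x ^^^ 2 ^ q.1) = q.2 x := by
  obtain ⟨p, hp, K', rfl⟩ := mem_route hq
  exact csw_symm (mem_stages hp).1.ne K' x

/-- A monotone injective map of an initial segment to itself is the identity. -/
theorem eq_id_of_mono {n : ℕ} {F : ℕ → ℕ} (h1 : ∀ x < n, F x < n)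
    (h2 : ∀ x y, x < y → y < n → F x < F y) : ∀ x < n, F x = x := by
  have h3 : ∀ x < n, x ≤ F x := by
    intro x
    induction x with
    | zero => intro _; exact Nat.zero_le _
    | succ x ih =>
      intro hx
      have := h2 x (x + 1) (Nat.lt_succ_self _) hx
      have := ih (by omega)
      omega
  have h4 : ∀ d x, x < n → n - 1 - x = d → F x ≤ x := by
    intro d
    induction d with
    | zero => intro x hx hd; have := h1 x hx; omega
    | succ d ih =>
      intro x hx hd
      have := h2 x (x + 1) (Nat.lt_succ_self _) (by omega)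
      have := ih (x + 1) (by omega) (by omega)
      omega
  exact fun x hx => le_antisymm (h4 _ x hx rfl) (h3 x hx)

/-- Swapping symmetric pairs is injective. -/
theorem swapW_injOn {k j : ℕ} (hj : j < k) {c : ℕ → Bool} (hc : ∀ x, c (x ^^^ 2 ^ j) = c x)
    {w : ℕ → ℕ} (hw : ∀ x < 2 ^ k, ∀ y < 2 ^ k, w x = w y → x = y) :
    ∀ x < 2 ^ k, ∀ y < 2 ^ k, swapW j c w x = swapW j c w y → x = y := by
  intro x hx y hy h
  unfold swapW at h
  by_cases h1 : c x = true <;> by_cases h2 : c y = true
  · rw [if_pos h1, if_pos h2] at h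
    have := hw _ (xor_pow_lt hj hx) _ (xor_pow_lt hj hy) h
    rw [← xor_pow_xor x j, this, xor_pow_xor]
  · rw [if_pos h1, if_neg h2] at h
    have := hw _ (xor_pow_lt hj hx) _ hy h
    rw [← this, hc] at h2
    exact absurd h1 h2
  · rw [if_neg h1, if_pos h2] at h
    have := hw _ hx _ (xor_pow_lt hj hy) h
    rw [this, hc] at h1
    exact absurd h2 h1
  · rw [if_neg h1, if_neg h2] at h
    exact hw _ hx _ hy h

theorem applyR_injOn {k : ℕ} (cs : List (ℕ × (ℕ → Bool)))
    (h : ∀ p ∈ cs, p.1 < k ∧ ∀ x, p.2 (x ^^^ 2 ^ p.1) = p.2 x) :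
    ∀ (w : ℕ → ℕ), (∀ x < 2 ^ k, ∀ y < 2 ^ k, w x = w y → x = y) →
      ∀ x < 2 ^ k, ∀ y < 2 ^ k, applyR cs w x = applyR cs w y → x = y := by
  induction cs with
  | nil => exact fun w hw => hw
  | cons p l ih =>
    intro w hw
    have hp := h p (List.mem_cons_self ..)
    exact ih (fun q hq => h q (List.mem_cons_of_mem _ hq)) (swapW p.1 p.2 w)
      (swapW_injOn hp.1 hp.2 hw)

/-- **Routing.** If the keys `K` are a permutation of the numbers less than `2 ^ k`, then the
conditional swaps move, for every word, the entry with the key `x` to the position `x`. -/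
theorem route_spec {k : ℕ} {K : ℕ → ℕ} (hK : ∀ x < 2 ^ k, K x < 2 ^ k)
    (hinj : ∀ x < 2 ^ k, ∀ y < 2 ^ k, K x = K y → x = y) {x : ℕ} (hx : x < 2 ^ k) :
    ∃ y < 2 ^ k, K y = x ∧ ∀ {α : Type*} (w : ℕ → α), applyR (route (stages k) K) w x = w y := by
  have hcs : ∀ p ∈ route (stages k) K, p.1 < k ∧ ∀ x, p.2 (x ^^^ 2 ^ p.1) = p.2 x :=
    fun p hp => ⟨route_dir_lt hp, route_symm hp⟩
  refine ⟨applyR (route (stages k) K) (fun y => y) x, applyR_lt _ (fun p hp => (hcs p hp).1) _
    (fun x hx => hx) x hx, ?_, fun w => applyR_eq _ w x⟩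
  rw [← applyR_eq _ K x]
  refine eq_id_of_mono (n := 2 ^ k) (F := applyR (route (stages k) K) K)
    (applyR_lt _ (fun p hp => (hcs p hp).1) _ hK) (fun a b hab hb => ?_) x hx
  have h1 : applyR (route (stages k) K) K a ≤ applyR (route (stages k) K) K b := by
    rw [applyR_route]
    exact runK_mono k K hab.le hb
  refine lt_of_le_of_ne h1 fun h2 => ?_
  exact hab.ne (applyR_injOn _ hcs K hinj a (hab.trans hb) b hb h2)

end Vale.Agent.P330.H874
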