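import Vale.Agent.P330.H874.NmC
import Vale.Agent.P330.H16.Top

/-!
# Translation of programs with named registers, in polynomial time
-/

namespace Vale.Agent.P330.H874

open Vale.Agent.Lib.PolyTime

open Vale.Agent.P330.H16 (Ins Mac UM Nm Kd Cmd Gen genK compile)

open Vale.Agent.P330.H933 (Fl cod FT)

/-! ### Codes of commands -/

section

variable {F : Type} (f : F → ℕ)

/-- the code of a kind -/
def kc : Kd F → KC
  | .lin l => (0, (0, 0), l.map f)
  | .pub p => (1, (p, 0), [])
  | .smul => (2, (0, 0), [])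
  | .un m => (3, umc m, [])

/-- the code of a command -/
def cmc (c : Cmd Nm (Kd F)) : CC := (nc c.out, kc f c.kd, c.args.map nc)

/-- The codes `R` of the macros are right. -/
def MacR (mac : UM → List ℕ → Mac F) (R : ℕ → ℕ × ℕ → RMac ℕ) : Prop :=
  ∀ (m : UM) (cs : List ℕ) (n r : ℕ),
    ((R cs.length (umc m)).ren fun c => cs.getD c 0).toMac n r =
      ((mac m cs n r).1.map (insMap f), (mac m cs n r).2)

variable {f} {mac : UM → List ℕ → Mac F} {R : ℕ → ℕ × ℕ → RMac ℕ}

theorem genN_eq (hR : MacR f mac R) (k : Kd F) (n : ℕ) (as : List ℕ) :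
    genN R (kc f k) n as = ((genK mac k n as).1.map (insMap f), (genK mac k n as).2) := by
  cases k with
  | lin l =>
    simp only [genN, kc, genK, if_true, List.map_cons, List.map_nil, insMap, List.zip_map_left]
    rfl
  | pub p => rfl
  | smul => rfl
  | un m =>
    have h := hR m as.tail n (as.getD 0 0)
    have e : as.headD 0 = as.getD 0 0 := by cases as <;> rfl
    simp only [genK, e]
    exact h

theorem compN_eq (hR : MacR f mac R) {d : ℕ} (l : List (Cmd Nm (Kd F))) {env : Nm → ℕ}
    {e : List (NC × ℕ)} {n : ℕ} (he : ∀ x, env x = lkp d e (nc x)) :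
    (∀ x, (compile (genK mac) l env n).1 x = lkp d (compN R d (l.map (cmc f)) (e, n)).1.1 (nc x)) ∧
      (compile (genK mac) l env n).2.map (insMap f) = (compN R d (l.map (cmc f)) (e, n)).2 := by
  induction l generalizing env e n with
  | nil => exact ⟨he, rfl⟩
  | cons c l ih =>
    have h1 : (cmc f c).2.2.map (lkp d e) = c.args.map env := by
      simp only [cmc, List.map_map]
      exact List.map_congr_left fun x _ => (he x).symm
    have h2 : genN R (cmc f c).2.1 n ((cmc f c).2.2.map (lkp d e)) =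
        ((genK mac c.kd n (c.args.map env)).1.map (insMap f),
          (genK mac c.kd n (c.args.map env)).2) := by
      rw [h1]
      exact genN_eq hR c.kd n _
    have h3 : stpN R d (e, n) (cmc f c) = ((nc c.out, (genK mac c.kd n (c.args.map env)).2) :: e,
        n + (genK mac c.kd n (c.args.map env)).1.length) := by
      unfold stpN
      simp only [h2, List.length_map]
      rfl
    have h4 := ih (env := Function.update env c.out (genK mac c.kd n (c.args.map env)).2)
      (e := (nc c.out, (genK mac c.kd n (c.args.map env)).2) :: e)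
      (n := n + (genK mac c.kd n (c.args.map env)).1.length) fun x => by
        rw [lkp_cons]
        by_cases hx : x = c.out
        · subst hx
          rw [Function.update_self, if_pos rfl]
        · rw [Function.update_of_ne hx, if_neg fun h => hx (nc_inj.1 h), he]
    rw [List.map_cons, compN]
    simp only [compile, h3, h2, List.map_append]
    exact ⟨h4.1, by rw [h4.2]⟩

end

/-! ### The macros -/

variable {A : Set Word} {α β : Type*} [Enc α] [Enc β] {l : α → ℕ}

theorem MC.umIte {m : ∀ a, (ℕ → ℕ) → UM → Mac (Fl (l a))} {u v : α → UM} {p : α → Prop}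
    [DecidablePred p] (hp : PT A (fun a => decide (p a))) (h : MC A l (fun a ρ => m a ρ (u a)))
    (h' : MC A l (fun a ρ => m a ρ (v a))) :
    MC A l (fun a ρ => m a ρ (if p a then u a else v a)) :=
  (MC.ite hp h h').congr fun a ρ => by split_ifs <;> rfl

/-- The family of the unary macros. -/
theorem MC.macU {κ k : α → ℕ} {cf : ∀ a, ℕ → ℕ → Fl (l a)} {off : α → Bool → ℕ}
    (h : CPar A l κ k cf off) {n : α → ℕ} (hn : PT A n) {q : α → ℕ × ℕ} (hq : PT A q) :
    MC A l (fun a ρ => mac' (cf a) (κ a) (k a) (off a) (n a) ρ (umd (q a))) := by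
  have hc : ∀ t : ℕ, PT A (fun a => decide ((q a).1 = t)) := fun t =>
    PT.eqNat hq.fst (PT.const t)
  obtain ⟨h0, h1, h2⟩ := MC.mac h hn hq.snd
  have h3 : ∀ m : UM, (∀ i, m ≠ .tr i) → (∀ i, m ≠ .mx i) →
      MC A l (fun a ρ => mac' (cf a) (κ a) (k a) (off a) (n a) ρ m) := h2
  unfold umd
  refine MC.umIte (m := fun a ρ => mac' (cf a) (κ a) (k a) (off a) (n a) ρ) (hc 0) h0
    (MC.umIte (m := fun a ρ => mac' (cf a) (κ a) (k a) (off a) (n a) ρ) (hc 1) h1 ?_)
  iterate 12
    refine MC.umIte (m := fun a ρ => mac' (cf a) (κ a) (k a) (off a) (n a) ρ) (hc _)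
      (h3 _ (fun _ => by simp) (fun _ => by simp)) ?_
  exact h3 _ (fun _ => by simp) (fun _ => by simp)

/-- The codes of the unary macros in polynomial time. -/
theorem PT.macR {κ k : α → ℕ} {cf : ∀ a, ℕ → ℕ → Fl (l a)} {off : α → Bool → ℕ}
    (h : CPar A l κ k cf off) : ∃ R : α → ℕ → ℕ × ℕ → RMac ℕ,
      (∀ a, MacR (cod (l a)) (H118.mac (cf a) (κ a) (k a) (off a)) (R a)) ∧
      PT A (fun p : α × ℕ × (ℕ × ℕ) => R p.1 p.2.1 p.2.2) := by
  obtain ⟨R, h1, h2⟩ := MC.macU (h.comp (u := fun p : α × ℕ × (ℕ × ℕ) => p.1) PT.fst')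
    (n := fun p => p.2.1) PT.snd'.fst (q := fun p => p.2.2) PT.snd'.snd
  refine ⟨fun a n q => (R (a, n, q)).mapC (cod (l a)), fun a m cs n r => ?_, h2⟩
  have h3 := h1 (a, cs.length, H874.umc m) fun c => cs.getD c 0
  simp only [umd_umc] at h3
  rw [mac_eq, h3, ← RMac.ren_mapC, RMac.toMac_mapC]

/-! ### Commands in polynomial time -/

/-- Commands with codes computable in polynomial time. -/
def CT1 (A : Set Word) (l : α → ℕ) (c : ∀ a, Cmd Nm (Kd (Fl (l a)))) : Prop :=
  PT A (fun a => cmc (cod (l a)) (c a))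

/-- Lists of commands with codes computable in polynomial time. -/
def CT (A : Set Word) (l : α → ℕ) (c : ∀ a, List (Cmd Nm (Kd (Fl (l a))))) : Prop :=
  PT A (fun a => (c a).map (cmc (cod (l a))))

namespace CT1

variable {o : α → Nm} {L : α → List Nm}

theorem lin {c : ∀ a, List (Fl (l a))} (ho : PT A o)
    (hc : PT A (fun a => (c a).map (cod (l a)))) (hL : PT A L) :
    CT1 A l (fun a => ⟨o a, .lin (c a), L a⟩) :=
  (PT.nc ho).pair (((PT.const 0).pair ((PT.const (0, 0)).pair hc)).pair
    (PT.map hL (PT.nc PT.snd')))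

theorem add (ho : PT A o) (hL : PT A L) : CT1 A l (fun a => H16.PP.add (o a) (L a)) :=
  lin (c := fun a => (L a).map fun _ => 1) ho ((PT.map (f := fun _ _ => (1 : ℕ)) hL
    (PT.const 1)).congr fun a => by
      simp only [List.map_map, Function.comp_def, H933.cod_one]) hL

theorem pub {p : α → ℕ} (ho : PT A o) (hp : PT A p) :
    CT1 A l (fun a => ⟨o a, .pub (p a), []⟩) :=
  (PT.nc ho).pair (((PT.const 1).pair ((hp.pair (PT.const 0)).pair PT.nil)).pair PT.nil)

theorem smul (ho : PT A o) (hL : PT A L) : CT1 A l (fun a => ⟨o a, .smul, L a⟩) :=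
  (PT.nc ho).pair (((PT.const 2).pair ((PT.const (0, 0)).pair PT.nil)).pair
    (PT.map hL (PT.nc PT.snd')))

theorem un {m : α → UM} (ho : PT A o) (hm : PT A m) (hL : PT A L) :
    CT1 A l (fun a => ⟨o a, .un (m a), L a⟩) :=
  (PT.nc ho).pair (((PT.const 3).pair ((PT.umc hm).pair PT.nil)).pair (PT.map hL (PT.nc PT.snd')))

end CT1

namespace CT

variable {c c' : ∀ a, List (Cmd Nm (Kd (Fl (l a))))}

theorem congr (h : CT A l c) (h2 : ∀ a, c a = c' a) : CT A l c' := by
  have : c = c' := funext h2
  rwa [← this]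

theorem nil : CT A l (fun _ => []) := PT.nil

theorem cons {x : ∀ a, Cmd Nm (Kd (Fl (l a)))} (hx : CT1 A l x) (h : CT A l c) :
    CT A l (fun a => x a :: c a) := PT.cons hx h

theorem append (h : CT A l c) (h' : CT A l c') : CT A l (fun a => c a ++ c' a) :=
  (PT.append h h').congr fun _ => (List.map_append ..).symm

theorem flatMap {γ : Type*} [Enc γ] {K : α → List γ} {f : ∀ a, γ → List (Cmd Nm (Kd (Fl (l a))))}
    (hK : PT A K) (hf : CT A (fun p : α × γ => l p.1) (fun p => f p.1 p.2)) :
    CT A l (fun a => (K a).flatMap (f a)) :=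
  (PT.flatMap (f := fun a x => (f a x).map (cmc (cod (l a)))) hK hf).congr fun _ =>
    (List.map_flatMap ..).symm

theorem comp {u : β → α} (h : CT A l c) (hu : PT A u) :
    CT A (fun b => l (u b)) (fun b => c (u b)) :=
  PT.comp (g := fun a => (c a).map (cmc (cod (l a)))) h hu

end CT

/-! ### The translation in polynomial time -/

/-- registers given by a list of names -/
theorem lkp_idxOf (L : List Nm) (s : ℕ) (x : Nm) :
    lkp (s + L.length) ((L.map nc).zip (List.range' s L.length)) (nc x) = s + L.idxOf x := by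
  induction L generalizing s with
  | nil => rfl
  | cons y L ih =>
    rw [List.length_cons, List.map_cons, List.range'_succ, List.zip_cons_cons, lkp_cons,
      List.idxOf_cons]
    by_cases h : y = x
    · subst h
      simp
    · rw [if_neg fun e => h (nc_inj.1 e).symm]
      have h1 := ih (s + 1)
      rw [show s + 1 + L.length = s + (L.length + 1) by omega] at h1
      rw [h1]
      simp only [cond_eq_ite, beq_iff_eq, if_neg h]
      omega

section

variable {κ k : α → ℕ} {cf : ∀ a, ℕ → ℕ → Fl (l a)} {off : α → Bool → ℕ}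
  {c : ∀ a, List (Cmd Nm (Kd (Fl (l a))))} {L : α → List Nm}

/-- The translation of the commands `c` for the base names `L`. -/
noncomputable def cmpl (κ k : α → ℕ) (cf : ∀ a, ℕ → ℕ → Fl (l a)) (off : α → Bool → ℕ)
    (c : ∀ a, List (Cmd Nm (Kd (Fl (l a))))) (L : α → List Nm) (a : α) :
    (Nm → ℕ) × List (Ins (Fl (l a))) :=
  compile (genK (H118.mac (cf a) (κ a) (k a) (off a))) (c a) (fun x => (L a).idxOf x) (L a).length

theorem cmpl_eq (h : CPar A l κ k cf off) (hc : CT A l c) (hL : PT A L) :
    ∃ X : α → (List (NC × ℕ) × ℕ) × List (Ins ℕ), PT A X ∧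
      (∀ a x, (cmpl κ k cf off c L a).1 x = lkp (L a).length (X a).1.1 (nc x)) ∧
      ∀ a, (cmpl κ k cf off c L a).2.map (insMap (cod (l a))) = (X a).2 := by
  obtain ⟨R, h1, h2⟩ := PT.macR h
  have h3 : PT A (fun a => ((L a).map nc).zip (List.range' 0 (L a).length)) :=
    PT.zip (PT.map hL (PT.nc PT.snd')) (PT.range' (PT.const 0) (PT.length hL) (PBd.length hL))
  refine ⟨fun a => compN (R a) (L a).length ((c a).map (cmc (cod (l a))))
    (((L a).map nc).zip (List.range' 0 (L a).length), (L a).length),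
    PT.compN h2 (PT.length hL) (h3.pair (PT.length hL)) (PBd.length hL) hc, ?_⟩
  have h4 := fun a => compN_eq (h1 a) (d := (L a).length) (c a) (env := fun x => (L a).idxOf x)
    (e := ((L a).map nc).zip (List.range' 0 (L a).length)) (n := (L a).length) fun x => by
      have := lkp_idxOf (L a) 0 x
      rw [Nat.zero_add, Nat.zero_add] at this
      exact this.symm
  exact ⟨fun a x => (h4 a).1 x, fun a => (h4 a).2⟩

/-- **The names of the instructions.** -/
theorem PT.cmplIns (h : CPar A l κ k cf off) (hc : CT A l c) (hL : PT A L) :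
    PT A (fun a => (cmpl κ k cf off c L a).2.map (insMap (cod (l a)))) := by
  obtain ⟨X, hX, _, h2⟩ := cmpl_eq h hc hL
  exact hX.snd.congr fun a => (h2 a).symm

/-- **The numbers of the registers.** -/
theorem PT.cmplReg (h : CPar A l κ k cf off) (hc : CT A l c) (hL : PT A L) {x : α → Nm}
    (hx : PT A x) : PT A (fun a => (cmpl κ k cf off c L a).1 (x a)) := by
  obtain ⟨X, hX, h1, _⟩ := cmpl_eq h hc hL
  exact (PT.lkp (PT.length hL) hX.fst.fst (PT.nc hx)).congr fun a => (h1 a _).symm

end

end Vale.Agent.P330.H874
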