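import Vale.Agent.P330.H874.MacsPT

/-!
# Programs with named registers over name codes, in polynomial time

Names of registers are coded by `NC`.  `compN` translates a list of coded commands; it is computable
in polynomial time.
-/

namespace Vale.Agent.P330.H874

open Vale.Agent.Lib.PolyTime

open Vale.Agent.P330.H16 (Ins)

/-- Codes of names of registers. -/
abbrev NC := ℕ × (Bool × Bool) × (ℕ × ℕ)

/-- Codes of kinds of commands: kind, unary macro or parameter, coefficients. -/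
abbrev KC := ℕ × (ℕ × ℕ) × List ℕ

/-- Codes of commands. -/
abbrev CC := NC × KC × List NC

/-- the register with the name `x`, `d` if there is none -/
def lkp (d : ℕ) (env : List (NC × ℕ)) (x : NC) : ℕ :=
  ((env.find? fun q => decide (q.1 = x)).map Prod.snd).getD d

theorem lkp_cons (d : ℕ) (q : NC × ℕ) (env : List (NC × ℕ)) (x : NC) :
    lkp d (q :: env) x = if x = q.1 then q.2 else lkp d env x := by
  unfold lkp
  rw [List.find?_cons]
  by_cases h : q.1 = x
  · rw [if_pos h.symm]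
    simp [h]
  · rw [if_neg (Ne.symm h)]
    simp [h]

/-- the code of a command -/
def genN (R : ℕ → ℕ × ℕ → RMac ℕ) (k : KC) (n : ℕ) (as : List ℕ) : List (Ins ℕ) × ℕ :=
  if k.1 = 0 then ([.lin (k.2.2.zip as)], n)
  else if k.1 = 1 then ([.pub k.2.1.1], n)
  else if k.1 = 2 then ([.smul (as.getD 0 0) (as.getD 1 0)], n)
  else ((R as.tail.length k.2.1).ren fun c => as.tail.getD c 0).toMac n (as.getD 0 0)

/-- a step of the translation -/
def stpN (R : ℕ → ℕ × ℕ → RMac ℕ) (d : ℕ) (s : List (NC × ℕ) × ℕ) (c : CC) :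
    List (NC × ℕ) × ℕ :=
  let g := genN R c.2.1 s.2 (c.2.2.map (lkp d s.1))
  ((c.1, g.2) :: s.1, s.2 + g.1.length)

/-- the translation -/
def compN (R : ℕ → ℕ × ℕ → RMac ℕ) (d : ℕ) : List CC → List (NC × ℕ) × ℕ →
    (List (NC × ℕ) × ℕ) × List (Ins ℕ)
  | [], s => (s, [])
  | c :: l, s => ((compN R d l (stpN R d s c)).1,
      (genN R c.2.1 s.2 (c.2.2.map (lkp d s.1))).1 ++ (compN R d l (stpN R d s c)).2)

theorem compN_fst (R : ℕ → ℕ × ℕ → RMac ℕ) (d : ℕ) (l : List CC) (s : List (NC × ℕ) × ℕ) :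
    (compN R d l s).1 = l.foldl (stpN R d) s := by
  induction l generalizing s with
  | nil => rfl
  | cons c l ih => rw [compN, ih]; rfl

theorem compN_snd (R : ℕ → ℕ × ℕ → RMac ℕ) (d : ℕ) (l : List CC) (s : List (NC × ℕ) × ℕ) :
    (compN R d l s).2 = (List.range l.length).flatMap fun j =>
      match l[j]? with
      | none => []
      | some c => (genN R c.2.1 ((l.take j).foldl (stpN R d) s).2
          (c.2.2.map (lkp d ((l.take j).foldl (stpN R d) s).1))).1 := by
  induction l generalizing s with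
  | nil => rfl
  | cons c l ih =>
    rw [compN, ih, List.length_cons, List.range_succ_eq_map, List.flatMap_cons, List.flatMap_map]
    rfl

/-! ### Polynomial time -/

variable {A : Set Word} {α β : Type*} [Enc α] [Enc β]

theorem PT.eqBool {f g : α → Bool} (hf : PT A f) (hg : PT A g) :
    PT A (fun a => decide (f a = g a)) := by
  refine (PT.not (PT.xor hf hg)).congr fun a => ?_
  cases f a <;> cases g a <;> rfl

theorem PT.eqNC {f g : α → NC} (hf : PT A f) (hg : PT A g) :
    PT A (fun a => decide (f a = g a)) := by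
  refine (PT.and (PT.eqNat hf.fst hg.fst) (PT.and (PT.and (PT.eqBool hf.snd.fst.fst
    hg.snd.fst.fst) (PT.eqBool hf.snd.fst.snd hg.snd.fst.snd)) (PT.and (PT.eqNat hf.snd.snd.fst
    hg.snd.snd.fst) (PT.eqNat hf.snd.snd.snd hg.snd.snd.snd)))).congr fun a => ?_
  rw [Bool.eq_iff_iff]
  simp only [Bool.and_eq_true, decide_eq_true_eq, Prod.ext_iff]

theorem PT.lkp {d : α → ℕ} {env : α → List (NC × ℕ)} {x : α → NC} (hd : PT A d) (he : PT A env)
    (hx : PT A x) : PT A (fun a => H874.lkp (d a) (env a) (x a)) := by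
  unfold H874.lkp
  refine PT.optGetD ?_ hd
  refine (PT.optCase (f := fun _ => none) (g := fun _ (q : NC × ℕ) => some q.2)
    (PT.find? (f := fun a (q : NC × ℕ) => decide (q.1 = x a)) he
      (PT.eqNC PT.snd'.fst (hx.comp PT.fst'))) (PT.const none)
    (PT.some PT.snd'.snd)).congr fun a => ?_
  cases (env a).find? fun q => decide (q.1 = x a) <;> rfl

theorem PT.genN {R : α → ℕ → ℕ × ℕ → RMac ℕ} (hR : PT A (fun p : α × ℕ × (ℕ × ℕ) =>
    R p.1 p.2.1 p.2.2)) {k : α → KC} {n : α → ℕ} {as : α → List ℕ} (hk : PT A k) (hn : PT A n)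
    (ha : PT A as) : PT A (fun a => H874.genN (R a) (k a) (n a) (as a)) := by
  have hg : ∀ i : ℕ, PT A (fun a => (as a).getD i 0) := fun i =>
    PT.getD ha (PT.const i) (PT.const 0)
  have z : PT A (fun _ : α => (0 : ℕ)) := PT.const 0
  have e : PT A (fun _ : α => ([] : List (ℕ × ℕ))) := PT.const []
  have c : ∀ t : ℕ, PT A (fun _ : α => t) := fun t => PT.const t
  have i0 : PT A (fun a => (Ins.lin ((k a).2.2.zip (as a)) : Ins ℕ)) :=
    PT.ofRaw ((c 0).pair ((z.pair (z.pair z)).pair (PT.zip hk.snd.snd ha)))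
  have i1 : PT A (fun a => (Ins.pub (k a).2.1.1 : Ins ℕ)) :=
    PT.ofRaw ((c 3).pair ((hk.snd.fst.fst.pair (z.pair z)).pair e))
  have i2 : PT A (fun a => (Ins.smul ((as a).getD 0 0) ((as a).getD 1 0) : Ins ℕ)) :=
    PT.ofRaw ((c 5).pair ((z.pair ((hg 0).pair (hg 1))).pair e))
  have ht : PT A (fun a => (as a).tail) := PT.tail ha
  have hR' : PT A (fun a => R a (as a).tail.length (k a).2.1) :=
    PT.comp (g := fun p : α × ℕ × (ℕ × ℕ) => R p.1 p.2.1 p.2.2) hR
      (PT.id.pair ((PT.length ht).pair hk.snd.fst))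
  have i3 := PT.toMac (PT.ren ht hR') hn (hg 0)
  unfold H874.genN
  exact PT.ite (PT.eqNat hk.fst (c 0)) ((PT.cons i0 PT.nil).pair hn)
    (PT.ite (PT.eqNat hk.fst (c 1)) ((PT.cons i1 PT.nil).pair hn)
      (PT.ite (PT.eqNat hk.fst (c 2)) ((PT.cons i2 PT.nil).pair hn) i3))

theorem PT.stpN {R : α → ℕ → ℕ × ℕ → RMac ℕ} (hR : PT A (fun p : α × ℕ × (ℕ × ℕ) =>
    R p.1 p.2.1 p.2.2)) {d : α → ℕ} {s : α → List (NC × ℕ) × ℕ} {c : α → CC} (hd : PT A d)
    (hs : PT A s) (hc : PT A c) : PT A (fun a => H874.stpN (R a) (d a) (s a) (c a)) := by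
  have h1 : PT A (fun a => (c a).2.2.map (H874.lkp (d a) (s a).1)) :=
    PT.map hc.snd.snd (PT.lkp (hd.comp PT.fst') (hs.fst.comp PT.fst') PT.snd')
  have h2 := PT.genN hR hc.snd.fst hs.snd h1
  unfold H874.stpN
  exact PT.pair (PT.cons (hc.fst.pair h2.snd) hs.fst) (PT.add hs.snd (PT.length h2.fst))

/-! ### Size bounds -/

/-- The state is small. -/
structure SB (N V E m : ℕ) (s : List (NC × ℕ) × ℕ) : Prop where
  num : s.2 ≤ N
  reg : ∀ q ∈ s.1, q.2 ≤ V
  nam : ∀ q ∈ s.1, esize q.1 ≤ E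
  len : s.1.length ≤ m

theorem esize_le_of_le {m n : ℕ} (h : m ≤ n) : esize m ≤ n :=
  (esize_nat_le_self m).trans h

theorem SB.esize_le {N C E m : ℕ} {s : List (NC × ℕ) × ℕ} (h : SB N (2 ^ C) E m s) :
    esize s ≤ 2 * (m * (2 * (2 * E + (C + 1) + 1) + 1)) + N + 1 := by
  have h1 : esize s.1 ≤ s.1.length * (2 * (2 * E + (C + 1) + 1) + 1) := by
    refine esize_list_le fun q hq => ?_
    have h2 := esize_pair q.1 q.2
    rw [Prod.mk.eta] at h2
    have h3 := h.nam q hq
    have h4 := esize_le_of_le_pow (h.reg q hq)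
    omega
  have h2 := h1.trans (Nat.mul_le_mul_right _ h.len)
  have h3 := esize_pair s.1 s.2
  rw [Prod.mk.eta] at h3
  have h4 := esize_le_of_le h.num
  omega

theorem lkp_le {d V : ℕ} {env : List (NC × ℕ)} (hd : d ≤ V) (h : ∀ q ∈ env, q.2 ≤ V) (x : NC) :
    lkp d env x ≤ V := by
  unfold lkp
  cases hf : env.find? fun q => decide (q.1 = x) with
  | none => exact hd
  | some q => exact h q (List.mem_of_find?_eq_some hf)

theorem rat_le {B V n r : ℕ} {g : Rg} (hg : esize g ≤ B) (hV : n + 2 ^ B ≤ V) (hr : r ≤ V)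
    {ρ : ℕ → ℕ} (hρ : ∀ c, ρ c ≤ V) : rat n r (rren ρ g) ≤ V := by
  rcases g with _ | ⟨_ | _, i⟩
  · exact hr
  · exact hρ i
  · rw [esize_some_pair] at hg
    have : i ≤ 2 ^ B := (le_pow_esize i).trans (Nat.pow_le_pow_right (by norm_num) (by omega))
    change n + i ≤ V
    omega

theorem getD_le {V : ℕ} {as : List ℕ} (h : ∀ x ∈ as, x ≤ V) (i : ℕ) : as.getD i 0 ≤ V := by
  rcases lt_or_ge i as.length with hi | hi
  · rw [List.getD_eq_getElem _ _ hi]
    exact h _ (List.getElem_mem hi)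
  · rw [List.getD_eq_default _ _ hi]
    exact Nat.zero_le _

theorem genN_le {R : ℕ → ℕ × ℕ → RMac ℕ} {k : KC} {n B V : ℕ} {as : List ℕ}
    (hR : esize (R (as.length - 1) k.2.1) ≤ B) (hV : n + 2 ^ B ≤ V) (has : ∀ x ∈ as, x ≤ V) :
    (genN R k n as).2 ≤ V ∧ (genN R k n as).1.length ≤ B + 1 := by
  have hn : n ≤ V := (Nat.le_add_right _ _).trans hV
  unfold genN
  split_ifs
  · exact ⟨hn, by simp⟩
  · exact ⟨hn, by simp⟩
  · exact ⟨hn, by simp⟩
  · have e : as.tail.length = as.length - 1 := List.length_tail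
    rw [e]
    have h1 := esize_pair (R (as.length - 1) k.2.1).1 (R (as.length - 1) k.2.1).2
    rw [Prod.mk.eta] at h1
    refine ⟨?_, ?_⟩
    · exact rat_le (B := B) (by omega) hV (getD_le has 0)
        fun c => getD_le (fun x hx => has x (List.mem_of_mem_tail hx)) c
    · have h2 := length_le_esize (R (as.length - 1) k.2.1).1
      simp only [RMac.toMac, RMac.ren, List.length_map]
      omega

theorem SB.step {R : ℕ → ℕ × ℕ → RMac ℕ} {d : ℕ} {c : CC} {N V E m B : ℕ}
    {s : List (NC × ℕ) × ℕ} (h : SB N V E m s)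
    (hR : esize (R (c.2.2.length - 1) c.2.1.2.1) ≤ B) (hd : d ≤ V) (hV : N + 2 ^ B ≤ V)
    (hc : esize c.1 ≤ E) : SB (N + (B + 1)) V E (m + 1) (stpN R d s c) := by
  have h1 : ∀ x ∈ c.2.2.map (lkp d s.1), x ≤ V := by
    intro x hx
    rw [List.mem_map] at hx
    obtain ⟨y, _, rfl⟩ := hx
    exact lkp_le hd h.reg y
  have h2 := genN_le (R := R) (k := c.2.1) (n := s.2) (B := B) (V := V)
    (as := c.2.2.map (lkp d s.1)) (by rw [List.length_map]; exact hR)
    (by have := h.num; omega) h1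
  unfold stpN
  refine ⟨?_, ?_, ?_, ?_⟩
  · exact Nat.add_le_add h.num h2.2
  · intro q hq
    rcases List.mem_cons.1 hq with rfl | hq
    · exact h2.1
    · exact h.reg q hq
  · intro q hq
    rcases List.mem_cons.1 hq with rfl | hq
    · exact hc
    · exact h.nam q hq
  · simp only [List.length_cons]
    exact Nat.add_le_add_right h.len 1

theorem SB.mono {N N' V E m m' : ℕ} {s : List (NC × ℕ) × ℕ} (h : SB N V E m s) (hN : N ≤ N')
    (hm : m ≤ m') : SB N' V E m' s :=
  ⟨h.num.trans hN, h.reg, h.nam, h.len.trans hm⟩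

theorem SB.foldl {R : ℕ → ℕ × ℕ → RMac ℕ} {d V E B : ℕ} (hd : d ≤ V) :
    ∀ (l : List CC) (N m : ℕ) (s : List (NC × ℕ) × ℕ), SB N V E m s →
      (∀ c ∈ l, esize (R (c.2.2.length - 1) c.2.1.2.1) ≤ B) →
      N + l.length * (B + 1) + 2 ^ B ≤ V → (∀ c ∈ l, esize c.1 ≤ E) →
      SB (N + l.length * (B + 1)) V E (m + l.length) (l.foldl (stpN R d) s) := by
  intro l
  induction l with
  | nil =>
    intro N m s h _ _ _
    exact h.mono (by simp) (by simp)
  | cons c l ih =>
    intro N m s h h1 h2 h3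
    rw [List.length_cons, add_mul, one_mul] at h2
    rw [List.foldl_cons]
    have h4 := h.step (h1 c (List.mem_cons_self ..)) hd (by omega) (h3 c (List.mem_cons_self ..))
    have h5 := ih _ _ _ h4 (fun c' hc' => h1 c' (List.mem_cons_of_mem _ hc')) (by omega)
      (fun c' hc' => h3 c' (List.mem_cons_of_mem _ hc'))
    refine h5.mono ?_ ?_
    · rw [List.length_cons, add_mul, one_mul]; omega
    · rw [List.length_cons]; omega

/-- **The states of the translation are computable in polynomial time.** -/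
theorem PT.foldN {R : α → ℕ → ℕ × ℕ → RMac ℕ} (hR : PT A (fun p : α × ℕ × (ℕ × ℕ) =>
    R p.1 p.2.1 p.2.2)) {d : α → ℕ} {s : α → List (NC × ℕ) × ℕ} {l : α → List CC} (hd : PT A d)
    (hs : PT A s) (hnb : PBd (fun a => (s a).2)) (hl : PT A l) :
    PT A (fun a => (l a).foldl (H874.stpN (R a) (d a)) (s a)) := by
  have hRc : PT A (fun p : α × CC => R p.1 (p.2.2.2.length - 1) p.2.2.1.2.1) :=
    PT.comp (g := fun p : α × ℕ × (ℕ × ℕ) => R p.1 p.2.1 p.2.2) hR
      (PT.fst'.pair ((PT.sub (PT.length PT.snd'.snd.snd) (PT.const 1)).pair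
        PT.snd'.snd.fst.snd.fst))
  obtain ⟨B, hB, hB'⟩ := PT.bound_mem
    (f := fun a (c : CC) => R a (c.2.2.length - 1) c.2.1.2.1) hl hRc
  -- the bounds
  obtain ⟨S, hS, hS1, hS2, hS3, hS4⟩ : ∃ S : α → ℕ, PBd S ∧ (∀ a, (s a).2 ≤ S a) ∧
      (∀ a, esize (s a) ≤ S a) ∧ (∀ a, esize (l a) ≤ S a) ∧ (∀ a, esize (d a) ≤ S a) :=
    ⟨fun a => (s a).2 + esize (s a) + esize (l a) + esize (d a),
      ((hnb.add hs.pbd).add hl.pbd).add hd.pbd,
      fun a => by beta_reduce; omega, fun a => by beta_reduce; omega,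
      fun a => by beta_reduce; omega, fun a => by beta_reduce; omega⟩
  have key : ∀ a i, SB (S a + S a * (B a + 1)) (2 ^ (S a + S a * (B a + 1) + B a + 1)) (S a)
      (S a + S a) (((l a).take i).foldl (H874.stpN (R a) (d a)) (s a)) := by
    intro a i
    have hp : ∀ x y, x ≤ y → 2 ^ x ≤ 2 ^ y := fun x y h =>
      Nat.pow_le_pow_right (by norm_num) h
    have e1 : d a ≤ 2 ^ (S a + S a * (B a + 1) + B a + 1) :=
      (le_pow_esize _).trans (hp _ _ (by have := hS4 a; omega))
    have h0 := esize_pair (s a).1 (s a).2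
    rw [Prod.mk.eta] at h0
    have hs0 := hS2 a
    have h1 : SB (S a) (2 ^ (S a + S a * (B a + 1) + B a + 1)) (S a) (S a) (s a) := by
      refine ⟨hS1 a, fun q hq => ?_, fun q hq => ?_, ?_⟩
      · have h2 := esize_le_of_mem hq
        have h3 := esize_pair q.1 q.2
        rw [Prod.mk.eta] at h3
        exact (le_pow_esize _).trans (hp _ _ (by omega))
      · have h2 := esize_le_of_mem hq
        have h3 := esize_pair q.1 q.2
        rw [Prod.mk.eta] at h3
        omega
      · have := length_le_esize (s a).1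
        omega
    have h2 : (l a).length ≤ S a := (length_le_esize _).trans (hS3 a)
    have h3 : ((l a).take i).length ≤ (l a).length := by rw [List.length_take]; omega
    have h4 : ((l a).take i).length * (B a + 1) ≤ S a * (B a + 1) :=
      Nat.mul_le_mul_right _ (h3.trans h2)
    have h5 := SB.foldl (R := R a) (B := B a) e1 ((l a).take i) (S a) (S a) (s a) h1
      (fun c hc => hB' a c (List.mem_of_mem_take hc)) ?_ (fun c hc => ?_)
    · exact h5.mono (by omega) (by omega)
    · have e2 : S a + S a * (B a + 1) < 2 ^ (S a + S a * (B a + 1)) := Nat.lt_two_pow_self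
      have e3 := hp (S a + S a * (B a + 1)) (S a + S a * (B a + 1) + B a) (by omega)
      have e4 := hp (B a) (S a + S a * (B a + 1) + B a) (by omega)
      have e5 : 2 ^ (S a + S a * (B a + 1) + B a + 1) = 2 ^ (S a + S a * (B a + 1) + B a) +
        2 ^ (S a + S a * (B a + 1) + B a) := by rw [pow_succ]; ring
      omega
    · have h6 := esize_le_of_mem (List.mem_of_mem_take hc)
      have h7 := esize_pair c.1 c.2
      rw [Prod.mk.eta] at h7
      have := hS3 a
      omega
  have hX : PBd (fun a => S a + S a * (B a + 1)) := hS.add (hS.mul (hB.add (PBd.const 1)))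
  refine PT.foldl (f := fun a s c => H874.stpN (R a) (d a) s c)
    (b := fun a => 2 * ((S a + S a) * (2 * (2 * S a + ((S a + S a * (B a + 1) + B a + 1) + 1) + 1)
      + 1)) + (S a + S a * (B a + 1)) + 1) hl hs ?_ ?_ fun a i => (key a i).esize_le
  · have hR2 : PT A (fun p : (α × (List (NC × ℕ) × ℕ) × CC) × ℕ × (ℕ × ℕ) =>
        R p.1.1 p.2.1 p.2.2) :=
      PT.comp (g := fun p : α × ℕ × (ℕ × ℕ) => R p.1 p.2.1 p.2.2) hR (PT.fst'.fst.pair PT.snd')
    exact PT.stpN (R := fun p : α × (List (NC × ℕ) × ℕ) × CC => R p.1) hR2 (hd.comp PT.fst')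
      PT.snd'.fst PT.snd'.snd
  · exact (((PBd.const 2).mul ((hS.add hS).mul (((PBd.const 2).mul ((((PBd.const 2).mul hS).add
      (((hX.add hB).add (PBd.const 1)).add (PBd.const 1))).add (PBd.const 1))).add
        (PBd.const 1)))).add hX).add (PBd.const 1)

/-- **The translation is computable in polynomial time.** -/
theorem PT.compN {R : α → ℕ → ℕ × ℕ → RMac ℕ} (hR : PT A (fun p : α × ℕ × (ℕ × ℕ) =>
    R p.1 p.2.1 p.2.2)) {d : α → ℕ} {s : α → List (NC × ℕ) × ℕ} {l : α → List CC} (hd : PT A d)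
    (hs : PT A s) (hnb : PBd (fun a => (s a).2)) (hl : PT A l) :
    PT A (fun a => H874.compN (R a) (d a) (l a) (s a)) := by
  have h1 : PT A (fun a => (H874.compN (R a) (d a) (l a) (s a)).1) :=
    (PT.foldN hR hd hs hnb hl).congr fun a => (compN_fst _ _ _ _).symm
  have hR2 : PT A (fun p : (α × ℕ) × ℕ × (ℕ × ℕ) => R p.1.1 p.2.1 p.2.2) :=
    PT.comp (g := fun p : α × ℕ × (ℕ × ℕ) => R p.1 p.2.1 p.2.2) hR (PT.fst'.fst.pair PT.snd')
  have hnb' : PBd (fun p : α × ℕ => (s p.1).2) :=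
    PBd.comp (b := fun a => (s a).2) hnb (PT.fst' (A := A))
  have h2 : PT A (fun p : α × ℕ => ((l p.1).take p.2).foldl (H874.stpN (R p.1) (d p.1)) (s p.1)) :=
    PT.foldN (R := fun p : α × ℕ => R p.1) hR2 (hd.comp PT.fst') (hs.comp PT.fst') hnb'
      (PT.take (hl.comp PT.fst') PT.snd')
  have h3 : PT A (fun a => (H874.compN (R a) (d a) (l a) (s a)).2) := by
    refine (PT.flatMap (l := fun a => List.range (l a).length) (f := fun a j =>
      match (l a)[j]? with
      | none => []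
      | some c => (H874.genN (R a) c.2.1 (((l a).take j).foldl (H874.stpN (R a) (d a)) (s a)).2
          (c.2.2.map (H874.lkp (d a) (((l a).take j).foldl (H874.stpN (R a) (d a)) (s a)).1))).1)
      (PT.range (PT.length hl) (PBd.length hl)) ?_).congr fun a => (compN_snd _ _ _ _).symm
    have hR3 : PT A (fun p : ((α × ℕ) × CC) × ℕ × (ℕ × ℕ) => R p.1.1.1 p.2.1 p.2.2) :=
      PT.comp (g := fun p : α × ℕ × (ℕ × ℕ) => R p.1 p.2.1 p.2.2) hR
        (PT.fst'.fst.fst.pair PT.snd')
    refine (PT.optCase (o := fun p : α × ℕ => (l p.1)[p.2]?) (f := fun _ => []) (g := fun p c =>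
      (H874.genN (R p.1) c.2.1 (((l p.1).take p.2).foldl (H874.stpN (R p.1) (d p.1)) (s p.1)).2
        (c.2.2.map (H874.lkp (d p.1)
          (((l p.1).take p.2).foldl (H874.stpN (R p.1) (d p.1)) (s p.1)).1))).1)
      (PT.getElem? (hl.comp PT.fst') PT.snd') (PT.const []) ?_).congr fun p => ?_
    · refine (PT.genN (R := fun q : (α × ℕ) × CC => R q.1.1) hR3 PT.snd'.snd.fst
        (h2.snd.comp PT.fst') ?_).fst
      exact PT.map PT.snd'.snd.snd (PT.lkp (hd.comp PT.fst'.fst.fst) (h2.fst.comp PT.fst'.fst)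
        PT.snd')
    · cases (l p.1)[p.2]? <;> rfl
  exact PT.pair h1 h3

end Vale.Agent.P330.H874
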