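import Vale.Agent.P330.H874.RMacC
import Vale.Agent.P330.H874.MacPT

/-!
# Macros with symbolic constant registers, in polynomial time

`MC A l m`: the macro `m a ρ` over the field `Fl (l a)`, where the constant registers are `ρ c`, is
given by a relative macro with names computable in polynomial time.
-/

namespace Vale.Agent.P330.H874

open Vale.Agent.Lib.PolyTime

open Vale.Agent.P330.H16 (Ins Mac)

open Vale.Agent.P330.H933 (Fl cod FT)

variable {A : Set Word} {α β : Type*} [Enc α] [Enc β]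

/-! ### Sizes -/

theorem esize_le_of_le_pow {m C : ℕ} (h : m ≤ 2 ^ C) : esize m ≤ C + 1 :=
  esize_nat_le (h.trans_lt (Nat.pow_lt_pow_right (by norm_num) (Nat.lt_succ_self C)))

theorem GB.esize_le {B C : ℕ} {g : Rg} (h : GB B C g) : esize g ≤ C + B + 5 := by
  rcases g with _ | ⟨_ | _, i⟩
  · have : esize (none : Rg) = 0 := rfl
    change esize (none : Rg) ≤ _
    omega
  · change esize (some (false, i) : Rg) ≤ _
    rw [esize_some_pair]
    have := esize_le_of_le_pow (m := i) (C := C) h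
    omega
  · change esize (some (true, i) : Rg) ≤ _
    rw [esize_some_pair]
    have h1 : i ≤ 2 ^ C + B := h
    have h2 : i < 2 ^ (C + B + 1) := by
      have e1 : B < 2 ^ (C + B) :=
        Nat.lt_two_pow_self.trans_le (Nat.pow_le_pow_right (by norm_num) (by omega))
      have e2 : 2 ^ C ≤ 2 ^ (C + B) := Nat.pow_le_pow_right (by norm_num) (by omega)
      have e3 : 2 ^ (C + B + 1) = 2 ^ (C + B) + 2 ^ (C + B) := by rw [pow_succ]; ring
      omega
    have := esize_nat_le h2
    omega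

theorem IB.esize_le {B C : ℕ} {i : RIns ℕ} (h : IB B C i) :
    esize i ≤ 6 * (C + B + 5) ^ 2 + 15 * (C + B + 5) + 6 := by
  obtain ⟨i1, ⟨p, r1, r2⟩, ls⟩ := i
  have h1 := esize_le_of_le_pow h.kd
  have h2 := esize_le_of_le_pow h.par
  have h3 := h.r1.esize_le
  have h4 := h.r2.esize_le
  have h5 : esize ls ≤ ls.length * (2 * (3 * (C + B + 5) + 1) + 1) := by
    refine esize_list_le fun q hq => ?_
    have h6 := h.ls q hq
    have h7 := esize_le_of_le_pow h6.1
    have h8 := h6.2.esize_le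
    have h9 := esize_pair q.1 q.2
    rw [Prod.mk.eta] at h9
    omega
  have h6 : ls.length ≤ C + B + 5 := h.len.trans (by omega)
  have h7 : esize ls ≤ (C + B + 5) * (2 * (3 * (C + B + 5) + 1) + 1) :=
    h5.trans (Nat.mul_le_mul_right _ h6)
  rw [esize_pair, esize_pair, esize_pair, esize_pair]
  simp only at h1 h2 h3 h4
  have h8 : (C + B + 5) * (2 * (3 * (C + B + 5) + 1) + 1) =
      6 * (C + B + 5) ^ 2 + 3 * (C + B + 5) := by ring
  rw [h8] at h7
  omega

/-- the size bound of small macros -/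
def mbd (G : ℕ) : ℕ := 2 * (G * (2 * (6 * G ^ 2 + 15 * G + 6) + 1)) + G + 1

theorem MB.esize_le {B C : ℕ} {R : RMac ℕ} (h : MB B C R) : esize R ≤ mbd (C + B + 5) := by
  obtain ⟨c, r⟩ := R
  have h1 : esize c ≤ c.length * (2 * (6 * (C + B + 5) ^ 2 + 15 * (C + B + 5) + 6) + 1) :=
    esize_list_le fun i hi => (h.ins i hi).esize_le
  have h2 : c.length ≤ C + B + 5 := h.len.trans (by omega)
  have h3 := h1.trans (Nat.mul_le_mul_right _ h2)
  have h4 := h.res.esize_le
  rw [esize_pair]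
  simp only at h4
  unfold mbd
  omega

theorem PBd.mbd {b : α → ℕ} (hb : PBd b) : PBd (fun a => mbd (b a)) := by
  unfold H874.mbd
  exact ((PBd.const 2).mul (hb.mul (((PBd.const 2).mul ((((PBd.const 6).mul (hb.pow 2)).add
    ((PBd.const 15).mul hb)).add (PBd.const 6))).add (PBd.const 1)))).add hb |>.add (PBd.const 1)

theorem le_pow_esize (m : ℕ) : m ≤ 2 ^ esize m := by
  rw [esize_nat]
  exact (Nat.lt_size_self m).le

theorem GB.of_esize {b : ℕ} {g : Rg} (h : esize g ≤ b) : GB b b g := by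
  rcases g with _ | ⟨_ | _, i⟩
  · trivial
  · change esize (some (false, i) : Rg) ≤ _ at h
    rw [esize_some_pair] at h
    exact (le_pow_esize i).trans (Nat.pow_le_pow_right (by norm_num) (by omega))
  · change esize (some (true, i) : Rg) ≤ _ at h
    rw [esize_some_pair] at h
    have := (le_pow_esize i).trans (Nat.pow_le_pow_right (n := 2) (by norm_num)
      (show esize i ≤ b by omega))
    change i ≤ _
    omega

theorem IB.of_esize {b : ℕ} {i : RIns ℕ} (h : esize i ≤ b) : IB b b i := by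
  obtain ⟨i1, ⟨p, r1, r2⟩, ls⟩ := i
  rw [esize_pair, esize_pair, esize_pair, esize_pair] at h
  refine ⟨?_, ?_, ?_, ?_, ?_, fun q hq => ?_⟩
  · exact (le_pow_esize i1).trans (Nat.pow_le_pow_right (by norm_num) (by omega))
  · exact (le_pow_esize p).trans (Nat.pow_le_pow_right (by norm_num) (by omega))
  · exact GB.of_esize (by change esize r1 ≤ b; omega)
  · exact GB.of_esize (by change esize r2 ≤ b; omega)
  · have := length_le_esize ls
    change ls.length ≤ b
    omega
  · have h1 := esize_le_of_mem hq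
    have h2 := esize_pair q.1 q.2
    rw [Prod.mk.eta] at h2
    change esize q ≤ esize ls at h1
    exact ⟨(le_pow_esize q.1).trans (Nat.pow_le_pow_right (by norm_num) (by omega)),
      GB.of_esize (by omega)⟩

theorem MB.of_esize {b : ℕ} {R : RMac ℕ} (h : esize R ≤ b) : MB b b R := by
  have h1 := esize_pair R.1 R.2
  rw [Prod.mk.eta] at h1
  refine ⟨?_, fun i hi => ?_, GB.of_esize (by omega)⟩
  · have := length_le_esize R.1
    omega
  · have := esize_le_of_mem hi
    exact IB.of_esize (by omega)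

/-! ### Change of the constant registers -/

theorem PT.rren {cs : α → List ℕ} {g : α → Rg} (hc : PT A cs) (hg : PT A g) :
    PT A (fun a => H874.rren (fun c => (cs a).getD c 0) (g a)) := by
  refine (PT.optCase (f := fun _ => none) (g := fun a (q : Bool × ℕ) =>
      bif q.1 then some (true, q.2) else some (false, (cs a).getD q.2 0)) hg (PT.const none)
    (PT.cond PT.snd'.fst (PT.some ((PT.const true).pair PT.snd'.snd))
      (PT.some ((PT.const false).pair
        (PT.getD (hc.comp PT.fst') PT.snd'.snd (PT.const 0)))))).congr fun a => ?_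
  unfold H874.rren
  rcases g a with _ | ⟨_ | _, i⟩ <;> rfl

theorem PT.ren {cs : α → List ℕ} {R : α → RMac ℕ} (hc : PT A cs) (hR : PT A R) :
    PT A (fun a => (R a).ren fun c => (cs a).getD c 0) := by
  unfold RMac.ren RIns.ren
  refine PT.pair (PT.map hR.fst ?_) (PT.rren hc hR.snd)
  have hc1 : PT A (fun p : α × RIns ℕ => cs p.1) := hc.comp PT.fst'
  exact PT.pair PT.snd'.fst (PT.pair (PT.pair PT.snd'.snd.fst.fst
    (PT.pair (PT.rren hc1 PT.snd'.snd.fst.snd.fst) (PT.rren hc1 PT.snd'.snd.fst.snd.snd)))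
    (PT.map PT.snd'.snd.snd (PT.pair PT.snd'.fst (PT.rren (hc1.comp PT.fst') PT.snd'.snd))))

/-! ### Linear recursions -/

/-- A linear recursion. -/
def recN {F : Type} [One F] (b : ℕ → Bool) (R0 : RMac F) (P Q Q' : ℕ → RMac F) : ℕ → RMac F
  | 0 => R0
  | j + 1 => if b j = true then lcR [(1, P j), (1, compR (recN b R0 P Q Q' j) (Q j))]
      else compR (recN b R0 P Q Q' j) (Q' j)

theorem recN_mapC {F G : Type} [One F] [One G] {f : F → G} (hf : f 1 = 1) (b : ℕ → Bool)
    (R0 : RMac F) (P Q Q' : ℕ → RMac F) (j : ℕ) :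
    (recN b R0 P Q Q' j).mapC f = recN b (R0.mapC f) (fun j => (P j).mapC f)
      (fun j => (Q j).mapC f) (fun j => (Q' j).mapC f) j := by
  induction j with
  | zero => rfl
  | succ j ih =>
    rw [recN, recN]
    split_ifs
    · rw [lcR_mapC, ← ih]
      unfold mapCL
      simp only [List.map_cons, List.map_nil, compR_mapC, hf]
    · rw [compR_mapC, ih]

theorem MB_recN {b : ℕ → Bool} {R0 : RMac ℕ} {P Q Q' : ℕ → RMac ℕ} {B n : ℕ} (h0 : MB B B R0)
    (hP : ∀ j < n, MB B B (P j)) (hQ : ∀ j < n, MB B B (Q j)) (hQ' : ∀ j < n, MB B B (Q' j)) :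
    ∀ j ≤ n, MB (B + j * (2 * B + 2)) B (recN b R0 P Q Q' j) := by
  intro j
  induction j with
  | zero =>
    intro _
    exact h0.mono (by omega)
  | succ j ih =>
    intro hj
    have i4 := ih (by omega)
    have hone : (1 : ℕ) ≤ 2 ^ B := Nat.one_le_two_pow
    rw [recN]
    split_ifs
    · exact ((hP j (by omega)).lc2 (i4.compR (hQ j (by omega))) hone hone).mono
        (by rw [add_mul]; omega)
    · exact (i4.compR (hQ' j (by omega))).mono (by rw [add_mul]; omega)

theorem recN_rec (b : ℕ → Bool) (R0 : RMac ℕ) (P Q Q' : ℕ → RMac ℕ) (j : ℕ) :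
    Nat.rec (motive := fun _ => RMac ℕ) R0 (fun j R => if b j = true then
      lcR [(1, P j), (1, compR R (Q j))] else compR R (Q' j)) j = recN b R0 P Q Q' j := by
  induction j with
  | zero => rfl
  | succ j ih =>
    rw [recN, ← ih]

theorem PT.recN {b : α → ℕ → Bool} {R0 : α → RMac ℕ} {P Q Q' : α → ℕ → RMac ℕ} {n : α → ℕ}
    (h0 : PT A R0) (hb : PT A (fun p : α × ℕ => b p.1 p.2))
    (hP : PT A (fun p : α × ℕ => P p.1 p.2)) (hQ : PT A (fun p : α × ℕ => Q p.1 p.2))
    (hQ' : PT A (fun p : α × ℕ => Q' p.1 p.2)) (hn : PT A n) (hnb : PBd n) :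
    PT A (fun a => H874.recN (b a) (R0 a) (P a) (Q a) (Q' a) (n a)) := by
  obtain ⟨b1, hb1, hb1'⟩ := PT.bound_mem (l := fun a => List.range (n a)) (PT.range hn hnb) hP
  obtain ⟨b2, hb2, hb2'⟩ := PT.bound_mem (l := fun a => List.range (n a)) (PT.range hn hnb) hQ
  obtain ⟨b3, hb3, hb3'⟩ := PT.bound_mem (l := fun a => List.range (n a)) (PT.range hn hnb) hQ'
  obtain ⟨B, hB, hB0, hB1, hB2, hB3⟩ : ∃ B : α → ℕ, PBd B ∧ (∀ a, esize (R0 a) ≤ B a) ∧
      (∀ a, b1 a ≤ B a) ∧ (∀ a, b2 a ≤ B a) ∧ (∀ a, b3 a ≤ B a) :=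
    ⟨fun a => b1 a + b2 a + b3 a + esize (R0 a), ((hb1.add hb2).add hb3).add h0.pbd,
      fun a => by beta_reduce; omega, fun a => by beta_reduce; omega,
      fun a => by beta_reduce; omega, fun a => by beta_reduce; omega⟩
  have hst : PT A (fun p : α × ℕ × RMac ℕ => if b p.1 p.2.1 = true then
      H874.lcR [(1, P p.1 p.2.1), (1, H874.compR p.2.2 (Q p.1 p.2.1))]
      else H874.compR p.2.2 (Q' p.1 p.2.1)) := by
    have hR : PT A (fun p : α × ℕ × RMac ℕ => p.2.2) := PT.snd'.snd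
    have hj : PT A (fun p : α × ℕ × RMac ℕ => (p.1, p.2.1)) := PT.fst'.pair PT.snd'.fst
    have hb' : PT A (fun p : α × ℕ × RMac ℕ => b p.1 p.2.1) :=
      PT.comp (g := fun p : α × ℕ => b p.1 p.2) hb hj
    have hP' : PT A (fun p : α × ℕ × RMac ℕ => P p.1 p.2.1) :=
      PT.comp (g := fun p : α × ℕ => P p.1 p.2) hP hj
    have hQ1 : PT A (fun p : α × ℕ × RMac ℕ => Q p.1 p.2.1) :=
      PT.comp (g := fun p : α × ℕ => Q p.1 p.2) hQ hj
    have hQ2 : PT A (fun p : α × ℕ × RMac ℕ => Q' p.1 p.2.1) :=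
      PT.comp (g := fun p : α × ℕ => Q' p.1 p.2) hQ' hj
    refine PT.ite (p := fun p : α × ℕ × RMac ℕ => b p.1 p.2.1 = true) ?_ ?_ ?_
    · exact hb'.congr fun p => by simp
    · exact PT.lcR (PT.cons ((PT.const 1).pair hP')
        (PT.cons ((PT.const 1).pair (PT.compR hR hQ1)) PT.nil))
    · exact PT.compR hR hQ2
  have hbd : PBd (fun a => mbd (B a + (B a + n a * (2 * B a + 2)) + 5)) :=
    PBd.mbd ((hB.add (hB.add (hnb.mul (((PBd.const 2).mul hB).add (PBd.const 2))))).add
      (PBd.const 5))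
  refine (PT.natRec (init := R0) (step := fun a j R => if b a j = true then
      H874.lcR [(1, P a j), (1, H874.compR R (Q a j))] else H874.compR R (Q' a j)) hn hnb h0 hst hbd
      fun a j hj => ?_).congr fun a => ?_
  · rw [recN_rec]
    refine ((MB_recN (B := B a) (n := n a) (MB.of_esize (hB0 a)) (fun i hi => ?_)
      (fun i hi => ?_) (fun i hi => ?_) j hj).mono ?_).esize_le
    · exact MB.of_esize ((hb1' a i (List.mem_range.2 hi)).trans (hB1 a))
    · exact MB.of_esize ((hb2' a i (List.mem_range.2 hi)).trans (hB2 a))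
    · exact MB.of_esize ((hb3' a i (List.mem_range.2 hi)).trans (hB3 a))
    · have := Nat.mul_le_mul_right (2 * B a + 2) hj
      omega
  · rw [recN_rec]

/-! ### The calculus -/

/-- Macros with symbolic constant registers, in polynomial time. -/
def MC (A : Set Word) (l : α → ℕ) (m : ∀ a, (ℕ → ℕ) → Mac (Fl (l a))) : Prop :=
  ∃ R : ∀ a, RMac (Fl (l a)), (∀ a ρ, m a ρ = ((R a).ren ρ).toMac) ∧
    PT A (fun a => (R a).mapC (cod (l a)))

/-- Weighted lists of macros with symbolic constant registers. -/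
def MCL (A : Set Word) (l : α → ℕ) (L : ∀ a, (ℕ → ℕ) → List (Fl (l a) × Mac (Fl (l a)))) :
    Prop :=
  ∃ R : ∀ a, List (Fl (l a) × RMac (Fl (l a))),
    (∀ a ρ, L a ρ = (renL ρ (R a)).map fun q => (q.1, q.2.toMac)) ∧
    PT A (fun a => mapCL (cod (l a)) (R a))

variable {l : α → ℕ}

namespace MC

variable {m m' : ∀ a, (ℕ → ℕ) → Mac (Fl (l a))}

theorem congr (h : MC A l m) (h2 : ∀ a ρ, m a ρ = m' a ρ) : MC A l m' := by
  obtain ⟨R, h3, h4⟩ := h
  exact ⟨R, fun a ρ => by rw [← h2, h3], h4⟩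

theorem comp (h : MC A l m) {u : β → α} (hu : PT A u) :
    MC A (fun b => l (u b)) (fun b => m (u b)) := by
  obtain ⟨R, h3, h4⟩ := h
  exact ⟨fun b => R (u b), fun b => h3 (u b),
    PT.comp (g := fun a => (R a).mapC (cod (l a))) h4 hu⟩

/-- The constant registers are given by a list. -/
theorem toMT (h : MC A l m) {cs : α → List ℕ} (hc : PT A cs) :
    MT A l (fun a => m a fun c => (cs a).getD c 0) := by
  obtain ⟨R, h3, h4⟩ := h
  refine ⟨fun a => (R a).ren fun c => (cs a).getD c 0, fun a => h3 a _, ?_⟩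
  exact (PT.ren hc h4).congr fun a => (RMac.ren_mapC _ _ _).symm

theorem id : MC A l (fun _ _ => H16.idM) :=
  ⟨fun _ => ([], none), fun _ _ => rfl, (PT.const ([], none)).congr fun _ => rfl⟩

theorem comp' (h : MC A l m) (h' : MC A l m') :
    MC A l (fun a ρ => H16.comp (m a ρ) (m' a ρ)) := by
  obtain ⟨R, h3, h4⟩ := h
  obtain ⟨S, h5, h6⟩ := h'
  refine ⟨fun a => compR (R a) (S a), fun a ρ => ?_, ?_⟩
  · beta_reduce
    rw [h3, h5, comp_toMac, compR_ren]
  · exact (PT.compR h4 h6).congr fun a => (compR_mapC _ _ _).symm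

/-- A single instruction. -/
theorem one {i : ∀ a, RIns (Fl (l a))} (hi : PT A (fun a => RIns.mapC (cod (l a)) (i a))) :
    MC A l (fun a ρ => (oneR ((i a).ren ρ)).toMac) :=
  ⟨fun a => oneR (i a), fun _ _ => rfl,
    (PT.pair (PT.cons hi PT.nil) (PT.const (some (true, 0)))).congr fun _ => rfl⟩

theorem tr {j : α → ℕ} (hj : PT A j) : MC A l (fun a _ => H16.trM (j a)) :=
  (one (i := fun a => (1, (j a, none, none), [])) (((PT.const 1).pair ((hj.pair
    (PT.const (none, none))).pair (PT.const []))).congr fun _ => rfl)).congr fun _ _ => rfl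

theorem mx {j : α → ℕ} (hj : PT A j) : MC A l (fun a _ => H16.mxM (j a)) :=
  (one (i := fun a => (2, (j a, none, none), [])) (((PT.const 2).pair ((hj.pair
    (PT.const (none, none))).pair (PT.const []))).congr fun _ => rfl)).congr fun _ _ => rfl

theorem sum : MC A l (fun _ _ => H16.sumM) :=
  (one (i := fun _ => (4, (0, none, none), [])) ((PT.const (4, (0, none, none), [])).congr
    fun _ => rfl)).congr fun _ _ => rfl

/-- Multiplication by the constant register number `c a`. -/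
theorem sm {c : α → ℕ} (hc : PT A c) : MC A l (fun a ρ => H16.smM (ρ (c a))) :=
  (one (i := fun a => (5, (0, some (false, c a), none), [])) (((PT.const 5).pair (((PT.const 0).pair
    ((PT.some ((PT.const false).pair hc)).pair (PT.const none))).pair (PT.const []))).congr
      fun _ => rfl)).congr fun _ _ => rfl

/-- A hard-wired content (the input is ignored). -/
theorem pub {p : α → ℕ} (hp : PT A p) : MC A l (fun a _ n _ => ([.pub (p a)], n)) :=
  (one (i := fun a => (3, (p a, none, none), [])) (((PT.const 3).pair ((hp.pair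
    (PT.const (none, none))).pair (PT.const []))).congr fun _ => rfl)).congr fun _ _ => rfl

/-- A multiple of the input. -/
theorem sc {c : ∀ a, Fl (l a)} (hc : FT A l c) :
    MC A l (fun a _ n r => ([.lin [(c a, r)]], n)) :=
  (one (i := fun a => (0, (0, none, none), [(c a, none)])) (((PT.const 0).pair
    ((PT.const (0, none, none)).pair (PT.cons (hc.pair (PT.const none)) PT.nil))).congr
      fun _ => rfl)).congr fun _ _ => rfl

theorem lc {L : ∀ a, (ℕ → ℕ) → List (Fl (l a) × Mac (Fl (l a)))} (h : MCL A l L) :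
    MC A l (fun a ρ => H16.lc (L a ρ)) := by
  obtain ⟨R, h3, h4⟩ := h
  refine ⟨fun a => lcR (R a), fun a ρ => ?_, ?_⟩
  · beta_reduce
    rw [h3, lc_toMac, lcR_ren]
  · exact (PT.lcR h4).congr fun a => (lcR_mapC _ _).symm

/-- Case distinction. -/
theorem ite {p : α → Prop} [DecidablePred p] (hp : PT A (fun a => decide (p a)))
    (h : MC A l m) (h' : MC A l m') : MC A l (fun a ρ => if p a then m a ρ else m' a ρ) := by
  obtain ⟨R, h3, h4⟩ := h
  obtain ⟨S, h5, h6⟩ := h'
  refine ⟨fun a => if p a then R a else S a, fun a ρ => ?_, ?_⟩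
  · beta_reduce
    split_ifs
    · exact h3 a ρ
    · exact h5 a ρ
  · refine (PT.ite hp h4 h6).congr fun a => ?_
    beta_reduce
    split_ifs <;> rfl

/-- Sequences of macros. -/
theorem seq {γ : Type*} [Enc γ] {L : α → List γ} {M : ∀ a, (ℕ → ℕ) → γ → Mac (Fl (l a))}
    (hL : PT A L) (hM : MC A (fun p : α × γ => l p.1) (fun p ρ => M p.1 ρ p.2)) :
    MC A l (fun a ρ => seqM ((L a).map (M a ρ))) := by
  obtain ⟨R, h3, h4⟩ := hM
  refine ⟨fun a => seqR ((L a).map fun x => R (a, x)), fun a ρ => ?_, ?_⟩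
  · rw [seqR_ren, ← seqM_toMac, List.map_map, List.map_map]
    refine congrArg seqM ?_
    exact List.map_congr_left fun x _ => h3 (a, x) ρ
  · refine (PT.seqR (PT.map (f := fun a x => (R (a, x)).mapC (cod (l a))) hL h4)).congr
      fun a => ?_
    rw [seqR_mapC, List.map_map]
    rfl

/-- Iteration. -/
theorem iter {L : α → List ℕ} {M : ∀ a, (ℕ → ℕ) → ℕ → Mac (Fl (l a))} (hL : PT A L)
    (hM : MC A (fun p : α × ℕ => l p.1) (fun p ρ => M p.1 ρ p.2)) :
    MC A l (fun a ρ => H16.iterM (M a ρ) (L a)) :=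
  (seq hL hM).congr fun _ _ => (iterM_eq _ _).symm

/-- Linear recursion. -/
theorem rec {X P Q Q' : ∀ a, (ℕ → ℕ) → ℕ → Mac (Fl (l a))} {b : α → ℕ → Bool} {n : α → ℕ}
    (h0 : MC A l (fun a ρ => X a ρ 0))
    (hX : ∀ a ρ j, X a ρ (j + 1) = if b a j = true then
      H16.lc [(1, P a ρ j), (1, H16.comp (X a ρ j) (Q a ρ j))] else H16.comp (X a ρ j) (Q' a ρ j))
    (hb : PT A (fun p : α × ℕ => b p.1 p.2))
    (hP : MC A (fun p : α × ℕ => l p.1) (fun p ρ => P p.1 ρ p.2))
    (hQ : MC A (fun p : α × ℕ => l p.1) (fun p ρ => Q p.1 ρ p.2))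
    (hQ' : MC A (fun p : α × ℕ => l p.1) (fun p ρ => Q' p.1 ρ p.2))
    (hn : PT A n) (hnb : PBd n) : MC A l (fun a ρ => X a ρ (n a)) := by
  obtain ⟨R0, h1, h2⟩ := h0
  obtain ⟨RP, h3, h4⟩ := hP
  obtain ⟨RQ, h5, h6⟩ := hQ
  obtain ⟨RQ', h7, h8⟩ := hQ'
  refine ⟨fun a => recN (b a) (R0 a) (fun j => RP (a, j)) (fun j => RQ (a, j))
    (fun j => RQ' (a, j)) (n a), fun a ρ => ?_, ?_⟩
  · have e1 : ∀ j, X a ρ j = ((recN (b a) (R0 a) (fun j => RP (a, j)) (fun j => RQ (a, j))
        (fun j => RQ' (a, j)) j).ren ρ).toMac := by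
      intro j
      induction j with
      | zero => exact h1 a ρ
      | succ j ih =>
        rw [hX, recN]
        have h3' : P a ρ j = ((RP (a, j)).ren ρ).toMac := h3 (a, j) ρ
        have h5' : Q a ρ j = ((RQ (a, j)).ren ρ).toMac := h5 (a, j) ρ
        have h7' : Q' a ρ j = ((RQ' (a, j)).ren ρ).toMac := h7 (a, j) ρ
        split_ifs
        · rw [lcR_ren, ← lc_toMac, ih, h3', h5', comp_toMac, ← compR_ren]
          rfl
        · rw [compR_ren, ← comp_toMac, ih, h7']
    exact e1 (n a)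
  · refine (PT.recN (P := fun a j => (RP (a, j)).mapC (cod (l a)))
      (Q := fun a j => (RQ (a, j)).mapC (cod (l a)))
      (Q' := fun a j => (RQ' (a, j)).mapC (cod (l a))) h2 hb h4 h6 h8 hn hnb).congr fun a => ?_
    beta_reduce
    rw [recN_mapC H933.cod_one]

end MC

namespace MCL

variable {L L' : ∀ a, (ℕ → ℕ) → List (Fl (l a) × Mac (Fl (l a)))}

theorem congr (h : MCL A l L) (h2 : ∀ a ρ, L a ρ = L' a ρ) : MCL A l L' := by
  obtain ⟨R, h3, h4⟩ := h
  exact ⟨R, fun a ρ => by rw [← h2, h3], h4⟩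

theorem comp (h : MCL A l L) {u : β → α} (hu : PT A u) :
    MCL A (fun b => l (u b)) (fun b => L (u b)) := by
  obtain ⟨R, h3, h4⟩ := h
  exact ⟨fun b => R (u b), fun b => h3 (u b),
    PT.comp (g := fun a => mapCL (cod (l a)) (R a)) h4 hu⟩

theorem nil : MCL A l (fun _ _ => []) :=
  ⟨fun _ => [], fun _ _ => rfl, (PT.const []).congr fun _ => rfl⟩

theorem cons {c : ∀ a, Fl (l a)} {m : ∀ a, (ℕ → ℕ) → Mac (Fl (l a))} (hc : FT A l c)
    (hm : MC A l m) (h : MCL A l L) : MCL A l (fun a ρ => (c a, m a ρ) :: L a ρ) := by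
  obtain ⟨S, h1, h2⟩ := hm
  obtain ⟨R, h3, h4⟩ := h
  refine ⟨fun a => (c a, S a) :: R a, fun a ρ => ?_, ?_⟩
  · beta_reduce
    rw [h1, h3]
    rfl
  · exact (PT.cons (hc.pair h2) h4).congr fun a => rfl

theorem append (h : MCL A l L) (h' : MCL A l L') : MCL A l (fun a ρ => L a ρ ++ L' a ρ) := by
  obtain ⟨R, h1, h2⟩ := h
  obtain ⟨S, h3, h4⟩ := h'
  refine ⟨fun a => R a ++ S a, fun a ρ => ?_, ?_⟩
  · beta_reduce
    rw [h1, h3, renL, renL, renL, List.map_append, List.map_append]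
  · exact (PT.append h2 h4).congr fun a => (List.map_append ..).symm

/-- Families. -/
theorem map {γ : Type*} [Enc γ] {K : α → List γ} {c : ∀ a, γ → Fl (l a)}
    {M : ∀ a, (ℕ → ℕ) → γ → Mac (Fl (l a))} (hK : PT A K)
    (hc : FT A (fun p : α × γ => l p.1) (fun p => c p.1 p.2))
    (hM : MC A (fun p : α × γ => l p.1) (fun p ρ => M p.1 ρ p.2)) :
    MCL A l (fun a ρ => (K a).map fun x => (c a x, M a ρ x)) := by
  obtain ⟨R, h3, h4⟩ := hM
  refine ⟨fun a => (K a).map fun x => (c a x, R (a, x)), fun a ρ => ?_, ?_⟩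
  · rw [renL, List.map_map, List.map_map]
    exact List.map_congr_left fun x _ => Prod.ext rfl (h3 (a, x) ρ)
  · refine (PT.map (f := fun a x => (cod (l a) (c a x), (R (a, x)).mapC (cod (l a)))) hK
      (PT.pair hc h4)).congr fun a => ?_
    unfold mapCL
    rw [List.map_map]
    rfl

end MCL

end Vale.Agent.P330.H874
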