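import Vale.Agent.P330.H874.MacC
import Vale.Agent.P330.W.H118.Macros

/-!
# The unary macros of the content machine in polynomial time
-/

namespace Vale.Agent.P330.H874

open Vale.Agent.Lib.PolyTime

open Vale.Agent.P330.H16 (Ins Mac UM)

open Vale.Agent.P330.H933 (Fl cod FT)

/-! ### Macros with a number of constant registers and a register function -/

section

variable {F : Type} [One F]

/-- `c_j u` -/
def smG' (n : ℕ) (ρ : ℕ → ℕ) (j : ℕ) : Mac F := if j < n then H16.smM (ρ j) else H118.zeroM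

omit [One F] in
theorem smG_eq (cs : List ℕ) (j : ℕ) :
    (H118.smG cs j : Mac F) = smG' cs.length (fun c => cs.getD c 0) j := rfl

/-- `(1 + x_j + c_j) u` -/
def affM' (n : ℕ) (ρ : ℕ → ℕ) (j : ℕ) : Mac F :=
  H118.add3 H16.idM (H16.mxM j) (smG' n ρ j)

/-- `(1 + s_j + c_j) u` -/
def s1M' (cf : ℕ → ℕ → F) (κ n : ℕ) (ρ : ℕ → ℕ) (j : ℕ) : Mac F :=
  H118.add3 H16.idM (H118.sM cf κ j) (smG' n ρ j)

/-- prefix masks -/
def preAux' (n : ℕ) (ρ : ℕ → ℕ) : ℕ → Mac F
  | 0 => H118.zeroM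
  | m + 1 => H118.add2 (H16.comp (H118.nxM m) (smG' n ρ m))
      (H16.comp (preAux' n ρ m) (affM' n ρ m))

theorem preAux_eq (cs : List ℕ) (m : ℕ) :
    (H118.preAux cs m : Mac F) = preAux' cs.length (fun c => cs.getD c 0) m := by
  induction m with
  | zero => rfl
  | succ m ih =>
    rw [H118.preAux, preAux', ← ih]
    rfl

/-- the unary macros with a number of constant registers and a register function -/
def mac' (cf : ℕ → ℕ → F) (κ k : ℕ) (off : Bool → ℕ) (n : ℕ) (ρ : ℕ → ℕ) : UM → Mac F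
  | .tr j => H16.trM j
  | .mx j => H16.mxM j
  | .sum => H16.sumM
  | .hh => H118.hM κ k
  | .lde => H118.ldeM cf κ k
  | .inv => H118.invM cf κ
  | .nand => H16.comp (H16.mxM 1) (H118.nxM 0)
  | .k0 => H16.comp (H118.nxM 1) (H118.nxM 0)
  | .k1 => H16.comp (H118.nxM 1) (H16.mxM 0)
  | .rd0 => H16.iterM H118.nxM (List.range κ)
  | .pre => H16.comp (H118.hM κ k) (H118.add2 (preAux' n ρ k) (smG' n ρ k))
  | .LL => H16.iterM (s1M' cf κ n ρ) (List.range k)
  | .ch => H16.iterM (fun j => if j < k then affM' n ρ j else H118.nxM j) (List.range κ)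
  | .off z => H118.trPM κ (off z)

theorem mac_eq (cf : ℕ → ℕ → F) (κ k : ℕ) (off : Bool → ℕ) (m : UM) (cs : List ℕ) :
    H118.mac cf κ k off m cs = mac' cf κ k off cs.length (fun c => cs.getD c 0) m := by
  cases m
  case pre =>
    rw [H118.mac, mac', H118.preM, preAux_eq]
    rfl
  all_goals rfl

end

/-! ### Polynomial time -/

variable {A : Set Word} {α β : Type*} [Enc α] [Enc β] {l : α → ℕ}

/-- The parameters of the macros are computable in polynomial time. -/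
structure CPar (A : Set Word) (l κ k : α → ℕ) (cf : ∀ a, ℕ → ℕ → Fl (l a)) (off : α → Bool → ℕ) :
    Prop where
  pκ : PT A κ
  bκ : PBd κ
  pk : PT A k
  bk : PBd k
  pcf : FT A (fun q : α × ℕ × ℕ => l q.1) (fun q => cf q.1 q.2.1 q.2.2)
  poff : ∀ z, PT A (fun a => off a z)

namespace MC

variable {a b c : ∀ a, (ℕ → ℕ) → Mac (Fl (l a))}

theorem add2 (ha : MC A l a) (hb : MC A l b) :
    MC A l (fun x ρ => H118.add2 (a x ρ) (b x ρ)) :=
  MC.lc (MCL.cons FT.one ha (MCL.cons FT.one hb MCL.nil))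

theorem add3 (ha : MC A l a) (hb : MC A l b) (hc : MC A l c) :
    MC A l (fun x ρ => H118.add3 (a x ρ) (b x ρ) (c x ρ)) :=
  MC.lc (MCL.cons FT.one ha (MCL.cons FT.one hb (MCL.cons FT.one hc MCL.nil)))

theorem zeroM : MC A l (fun _ _ => H118.zeroM) := MC.lc MCL.nil

theorem smG {n j : α → ℕ} (hn : PT A n) (hj : PT A j) :
    MC A l (fun a ρ => smG' (n a) ρ (j a)) :=
  MC.ite (PT.lt hj hn) (MC.sm hj) MC.zeroM

theorem nxM {j : α → ℕ} (hj : PT A j) : MC A l (fun a _ => H118.nxM (j a)) :=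
  MC.add2 MC.id (MC.mx hj)

theorem bcM {j : α → ℕ} (hj : PT A j) : MC A l (fun a _ => H118.bcM (j a)) :=
  MC.add2 MC.id (MC.tr hj)

theorem affM {n j : α → ℕ} (hn : PT A n) (hj : PT A j) :
    MC A l (fun a ρ => affM' (n a) ρ (j a)) :=
  MC.add3 MC.id (MC.mx hj) (MC.smG hn hj)

variable {κ k : α → ℕ} {cf : ∀ a, ℕ → ℕ → Fl (l a)} {off : α → Bool → ℕ}

theorem sM (h : CPar A l κ k cf off) {j : α → ℕ} (hj : PT A j) :
    MC A l (fun a _ => H118.sM (cf a) (κ a) (j a)) := by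
  refine MC.lc (MCL.map (c := fun a i => cf a (j a) i) (M := fun _ _ i => H16.mxM i)
    (PT.range h.pκ h.bκ) ?_ (MC.mx PT.snd'))
  exact FT.comp (l := fun q : α × ℕ × ℕ => l q.1) (f := fun q => cf q.1 q.2.1 q.2.2) h.pcf
    (u := fun p : α × ℕ => (p.1, j p.1, p.2)) (PT.fst'.pair ((hj.comp PT.fst').pair PT.snd'))

theorem s1M (h : CPar A l κ k cf off) {n j : α → ℕ} (hn : PT A n) (hj : PT A j) :
    MC A l (fun a ρ => s1M' (cf a) (κ a) (n a) ρ (j a)) :=
  MC.add3 MC.id (MC.sM h hj) (MC.smG hn hj)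

theorem ifaM (h : CPar A l κ k cf off) {j : α → ℕ} (hj : PT A j) :
    MC A l (fun a _ => H118.ifaM (cf a) (κ a) (j a)) :=
  MC.add2 MC.id (MC.comp' (MC.bcM hj) (MC.sM h hj))

theorem iffM (h : CPar A l κ k cf off) {j : α → ℕ} (hj : PT A j) :
    MC A l (fun a _ => H118.iffM (cf a) (κ a) (j a)) :=
  MC.add2 (MC.ifaM h hj) (MC.comp' (MC.add2 (MC.ifaM h hj) (MC.bcM hj)) (MC.mx hj))

theorem ffM (h : CPar A l κ k cf off) {j : α → ℕ} (hj : PT A j) :
    MC A l (fun a _ => H118.ffM (cf a) (κ a) (j a)) :=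
  MC.add2 (MC.add2 (MC.nxM hj) (MC.comp' (MC.tr hj) (MC.mx hj)))
    (MC.comp' (MC.add2 (MC.mx hj) (MC.comp' (MC.tr hj) (MC.nxM hj))) (MC.sM h hj))

end MC

theorem CPar.comp {κ k : α → ℕ} {cf : ∀ a, ℕ → ℕ → Fl (l a)} {off : α → Bool → ℕ}
    (h : CPar A l κ k cf off) {u : β → α} (hu : PT A u) :
    CPar A (fun b => l (u b)) (fun b => κ (u b)) (fun b => k (u b)) (fun b => cf (u b))
      (fun b => off (u b)) where
  pκ := h.pκ.comp hu
  bκ := h.bκ.comp hu
  pk := h.pk.comp hu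
  bk := h.bk.comp hu
  pcf := FT.comp (l := fun q : α × ℕ × ℕ => l q.1) (f := fun q => cf q.1 q.2.1 q.2.2) h.pcf
    (u := fun p : β × ℕ × ℕ => (u p.1, p.2)) ((hu.comp PT.fst').pair PT.snd')
  poff z := (h.poff z).comp hu

theorem PT.range' {s n : α → ℕ} (hs : PT A s) (hn : PT A n) (hb : PBd n) :
    PT A (fun a => List.range' (s a) (n a)) := by
  refine (PT.map (f := fun a i => s a + i) (PT.range hn hb)
    (PT.add (hs.comp PT.fst') PT.snd')).congr fun a => ?_
  rw [List.range'_eq_map_range]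

namespace MC

variable {κ k : α → ℕ} {cf : ∀ a, ℕ → ℕ → Fl (l a)} {off : α → Bool → ℕ}

theorem hM (h : CPar A l κ k cf off) : MC A l (fun a _ => H118.hM (κ a) (k a)) :=
  MC.iter (PT.range' h.pk (PT.sub h.pκ h.pk) (h.bκ.mono fun _ => Nat.sub_le _ _)) (MC.nxM PT.snd')

theorem preAux (h : CPar A l κ k cf off) {n : α → ℕ} (hn : PT A n) :
    MC A l (fun a ρ => preAux' (n a) ρ (k a)) := by
  have hn' : PT A (fun p : α × ℕ => n p.1) := hn.comp PT.fst'
  refine MC.rec (X := fun a ρ j => preAux' (n a) ρ j)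
    (P := fun a ρ j => H16.comp (H118.nxM j) (smG' (n a) ρ j))
    (Q := fun a ρ j => affM' (n a) ρ j) (Q' := fun _ _ _ => H16.idM) (b := fun _ _ => true)
    (MC.zeroM) (fun a ρ j => ?_) (PT.const true) ?_ ?_ MC.id h.pk h.bk
  · rw [if_pos rfl]
    rfl
  · exact MC.comp' (MC.nxM PT.snd') (MC.smG hn' PT.snd')
  · exact MC.affM hn' PT.snd'

/-- **The unary macros in polynomial time.** -/
theorem mac (h : CPar A l κ k cf off) {n : α → ℕ} (hn : PT A n) {j : α → ℕ} (hj : PT A j) :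
    MC A l (fun a _ => H16.trM (j a)) ∧ MC A l (fun a _ => H16.mxM (j a)) ∧
    ∀ m : UM, (∀ i, m ≠ .tr i) → (∀ i, m ≠ .mx i) →
      MC A l (fun a ρ => mac' (cf a) (κ a) (k a) (off a) (n a) ρ m) := by
  refine ⟨MC.tr hj, MC.mx hj, fun m h1 h2 => ?_⟩
  have c0 : PT A (fun _ : α => 0) := PT.const 0
  have c1 : PT A (fun _ : α => 1) := PT.const 1
  have hr : PT A (fun a => List.range (κ a)) := PT.range h.pκ h.bκ
  have hk : PT A (fun a => List.range (k a)) := PT.range h.pk h.bk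
  have hf : CPar A (fun p : α × ℕ => l p.1) (fun p => κ p.1) (fun p => k p.1)
    (fun p => cf p.1) (fun p => off p.1) := h.comp PT.fst'
  have hn' : PT A (fun p : α × ℕ => n p.1) := hn.comp PT.fst'
  cases m
  case tr i => exact absurd rfl (h1 i)
  case mx i => exact absurd rfl (h2 i)
  case sum => exact MC.sum
  case hh => exact MC.hM h
  case lde =>
    exact MC.comp' (MC.hM h) (MC.comp' (MC.iter hk (MC.iffM hf PT.snd'))
      (MC.iter (M := fun a _ j => H118.ffM (cf a) (κ a) j) hr.reverse (MC.ffM hf PT.snd')))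
  case inv => exact MC.iter hr (MC.iffM hf PT.snd')
  case nand => exact MC.comp' (MC.mx c1) (MC.nxM c0)
  case k0 => exact MC.comp' (MC.nxM c1) (MC.nxM c0)
  case k1 => exact MC.comp' (MC.nxM c1) (MC.mx c0)
  case rd0 => exact MC.iter hr (MC.nxM PT.snd')
  case pre => exact MC.comp' (MC.hM h) (MC.add2 (MC.preAux h hn) (MC.smG hn h.pk))
  case LL => exact MC.iter hk (MC.s1M hf hn' PT.snd')
  case ch =>
    refine MC.iter (M := fun a ρ j => if j < k a then affM' (n a) ρ j else H118.nxM j) hr ?_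
    exact MC.ite (p := fun p : α × ℕ => p.2 < k p.1) (PT.lt PT.snd' hf.pk)
      (MC.affM hn' PT.snd') (MC.nxM PT.snd')
  case off z =>
    refine MC.iter (M := fun _ _ j => H16.trM j)
      (L := fun a => (List.range (κ a)).filter fun j => (off a z).testBit j) ?_ (MC.tr PT.snd')
    exact PT.filter hr (PT.testBit ((h.poff z).comp PT.fst') PT.snd')

end MC

end Vale.Agent.P330.H874
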