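import Vale.Agent.P330.H874.CompN
import Vale.Agent.P330.H16.Names

/-!
# Codes of the names of the registers
-/

namespace Vale.Agent.P330.H874

open Vale.Agent.Lib.PolyTime

open Vale.Agent.P330.H16 (Nm UM)

/-- the code of a name -/
def nc : Nm → NC
  | .z => (0, (false, false), (0, 0))
  | .t j => (1, (false, false), (j, 0))
  | .w b => (2, (b, false), (0, 0))
  | .P b s => (3, (b, false), (s, 0))
  | .Q b => (4, (b, false), (0, 0))
  | .one => (5, (false, false), (0, 0))
  | .zero => (6, (false, false), (0, 0))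
  | .zd => (7, (false, false), (0, 0))
  | .zc => (8, (false, false), (0, 0))
  | .td j => (9, (false, false), (j, 0))
  | .tc j => (10, (false, false), (j, 0))
  | .zb b => (11, (b, false), (0, 0))
  | .tn j => (12, (false, false), (j, 0))
  | .car j => (13, (false, false), (j, 0))
  | .tp j => (14, (false, false), (j, 0))
  | .bor j => (15, (false, false), (j, 0))
  | .tm j => (16, (false, false), (j, 0))
  | .t0n => (17, (false, false), (0, 0))
  | .hx b j => (18, (b, false), (j, 0))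
  | .hb b j => (19, (b, false), (j, 0))
  | .pb j => (20, (false, false), (j, 0))
  | .zz => (21, (false, false), (0, 0))
  | .tt j => (22, (false, false), (j, 0))
  | .tk j => (23, (false, false), (j, 0))
  | .sw s => (24, (false, false), (s, 0))
  | .f b s => (25, (b, false), (s, 0))
  | .T b s => (26, (b, false), (s, 0))
  | .Y b s => (27, (b, false), (s, 0))
  | .LY b s => (28, (b, false), (s, 0))
  | .hP b s => (29, (b, false), (s, 0))
  | .mP b s => (30, (b, false), (s, 0))
  | .nP b s j => (31, (b, false), (s, j))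
  | .A1 b => (32, (b, false), (0, 0))
  | .A2 b => (33, (b, false), (0, 0))
  | .LA b => (34, (b, false), (0, 0))
  | .B1 b => (35, (b, false), (0, 0))
  | .B2 b => (36, (b, false), (0, 0))
  | .LB b => (37, (b, false), (0, 0))
  | .hQ b => (38, (b, false), (0, 0))
  | .mQ b => (39, (b, false), (0, 0))
  | .nQ b j => (40, (b, false), (j, 0))
  | .xo b => (41, (b, false), (0, 0))
  | .i1 b => (42, (b, false), (0, 0))
  | .i2 b => (43, (b, false), (0, 0))
  | .v1 b => (44, (b, false), (0, 0))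
  | .v2 b => (45, (b, false), (0, 0))
  | .v3 b => (46, (b, false), (0, 0))
  | .v4 b => (47, (b, false), (0, 0))
  | .v5 b => (48, (b, false), (0, 0))
  | .v6 b => (49, (b, false), (0, 0))
  | .v7 b => (50, (b, false), (0, 0))
  | .V b => (51, (b, false), (0, 0))
  | .pV b => (52, (b, false), (0, 0))
  | .hw b => (53, (b, false), (0, 0))
  | .c1 b => (54, (b, false), (0, 0))
  | .c2 b => (55, (b, false), (0, 0))
  | .c3 b => (56, (b, false), (0, 0))
  | .c4 b => (57, (b, false), (0, 0))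
  | .g m s => (58, (m, false), (s, 0))
  | .px m s i => (59, (m, false), (s, i))
  | .pi m s i => (60, (m, false), (s, i))
  | .S m s j => (61, (m, false), (s, j))
  | .S' m s j => (62, (m, false), (s, j))
  | .u1 m s => (63, (m, false), (s, 0))
  | .u2 m s => (64, (m, false), (s, 0))
  | .U m s => (65, (m, false), (s, 0))
  | .hU m s => (66, (m, false), (s, 0))
  | .SA m j => (67, (m, false), (j, 0))
  | .SB m j => (68, (m, false), (j, 0))
  | .an m j => (69, (m, false), (j, 0))
  | .e0 m => (70, (m, false), (0, 0))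
  | .e1 m => (71, (m, false), (0, 0))
  | .rv m b => (72, (m, b), (0, 0))
  | .v m b => (73, (m, b), (0, 0))
  | .wd m b => (74, (m, b), (0, 0))
  | .wn m b => (75, (m, b), (0, 0))
  | .Pd m b s => (76, (m, b), (s, 0))
  | .Pn m b s => (77, (m, b), (s, 0))
  | .q1 m b => (78, (m, b), (0, 0))
  | .q2 m b => (79, (m, b), (0, 0))
  | .q3 m b => (80, (m, b), (0, 0))
  | .q4 m b => (81, (m, b), (0, 0))
  | .q5 m b => (82, (m, b), (0, 0))
  | .q6 m b => (83, (m, b), (0, 0))
  | .Qn m b => (84, (m, b), (0, 0))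
  | .cf d => (85, (d, false), (0, 0))
  | .cg d => (86, (d, false), (0, 0))
  | .ce d => (87, (d, false), (0, 0))
  | .cs d => (88, (d, false), (0, 0))
  | .cm d b => (89, (d, b), (0, 0))
  | .cc d b => (90, (d, b), (0, 0))
  | .cgs d => (91, (d, false), (0, 0))
  | .oz d => (92, (d, false), (0, 0))
  | .x1 d j => (93, (d, false), (j, 0))
  | .x2 d j => (94, (d, false), (j, 0))
  | .x3 d j => (95, (d, false), (j, 0))
  | .ot d j => (96, (d, false), (j, 0))
  | .w1 d b => (97, (d, b), (0, 0))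
  | .w2 d b => (98, (d, b), (0, 0))
  | .w3 d b => (99, (d, b), (0, 0))
  | .ow d b => (100, (d, b), (0, 0))
  | .P1 d b s => (101, (d, b), (s, 0))
  | .P2 d b s => (102, (d, b), (s, 0))
  | .P3 d b s => (103, (d, b), (s, 0))
  | .oP d b s => (104, (d, b), (s, 0))
  | .Q1 d b => (105, (d, b), (0, 0))
  | .Q2 d b => (106, (d, b), (0, 0))
  | .Q3 d b => (107, (d, b), (0, 0))
  | .oQ d b => (108, (d, b), (0, 0))

/-- the names with given arguments -/
def nmL (b c : Bool) (i j : ℕ) : List Nm :=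
  [.z, .t i, .w b, .P b i, .Q b, .one, .zero, .zd, .zc, .td i, .tc i, .zb b, .tn i, .car i,
    .tp i, .bor i, .tm i, .t0n, .hx b i, .hb b i, .pb i, .zz, .tt i, .tk i, .sw i, .f b i,
    .T b i, .Y b i, .LY b i, .hP b i, .mP b i, .nP b i j, .A1 b, .A2 b, .LA b, .B1 b, .B2 b,
    .LB b, .hQ b, .mQ b, .nQ b i, .xo b, .i1 b, .i2 b, .v1 b, .v2 b, .v3 b, .v4 b, .v5 b, .v6 b,
    .v7 b, .V b, .pV b, .hw b, .c1 b, .c2 b, .c3 b, .c4 b, .g b i, .px b i j, .pi b i j,
    .S b i j, .S' b i j, .u1 b i, .u2 b i, .U b i, .hU b i, .SA b i, .SB b i, .an b i, .e0 b,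
    .e1 b, .rv b c, .v b c, .wd b c, .wn b c, .Pd b c i, .Pn b c i, .q1 b c, .q2 b c, .q3 b c,
    .q4 b c, .q5 b c, .q6 b c, .Qn b c, .cf b, .cg b, .ce b, .cs b, .cm b c, .cc b c, .cgs b,
    .oz b, .x1 b i, .x2 b i, .x3 b i, .ot b i, .w1 b c, .w2 b c, .w3 b c, .ow b c, .P1 b c i,
    .P2 b c i, .P3 b c i, .oP b c i, .Q1 b c, .Q2 b c, .Q3 b c, .oQ b c]

/-- the name of a code -/
def nd (q : NC) : Nm := (nmL q.2.1.1 q.2.1.2 q.2.2.1 q.2.2.2).getD q.1 .z

theorem nd_nc (x : Nm) : nd (nc x) = x := by cases x <;> rfl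

theorem nc_inj {x y : Nm} : nc x = nc y ↔ x = y :=
  ⟨fun h => by rw [← nd_nc x, h, nd_nc], fun h => by rw [h]⟩

instance : Enc Nm := ⟨fun x => enc (nc x)⟩

/-- the code of a unary macro -/
def umc : UM → ℕ × ℕ
  | .tr j => (0, j)
  | .mx j => (1, j)
  | .sum => (2, 0)
  | .hh => (3, 0)
  | .lde => (4, 0)
  | .inv => (5, 0)
  | .nand => (6, 0)
  | .k0 => (7, 0)
  | .k1 => (8, 0)
  | .rd0 => (9, 0)
  | .pre => (10, 0)
  | .LL => (11, 0)
  | .ch => (12, 0)
  | .off false => (13, 0)
  | .off true => (14, 0)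

/-- the unary macro of a code -/
def umd (q : ℕ × ℕ) : UM :=
  if q.1 = 0 then .tr q.2 else if q.1 = 1 then .mx q.2 else if q.1 = 2 then .sum
  else if q.1 = 3 then .hh else if q.1 = 4 then .lde else if q.1 = 5 then .inv
  else if q.1 = 6 then .nand else if q.1 = 7 then .k0 else if q.1 = 8 then .k1
  else if q.1 = 9 then .rd0 else if q.1 = 10 then .pre else if q.1 = 11 then .LL
  else if q.1 = 12 then .ch else if q.1 = 13 then .off false else .off true

theorem umd_umc (m : UM) : umd (umc m) = m := by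
  cases m
  case off z => cases z <;> rfl
  all_goals rfl

instance : Enc UM := ⟨fun x => enc (umc x)⟩

variable {A : Set Word} {α β : Type*} [Enc α] [Enc β]

theorem PT.nc {f : α → Nm} (h : PT A f) : PT A (fun a => H874.nc (f a)) := by
  obtain ⟨F, hF, hF'⟩ := h
  exact ⟨F, hF, fun a => hF' a⟩

theorem PT.ofNc {f : α → Nm} (h : PT A (fun a => H874.nc (f a))) : PT A f := by
  obtain ⟨F, hF, hF'⟩ := h
  exact ⟨F, hF, fun a => hF' a⟩

/-- names with two indices -/
theorem PT.nm2 {f : α → Nm} {t : ℕ} {b : Bool × Bool} {i j : α → ℕ} (hi : PT A i)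
    (hj : PT A j) (h : ∀ a, H874.nc (f a) = (t, b, (i a, j a))) : PT A f :=
  PT.ofNc (((PT.const t).pair ((PT.const b).pair (hi.pair hj))).congr fun a => (h a).symm)

/-- names with one index -/
theorem PT.nm1 {f : α → Nm} {t : ℕ} {b : Bool × Bool} {i : α → ℕ} (hi : PT A i)
    (h : ∀ a, H874.nc (f a) = (t, b, (i a, 0))) : PT A f :=
  PT.nm2 hi (PT.const 0) h

theorem PT.umc {f : α → UM} (h : PT A f) : PT A (fun a => H874.umc (f a)) := by
  obtain ⟨F, hF, hF'⟩ := h
  exact ⟨F, hF, fun a => hF' a⟩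

theorem PT.ofUmc {f : α → UM} (h : PT A (fun a => H874.umc (f a))) : PT A f := by
  obtain ⟨F, hF, hF'⟩ := h
  exact ⟨F, hF, fun a => hF' a⟩

/-- macros with an index -/
theorem PT.um1 {f : α → UM} {t : ℕ} {i : α → ℕ} (hi : PT A i)
    (h : ∀ a, H874.umc (f a) = (t, i a)) : PT A f :=
  PT.ofUmc (((PT.const t).pair hi).congr fun a => (h a).symm)

end Vale.Agent.P330.H874
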