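import Vale.Agent.P330.H874.RoutePT

/-!
# The table of the positions of the packets, in polynomial time

`posTab k K` is the list, for `s ≤ stN k`, of the lists of the positions `posS k K y s`,
`y < 2 ^ k`.
-/

namespace Vale.Agent.P330.H874

open Vale.Agent.Lib.PolyTime

/-- the position after `s` stages from a table of switch words -/
def posT (k : ℕ) (T : List (List Bool)) (y : ℕ) : ℕ → ℕ
  | 0 => y
  | s + 1 => if (T.getD s []).getD (posT k T y s) false = true then
      posT k T y s ^^^ 2 ^ dirS k s else posT k T y s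

theorem posT_swTab {k : ℕ} (K : List ℕ) {y : ℕ} (hy : y < 2 ^ k) :
    ∀ s ≤ stN k, posT k (swTab k K) y s = posS k (fn 0 K) y s := by
  intro s
  induction s with
  | zero => intro _; rfl
  | succ s ih =>
    intro hs
    have h := ih (by omega)
    have hl := posS_lt (K := fn 0 K) hy s (by omega)
    rw [posT, h, posS_succ, getD_swTab K (by omega) hl]

theorem posT_lt (k : ℕ) (T : List (List Bool)) (y : ℕ) :
    ∀ s, posT k T y s < 2 ^ (Nat.size y + k + 1) := by
  intro s
  induction s with
  | zero =>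
    refine (Nat.lt_size_self y).trans_le ?_
    exact Nat.pow_le_pow_right (by norm_num) (by omega)
  | succ s ih =>
    rw [posT]
    split_ifs
    · refine Nat.xor_lt_two_pow ih ?_
      refine Nat.pow_lt_pow_right (by norm_num) ?_
      have := dirS_le k s
      omega
    · exact ih

theorem posT_rec (k : ℕ) (T : List (List Bool)) (y s : ℕ) :
    Nat.rec (motive := fun _ => ℕ) y (fun j p => if (T.getD j []).getD p false = true then
      p ^^^ 2 ^ dirS k j else p) s = posT k T y s := by
  induction s with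
  | zero => rfl
  | succ s ih =>
    rw [posT, ← ih]

/-- the positions of all packets after all stages -/
def posTab (k : ℕ) (K : List ℕ) : List (List ℕ) :=
  tab (stN k + 1) fun s => tab (2 ^ k) fun y => posS k (fn 0 K) y s

theorem getD_posTab {k : ℕ} (K : List ℕ) {s y : ℕ} (hs : s ≤ stN k) (hy : y < 2 ^ k) :
    ((posTab k K).getD s []).getD y 0 = posS k (fn 0 K) y s := by
  have : (posTab k K).getD s [] = tab (2 ^ k) fun y => posS k (fn 0 K) y s :=
    getD_tab _ _ (Nat.lt_succ_of_le hs)
  rw [this]
  exact getD_tab _ _ hy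

variable {A : Set Word} {α : Type*} [Enc α]

theorem PT.posT {k : α → ℕ} {T : α → List (List Bool)} {y s : α → ℕ} (hk : PT A k) (hb : PBd k)
    (hT : PT A T) (hy : PT A y) (hs : PT A s) (hsb : PBd s) :
    PT A (fun a => H874.posT (k a) (T a) (y a) (s a)) := by
  have hstep : PT A (fun p : α × ℕ × ℕ =>
      if ((T p.1).getD p.2.1 []).getD p.2.2 false = true then
        p.2.2 ^^^ 2 ^ H874.dirS (k p.1) p.2.1 else p.2.2) := by
    have hk1 : PT A (fun p : α × ℕ × ℕ => k p.1) := hk.comp PT.fst'
    have hk2 : PBd (fun p : α × ℕ × ℕ => k p.1) := hb.comp (PT.fst' (A := A))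
    have hj : PT A (fun p : α × ℕ × ℕ => p.2.1) := PT.snd'.fst
    have hp : PT A (fun p : α × ℕ × ℕ => p.2.2) := PT.snd'.snd
    refine (PT.cond (PT.getD (PT.getD (hT.comp PT.fst') hj (PT.const [])) hp (PT.const false))
      (PT.flipBit hp (PT.dirS hk1 hk2 hj) (PBd_dirS hk2)) hp).congr fun p => ?_
    cases ((T p.1).getD p.2.1 []).getD p.2.2 false <;> rfl
  have hB : PBd (fun a => esize (y a) + k a + 1) := (hy.pbd.add hb).add (PBd.const 1)
  refine (PT.natRec (init := y) (step := fun a j p =>
      if ((T a).getD j []).getD p false = true then p ^^^ 2 ^ H874.dirS (k a) j else p)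
    hs hsb hy hstep hB fun a j _ => ?_).congr fun a => ?_
  · rw [posT_rec, esize_nat (y a)]
    exact esize_nat_le (posT_lt _ _ _ _)
  · rw [posT_rec]

/-- **The positions of the packets are computable in polynomial time.** -/
theorem PT.posTab {k : α → ℕ} {K : α → List ℕ} (hk : PT A k) (hb : PBd fun a => 2 ^ k a)
    (hK : PT A K) : PT A (fun a => H874.posTab (k a) (K a)) := by
  have hkb := PBd_of_two_pow hb
  have hp : PT A (fun a => 2 ^ k a) := PT.pow (PT.const 2) hk hkb
  have hn : PT A (fun a => H874.stN (k a) + 1) := PT.add (PT.stN hk) (PT.const 1)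
  have hnb : PBd (fun a => H874.stN (k a) + 1) := (PBd_stN hkb).add (PBd.const 1)
  have hT := PT.swTab hk hb hK
  have h1 : PT A (fun a => H874.tab (H874.stN (k a) + 1) fun s => H874.tab (2 ^ k a) fun y =>
      H874.posT (k a) (H874.swTab (k a) (K a)) y (min s (H874.stN (k a)))) := by
    refine PT.tab hn hnb ?_
    refine PT.tab (hp.comp PT.fst') (hb.comp (PT.fst' (A := A))) ?_
    refine PT.posT (hk.comp PT.fst'.fst) (hkb.comp (PT.fst' (A := A)).fst)
      (hT.comp PT.fst'.fst) PT.snd' (PT.min PT.fst'.snd ((PT.stN hk).comp PT.fst'.fst)) ?_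
    exact (((PBd_stN hkb).comp (PT.fst' (A := A)).fst)).mono fun _ => min_le_right _ _
  refine h1.congr fun a => ?_
  refine tab_congr fun s hs => tab_congr fun y hy => ?_
  rw [min_eq_left (by omega), posT_swTab _ hy s (by omega)]

/-- one position -/
theorem PT.posS {k : α → ℕ} {K : α → List ℕ} {y s : α → ℕ} (hk : PT A k)
    (hb : PBd fun a => 2 ^ k a) (hK : PT A K) (hy : PT A y) (hs : PT A s)
    (hs2 : ∀ a, s a ≤ H874.stN (k a)) (hy2 : ∀ a, y a < 2 ^ k a) :
    PT A (fun a => H874.posS (k a) (H874.fn 0 (K a)) (y a) (s a)) :=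
  (PT.getD (PT.getD (PT.posTab hk hb hK) hs (PT.const [])) hy (PT.const 0)).congr fun a =>
    getD_posTab _ (hs2 a) (hy2 a)

end Vale.Agent.P330.H874
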