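import Vale.Agent.P330.H16.Asm
import Vale.Agent.Lib.PolyTime.Lists3

/-!
# Relative macros

A relative macro `RMac F` is a list of instructions with relative registers and a result register;
`RMac.toMac` is the macro.  The combinators of `H16.Asm` are mirrored by combinators of relative
macros, which are first order data and so can be computed in polynomial time.
-/

namespace Vale.Agent.P330.H874

open Vale.Agent.Lib.PolyTime

open Vale.Agent.P330.H16 (Ins Mac)

/-- Relative registers: `none` is the input, `some (true, i)` the result of the instruction `i` of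
the macro, `some (false, c)` the register `c`. -/
abbrev Rg := Option (Bool × ℕ)

/-- the register -/
def rat (n r : ℕ) (g : Rg) : ℕ :=
  match g with
  | none => r
  | some (true, i) => n + i
  | some (false, c) => c

/-- a register of a macro which starts after `o` instructions and has the input `g₀` -/
def rsh (o : ℕ) (g₀ g : Rg) : Rg :=
  match g with
  | none => g₀
  | some (true, i) => some (true, o + i)
  | some (false, c) => some (false, c)

theorem rat_rsh (n r o : ℕ) (g₀ g : Rg) : rat n r (rsh o g₀ g) = rat (n + o) (rat n r g₀) g := by
  rcases g with _ | ⟨_ | _, i⟩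
  · rfl
  · rfl
  · simp only [rsh, rat]; omega

theorem rsh_rsh (o o' : ℕ) (g₀ g₁ g : Rg) :
    rsh o g₀ (rsh o' g₁ g) = rsh (o + o') (rsh o g₀ g₁) g := by
  rcases g with _ | ⟨_ | _, i⟩
  · rfl
  · rfl
  · simp only [rsh]
    rw [Nat.add_assoc]

theorem rsh_zero (g : Rg) : rsh 0 none g = g := by
  rcases g with _ | ⟨_ | _, i⟩
  · rfl
  · rfl
  · simp only [rsh]
    rw [Nat.zero_add]

/-- Relative instructions: kind, parameter, two registers, linear combination. -/
abbrev RIns (F : Type) := ℕ × (ℕ × Rg × Rg) × List (F × Rg)

/-- the instruction -/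
def RIns.at {F : Type} (n r : ℕ) (i : RIns F) : Ins F :=
  if i.1 = 0 then .lin (i.2.2.map fun q => (q.1, rat n r q.2))
  else if i.1 = 1 then .tr i.2.1.1 (rat n r i.2.1.2.1)
  else if i.1 = 2 then .mx i.2.1.1 (rat n r i.2.1.2.1)
  else if i.1 = 3 then .pub i.2.1.1
  else if i.1 = 4 then .sum (rat n r i.2.1.2.1)
  else .smul (rat n r i.2.1.2.1) (rat n r i.2.1.2.2)

/-- shift -/
def RIns.sh {F : Type} (o : ℕ) (g₀ : Rg) (i : RIns F) : RIns F :=
  (i.1, (i.2.1.1, rsh o g₀ i.2.1.2.1, rsh o g₀ i.2.1.2.2),
    i.2.2.map fun q => (q.1, rsh o g₀ q.2))

theorem RIns.at_sh {F : Type} (n r o : ℕ) (g₀ : Rg) (i : RIns F) :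
    (RIns.sh o g₀ i).at n r = i.at (n + o) (rat n r g₀) := by
  unfold RIns.at RIns.sh
  simp only [rat_rsh, List.map_map, Function.comp_def]

theorem RIns.sh_sh {F : Type} (o o' : ℕ) (g₀ g₁ : Rg) (i : RIns F) :
    RIns.sh o g₀ (RIns.sh o' g₁ i) = RIns.sh (o + o') (rsh o g₀ g₁) i := by
  unfold RIns.sh
  simp only [rsh_rsh, List.map_map, Function.comp_def]

theorem RIns.sh_zero {F : Type} (i : RIns F) : RIns.sh 0 none i = i := by
  unfold RIns.sh
  simp only [rsh_zero, List.map_id']

/-- Relative macros: code and result. -/
abbrev RMac (F : Type) := List (RIns F) × Rg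

/-- the macro -/
def RMac.toMac {F : Type} (R : RMac F) : Mac F := fun n r =>
  (R.1.map (RIns.at n r), rat n r R.2)

/-! ### Combinators -/

section comb

variable {F : Type}

/-- composition -/
def compR (R S : RMac F) : RMac F :=
  (R.1 ++ S.1.map (RIns.sh R.1.length R.2), rsh R.1.length R.2 S.2)

theorem comp_toMac (R S : RMac F) :
    H16.comp R.toMac S.toMac = (compR R S).toMac := by
  funext n r
  simp only [H16.comp, RMac.toMac, compR, List.map_append, List.map_map, List.length_map, rat_rsh]
  congr 2
  refine List.map_congr_left fun i _ => ?_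
  exact (RIns.at_sh n r _ _ i).symm

theorem idM_toMac : (H16.idM : Mac F) = RMac.toMac ([], none) := rfl

/-- a single instruction -/
def oneR (i : RIns F) : RMac F := ([i], some (true, 0))

theorem trM_toMac (j : ℕ) : (H16.trM j : Mac F) = (oneR (1, (j, none, none), [])).toMac := rfl

theorem mxM_toMac (j : ℕ) : (H16.mxM j : Mac F) = (oneR (2, (j, none, none), [])).toMac := rfl

theorem sumM_toMac : (H16.sumM : Mac F) = (oneR (4, (0, none, none), [])).toMac := rfl

theorem smM_toMac (c : ℕ) :
    (H16.smM c : Mac F) = (oneR (5, (0, some (false, c), none), [])).toMac := rfl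

/-! ### Sequences -/

/-- the macros of a list one after the other -/
def seqM : List (Mac F) → Mac F
  | [] => H16.idM
  | m :: l => H16.comp m (seqM l)

theorem iterM_eq (A : ℕ → Mac F) (l : List ℕ) : H16.iterM A l = seqM (l.map A) := by
  induction l with
  | nil => rfl
  | cons j l ih => rw [H16.iterM, ih, List.map_cons, seqM]

theorem comp_assoc (a b c : Mac F) : H16.comp (H16.comp a b) c = H16.comp a (H16.comp b c) := by
  funext n r
  simp only [H16.comp, List.append_assoc, List.length_append, Nat.add_assoc]

theorem comp_idM (a : Mac F) : H16.comp a H16.idM = a := by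
  funext n r
  simp only [H16.comp, H16.idM, List.append_nil]

theorem idM_comp (a : Mac F) : H16.comp H16.idM a = a := by
  funext n r
  simp only [H16.comp, H16.idM, List.nil_append, List.length_nil, Nat.add_zero]

/-- the offset and the result register of a sequence -/
def stR (L : List (RMac F)) : ℕ × Rg :=
  L.foldl (fun s m => (s.1 + m.1.length, rsh s.1 s.2 m.2)) (0, none)

theorem stR_append (L : List (RMac F)) (m : RMac F) :
    stR (L ++ [m]) = ((stR L).1 + m.1.length, rsh (stR L).1 (stR L).2 m.2) := by
  unfold stR
  rw [List.foldl_append]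
  rfl

/-- sequences of relative macros -/
def seqR (L : List (RMac F)) : RMac F :=
  ((List.range L.length).flatMap fun j =>
    (L.getD j ([], none)).1.map (RIns.sh (stR (L.take j)).1 (stR (L.take j)).2), (stR L).2)

theorem seqR_append (L : List (RMac F)) (m : RMac F) :
    seqR (L ++ [m]) = ((seqR L).1 ++ m.1.map (RIns.sh (stR L).1 (stR L).2),
      rsh (stR L).1 (stR L).2 m.2) := by
  unfold seqR
  rw [stR_append, List.length_append, List.length_singleton, List.range_succ,
    List.flatMap_append]
  simp only [List.flatMap_cons, List.flatMap_nil, List.append_nil]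
  refine Prod.ext ?_ rfl
  simp only
  congr 1
  · rw [List.flatMap_def, List.flatMap_def]
    congr 1
    refine List.map_congr_left fun j hj => ?_
    rw [List.mem_range] at hj
    rw [List.take_append_of_le_length hj.le, List.getD_append _ _ _ _ hj]
  · rw [List.take_append_of_le_length le_rfl, List.take_of_length_le le_rfl,
      List.getD_append_right _ _ _ _ le_rfl]
    simp

theorem length_seqR (L : List (RMac F)) : (seqR L).1.length = (stR L).1 := by
  induction L using List.reverseRecOn with
  | nil => rfl
  | append_singleton L m ih =>
    rw [seqR_append, stR_append, List.length_append, List.length_map, ih]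

theorem seqR_append' (L : List (RMac F)) (m : RMac F) :
    seqR (L ++ [m]) = compR (seqR L) m := by
  rw [seqR_append, compR, length_seqR]
  rfl

theorem seqM_append (L : List (Mac F)) (m : Mac F) : seqM (L ++ [m]) = H16.comp (seqM L) m := by
  induction L with
  | nil => rw [List.nil_append, seqM, seqM, seqM, comp_idM, idM_comp]
  | cons a L ih => rw [List.cons_append, seqM, ih, seqM, comp_assoc]

theorem seqM_toMac (L : List (RMac F)) : seqM (L.map RMac.toMac) = (seqR L).toMac := by
  induction L using List.reverseRecOn with
  | nil => rfl
  | append_singleton L m ih =>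
    rw [List.map_append, List.map_singleton, seqM_append, ih, comp_toMac, seqR_append']

/-! ### Linear combinations -/

/-- the offset of the macro number `j` -/
def offL (L : List (F × RMac F)) (j : ℕ) : ℕ := ((L.take j).map fun q => q.2.1.length).sum

/-- the codes and the results of a list of macros -/
def lcAuxR (L : List (F × RMac F)) : List (RIns F) × List (F × Rg) :=
  ((List.range L.length).flatMap fun j =>
      ((L[j]?.map fun q => q.2.1).getD []).map (RIns.sh (offL L j) none),
    (List.range L.length).filterMap fun j =>
      L[j]?.map fun q => (q.1, rsh (offL L j) none q.2.2))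

theorem offL_cons_succ (q : F × RMac F) (L : List (F × RMac F)) (j : ℕ) :
    offL (q :: L) (j + 1) = q.2.1.length + offL L j := by
  unfold offL
  rw [List.take_succ_cons, List.map_cons, List.sum_cons]

theorem lcAuxR_nil : lcAuxR ([] : List (F × RMac F)) = ([], []) := rfl

theorem lcAuxR_cons (q : F × RMac F) (L : List (F × RMac F)) :
    lcAuxR (q :: L) = (q.2.1 ++ (lcAuxR L).1.map (RIns.sh q.2.1.length none),
      (q.1, q.2.2) :: (lcAuxR L).2.map fun p => (p.1, rsh q.2.1.length none p.2)) := by
  unfold lcAuxR
  rw [List.length_cons, List.range_succ_eq_map, List.flatMap_cons, List.filterMap_cons]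
  refine Prod.ext ?_ ?_
  · simp only [List.getElem?_cons_zero, Option.map_some, Option.getD_some]
    congr 1
    · have : offL (q :: L) 0 = 0 := rfl
      rw [this]
      conv_rhs => rw [← List.map_id' q.2.1]
      exact List.map_congr_left fun i _ => RIns.sh_zero i
    · rw [List.flatMap_map, List.map_flatMap]
      rw [List.flatMap_def, List.flatMap_def]
      congr 1
      refine List.map_congr_left fun j _ => ?_
      simp only [List.getElem?_cons_succ, offL_cons_succ, List.map_map]
      refine List.map_congr_left fun i _ => ?_
      simp only [Function.comp]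
      rw [RIns.sh_sh]
      rfl
  · simp only [List.getElem?_cons_zero, Option.map_some]
    congr 1
    · have : offL (q :: L) 0 = 0 := rfl
      rw [this, rsh_zero]
    · rw [List.filterMap_map, List.map_filterMap]
      refine List.filterMap_congr fun j _ => ?_
      simp only [Function.comp, List.getElem?_cons_succ, offL_cons_succ, Option.map_map]
      congr 1
      funext p
      simp only [Function.comp]
      rw [rsh_rsh]
      rfl

/-- linear combination of relative macros -/
def lcR (L : List (F × RMac F)) : RMac F :=
  ((lcAuxR L).1 ++ [(0, (0, none, none), (lcAuxR L).2)], some (true, (lcAuxR L).1.length))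

theorem lcAux_toMac (L : List (F × RMac F)) (n r : ℕ) :
    H16.lcAux (L.map fun q => (q.1, q.2.toMac)) n r =
      ((lcAuxR L).1.map (RIns.at n r), (lcAuxR L).2.map fun p => (p.1, rat n r p.2)) := by
  induction L generalizing n with
  | nil => rfl
  | cons q L ih =>
    rw [List.map_cons, H16.lcAux, lcAuxR_cons]
    simp only [ih, List.map_append, List.map_cons, List.map_map]
    refine Prod.ext ?_ ?_
    · simp only [RMac.toMac, List.length_map]
      congr 1
      refine List.map_congr_left fun i _ => ?_
      exact (RIns.at_sh n r _ none i).symm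
    · simp only [RMac.toMac, List.length_map]
      congr 1
      refine List.map_congr_left fun p _ => ?_
      simp only [Function.comp, rat_rsh]
      rfl

theorem lc_toMac (L : List (F × RMac F)) :
    H16.lc (L.map fun q => (q.1, q.2.toMac)) = (lcR L).toMac := by
  funext n r
  simp only [H16.lc, lcAux_toMac, RMac.toMac, lcR, List.map_append, List.map_cons, List.map_nil,
    List.length_map]
  rfl

end comb

/-! ### Change of the coefficients -/

section map

variable {F G : Type}

/-- change of the coefficients of an instruction -/
def insMap (f : F → G) : Ins F → Ins G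
  | .lin l => .lin (l.map fun q => (f q.1, q.2))
  | .tr j i => .tr j i
  | .mx j i => .mx j i
  | .pub p => .pub p
  | .sum i => .sum i
  | .smul c i => .smul c i

/-- change of the coefficients of a relative instruction -/
def RIns.mapC (f : F → G) (i : RIns F) : RIns G := (i.1, i.2.1, i.2.2.map fun q => (f q.1, q.2))

/-- change of the coefficients of a relative macro -/
def RMac.mapC (f : F → G) (R : RMac F) : RMac G := (R.1.map (RIns.mapC f), R.2)

theorem RIns.at_mapC (f : F → G) (n r : ℕ) (i : RIns F) :
    (i.mapC f).at n r = insMap f (i.at n r) := by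
  unfold RIns.at RIns.mapC
  simp only
  split_ifs <;> simp [insMap, List.map_map, Function.comp_def]

theorem RIns.sh_mapC (f : F → G) (o : ℕ) (g₀ : Rg) (i : RIns F) :
    (RIns.sh o g₀ i).mapC f = RIns.sh o g₀ (i.mapC f) := by
  unfold RIns.sh RIns.mapC
  simp [List.map_map, Function.comp_def]

theorem RMac.toMac_mapC (f : F → G) (R : RMac F) (n r : ℕ) :
    (R.mapC f).toMac n r = ((R.toMac n r).1.map (insMap f), (R.toMac n r).2) := by
  simp only [RMac.toMac, RMac.mapC, List.map_map]
  refine Prod.ext ?_ rfl
  exact List.map_congr_left fun i _ => RIns.at_mapC f n r i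

theorem compR_mapC (f : F → G) (R S : RMac F) :
    (compR R S).mapC f = compR (R.mapC f) (S.mapC f) := by
  simp only [compR, RMac.mapC, List.map_append, List.map_map, List.length_map]
  refine Prod.ext ?_ rfl
  simp only
  congr 1
  exact List.map_congr_left fun i _ => RIns.sh_mapC f _ _ i

theorem stR_mapC (f : F → G) (L : List (RMac F)) :
    stR (L.map (RMac.mapC f)) = stR L := by
  induction L using List.reverseRecOn with
  | nil => rfl
  | append_singleton L m ih =>
    rw [List.map_append, List.map_singleton, stR_append, stR_append, ih]
    simp [RMac.mapC]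

theorem seqR_mapC (f : F → G) (L : List (RMac F)) :
    (seqR L).mapC f = seqR (L.map (RMac.mapC f)) := by
  induction L using List.reverseRecOn with
  | nil => rfl
  | append_singleton L m ih =>
    rw [seqR_append', List.map_append, List.map_singleton, seqR_append', compR_mapC, ih]

/-- change of the coefficients of a weighted list of macros -/
def mapCL (f : F → G) (L : List (F × RMac F)) : List (G × RMac G) :=
  L.map fun q => (f q.1, q.2.mapC f)

theorem lcAuxR_mapC (f : F → G) (L : List (F × RMac F)) :
    lcAuxR (mapCL f L) = ((lcAuxR L).1.map (RIns.mapC f), (lcAuxR L).2.map fun p => (f p.1, p.2)) := by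
  induction L with
  | nil => rfl
  | cons q L ih =>
    unfold mapCL at ih ⊢
    rw [List.map_cons, lcAuxR_cons, lcAuxR_cons, ih]
    refine Prod.ext ?_ ?_
    · simp only [RMac.mapC, List.length_map, List.map_append, List.map_map]
      congr 1
      refine List.map_congr_left fun i _ => ?_
      exact (RIns.sh_mapC f _ _ i).symm
    · simp only [RMac.mapC, List.length_map, List.map_cons, List.map_map]
      rfl

theorem lcR_mapC (f : F → G) (L : List (F × RMac F)) : (lcR L).mapC f = lcR (mapCL f L) := by
  unfold lcR
  rw [lcAuxR_mapC]
  simp only [RMac.mapC, List.map_append, List.map_cons, List.map_nil, List.length_map]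
  rfl

end map

end Vale.Agent.P330.H874
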