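import Vale.Agent.P330.H874.RMac

/-!
# Relative macros with symbolic constant registers

`R.ren ρ` replaces the constant register `c` by `ρ c`.  All combinators commute with it.
-/

namespace Vale.Agent.P330.H874

open Vale.Agent.P330.H16 (Ins Mac)

/-- change of the constant registers -/
def rren (ρ : ℕ → ℕ) (g : Rg) : Rg :=
  match g with
  | none => none
  | some (true, i) => some (true, i)
  | some (false, c) => some (false, ρ c)

theorem rren_rsh (ρ : ℕ → ℕ) (o : ℕ) (g₀ g : Rg) :
    rren ρ (rsh o g₀ g) = rsh o (rren ρ g₀) (rren ρ g) := by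
  rcases g with _ | ⟨_ | _, i⟩ <;> rfl

/-- change of the constant registers of an instruction -/
def RIns.ren {F : Type} (ρ : ℕ → ℕ) (i : RIns F) : RIns F :=
  (i.1, (i.2.1.1, rren ρ i.2.1.2.1, rren ρ i.2.1.2.2), i.2.2.map fun q => (q.1, rren ρ q.2))

/-- change of the constant registers of a macro -/
def RMac.ren {F : Type} (ρ : ℕ → ℕ) (R : RMac F) : RMac F := (R.1.map (RIns.ren ρ), rren ρ R.2)

section

variable {F : Type} (ρ : ℕ → ℕ)

theorem RIns.ren_sh (o : ℕ) (g₀ : Rg) (i : RIns F) :
    (RIns.sh o g₀ i).ren ρ = RIns.sh o (rren ρ g₀) (i.ren ρ) := by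
  unfold RIns.sh RIns.ren
  simp only [rren_rsh, List.map_map, Function.comp_def]

theorem compR_ren (R S : RMac F) : (compR R S).ren ρ = compR (R.ren ρ) (S.ren ρ) := by
  simp only [compR, RMac.ren, List.map_append, List.map_map, List.length_map, rren_rsh]
  refine Prod.ext ?_ rfl
  simp only
  congr 1
  exact List.map_congr_left fun i _ => RIns.ren_sh ρ _ _ i

theorem seqR_ren (L : List (RMac F)) : (seqR L).ren ρ = seqR (L.map (RMac.ren ρ)) := by
  induction L using List.reverseRecOn with
  | nil => rfl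
  | append_singleton L m ih =>
    rw [seqR_append', List.map_append, List.map_singleton, seqR_append', compR_ren, ih]

/-- change of the constant registers of a weighted list of macros -/
def renL (L : List (F × RMac F)) : List (F × RMac F) := L.map fun q => (q.1, q.2.ren ρ)

theorem lcAuxR_ren (L : List (F × RMac F)) :
    lcAuxR (renL ρ L) = ((lcAuxR L).1.map (RIns.ren ρ),
      (lcAuxR L).2.map fun p => (p.1, rren ρ p.2)) := by
  induction L with
  | nil => rfl
  | cons q L ih =>
    unfold renL at ih ⊢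
    rw [List.map_cons, lcAuxR_cons, lcAuxR_cons, ih]
    refine Prod.ext ?_ ?_
    · simp only [RMac.ren, List.length_map, List.map_append, List.map_map]
      congr 1
      refine List.map_congr_left fun i _ => ?_
      exact (RIns.ren_sh ρ _ none i).symm
    · simp only [RMac.ren, List.length_map, List.map_cons, List.map_map]
      congr 1
      refine List.map_congr_left fun p _ => ?_
      simp only [Function.comp]
      rw [rren_rsh]
      rfl

theorem lcR_ren (L : List (F × RMac F)) : (lcR L).ren ρ = lcR (renL ρ L) := by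
  unfold lcR
  rw [lcAuxR_ren]
  simp only [RMac.ren, List.map_append, List.map_cons, List.map_nil, List.length_map]
  rfl

theorem RIns.ren_mapC {G : Type} (f : F → G) (i : RIns F) :
    (i.ren ρ).mapC f = (i.mapC f).ren ρ := by
  unfold RIns.ren RIns.mapC
  simp only [List.map_map, Function.comp_def]

theorem RMac.ren_mapC {G : Type} (f : F → G) (R : RMac F) :
    (R.ren ρ).mapC f = (R.mapC f).ren ρ := by
  unfold RMac.ren RMac.mapC
  simp only [List.map_map, Function.comp_def, RIns.ren_mapC]

end

/-! ### Size bounds -/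

/-- The register has small indices. -/
def GB (B C : ℕ) (g : Rg) : Prop :=
  match g with
  | none => True
  | some (true, i) => i ≤ 2 ^ C + B
  | some (false, c) => c ≤ 2 ^ C

/-- The instruction is small. -/
structure IB (B C : ℕ) (i : RIns ℕ) : Prop where
  kd : i.1 ≤ 2 ^ C
  par : i.2.1.1 ≤ 2 ^ C
  r1 : GB B C i.2.1.2.1
  r2 : GB B C i.2.1.2.2
  len : i.2.2.length ≤ B
  ls : ∀ q ∈ i.2.2, q.1 ≤ 2 ^ C ∧ GB B C q.2

/-- The macro is small. -/
structure MB (B C : ℕ) (R : RMac ℕ) : Prop where
  len : R.1.length ≤ B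
  ins : ∀ i ∈ R.1, IB B C i
  res : GB B C R.2

theorem GB.mono {B B' C : ℕ} (h : B ≤ B') {g : Rg} (hg : GB B C g) : GB B' C g := by
  rcases g with _ | ⟨_ | _, i⟩
  · trivial
  · exact hg
  · exact le_trans hg (by omega)

theorem GB.rsh {B B' C o : ℕ} {g₀ g : Rg} (hg : GB B' C g) (ho : o ≤ B) (h₀ : GB B C g₀) :
    GB (B + B') C (rsh o g₀ g) := by
  rcases g with _ | ⟨_ | _, i⟩
  · exact h₀.mono (by omega)
  · exact hg
  · change o + i ≤ _
    have : i ≤ 2 ^ C + B' := hg
    omega

theorem IB.mono {B B' C : ℕ} (h : B ≤ B') {i : RIns ℕ} (hi : IB B C i) : IB B' C i :=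
  ⟨hi.kd, hi.par, hi.r1.mono h, hi.r2.mono h, hi.len.trans h,
    fun q hq => ⟨(hi.ls q hq).1, (hi.ls q hq).2.mono h⟩⟩

theorem MB.mono {B B' C : ℕ} (h : B ≤ B') {R : RMac ℕ} (hR : MB B C R) : MB B' C R :=
  ⟨hR.len.trans h, fun i hi => (hR.ins i hi).mono h, hR.res.mono h⟩

theorem IB.sh {B B' C o : ℕ} {g₀ : Rg} {i : RIns ℕ} (ho : o ≤ B) (h₀ : GB B C g₀)
    (hi : IB B' C i) : IB (B + B') C (RIns.sh o g₀ i) where
  kd := hi.kd
  par := hi.par
  r1 := hi.r1.rsh ho h₀
  r2 := hi.r2.rsh ho h₀
  len := by
    unfold RIns.sh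
    rw [List.length_map]
    exact hi.len.trans (by omega)
  ls := by
    unfold RIns.sh
    intro q hq
    rw [List.mem_map] at hq
    obtain ⟨p, hp, rfl⟩ := hq
    exact ⟨(hi.ls p hp).1, (hi.ls p hp).2.rsh ho h₀⟩

theorem MB.compR {B B' C : ℕ} {R S : RMac ℕ} (hR : MB B C R) (hS : MB B' C S) :
    MB (B + B') C (compR R S) where
  len := by
    unfold H874.compR
    rw [List.length_append, List.length_map]
    exact Nat.add_le_add hR.len hS.len
  ins := by
    unfold H874.compR
    intro i hi
    rw [List.mem_append] at hi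
    rcases hi with hi | hi
    · exact (hR.ins i hi).mono (by omega)
    · rw [List.mem_map] at hi
      obtain ⟨j, hj, rfl⟩ := hi
      exact (hS.ins j hj).sh hR.len hR.res
  res := hS.res.rsh hR.len hR.res

theorem lcAuxR_pair (c c' : ℕ) (R S : RMac ℕ) :
    lcAuxR [(c, R), (c', S)] = (R.1 ++ S.1.map (RIns.sh R.1.length none),
      [(c, R.2), (c', rsh R.1.length none S.2)]) := by
  rw [lcAuxR_cons, lcAuxR_cons, lcAuxR_nil]
  simp

theorem MB.lc2 {B B' C c c' : ℕ} {R S : RMac ℕ} (hR : MB B C R) (hS : MB B' C S)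
    (hc : c ≤ 2 ^ C) (hc' : c' ≤ 2 ^ C) : MB (B + B' + 2) C (lcR [(c, R), (c', S)]) := by
  unfold lcR
  rw [lcAuxR_pair]
  refine ⟨?_, ?_, ?_⟩
  · simp only [List.length_append, List.length_map, List.length_cons, List.length_nil]
    have := hR.len
    have := hS.len
    omega
  · intro i hi
    simp only [List.mem_append, List.mem_singleton] at hi
    rcases hi with (hi | hi) | rfl
    · exact (hR.ins i hi).mono (by omega)
    · rw [List.mem_map] at hi
      obtain ⟨j, hj, rfl⟩ := hi
      exact ((hS.ins j hj).sh (g₀ := none) hR.len trivial).mono (by omega)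
    · refine ⟨Nat.zero_le _, Nat.zero_le _, trivial, trivial, ?_, ?_⟩
      · change 2 ≤ _
        omega
      · intro q hq
        simp only [List.mem_cons, List.not_mem_nil, or_false] at hq
        rcases hq with rfl | rfl
        · exact ⟨hc, hR.res.mono (by omega)⟩
        · exact ⟨hc', (GB.rsh (g₀ := none) hS.res hR.len trivial).mono (by omega)⟩
  · change (R.1 ++ S.1.map (RIns.sh R.1.length none)).length ≤ _
    rw [List.length_append, List.length_map]
    have := hR.len
    have := hS.len
    omega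

end Vale.Agent.P330.H874
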