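import Vale.Agent.P330.H874.Bitonic
import Vale.Agent.P330.S.NumPT

/-!
# The routing network stage by stage, and its switch words in polynomial time

For destination keys `K` (a permutation of the numbers less than `2 ^ k`):
* `dirS k s`: the direction of the stage `s < stN k`;
* `swS k K s`: the switch word of the stage `s`;
* `stW k K w s`: the word `w` after the first `s` stages;
* `stW_final`: `stW k K w (stN k) (K y) = w y`;
* `swTab k K`: the table of the switch words, computable in polynomial time.
-/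

namespace Vale.Agent.P330.H874

open Vale.Agent.Lib.PolyTime

/-- the number of the stages -/
def stN (k : ℕ) : ℕ := k * (k + 1) / 2

/-- the comparator of the stage `s` -/
def cmp (k s : ℕ) : ℕ × ℕ := (stages k).getD s (1, 0)

/-- the direction of the stage `s` -/
def dirS (k s : ℕ) : ℕ := (cmp k s).2

/-- the keys after the first `s` stages -/
def keyS (k : ℕ) (K : ℕ → ℕ) : ℕ → ℕ → ℕ
  | 0 => K
  | s + 1 => swapW (dirS k s) (csw (cmp k s).1 (dirS k s) (keyS k K s)) (keyS k K s)

/-- the switch word of the stage `s` -/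
def swS (k : ℕ) (K : ℕ → ℕ) (s : ℕ) : ℕ → Bool := csw (cmp k s).1 (dirS k s) (keyS k K s)

/-- the word `w` after the first `s` stages -/
def stW {α : Type*} (k : ℕ) (K : ℕ → ℕ) (w : ℕ → α) : ℕ → ℕ → α
  | 0 => w
  | s + 1 => fun x => if swS k K s x then stW k K w s (x ^^^ 2 ^ dirS k s) else stW k K w s x

theorem stW_succ {α : Type*} (k : ℕ) (K : ℕ → ℕ) (w : ℕ → α) (s x : ℕ) :
    stW k K w (s + 1) x =
      if swS k K s x then stW k K w s (x ^^^ 2 ^ dirS k s) else stW k K w s x := rfl

theorem cmp_mem {k s : ℕ} (hs : s < stN k) : cmp k s ∈ stages k := by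
  unfold cmp
  rw [List.getD_eq_getElem _ _ (by rw [length_stages]; exact hs)]
  exact List.getElem_mem _

theorem dirS_lt {k s : ℕ} (hs : s < stN k) : dirS k s < k := (mem_stages (cmp_mem hs)).2

/-- The switch words are symmetric. -/
theorem swS_symm {k s : ℕ} (hs : s < stN k) (K : ℕ → ℕ) (x : ℕ) :
    swS k K s (x ^^^ 2 ^ dirS k s) = swS k K s x :=
  csw_symm (mem_stages (cmp_mem hs)).1.ne _ _

theorem keyS_eq (k : ℕ) (K : ℕ → ℕ) : ∀ s ≤ stN k, keyS k K s = runK ((stages k).take s) K := by
  intro s
  induction s with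
  | zero => intro _; rfl
  | succ s ih =>
    intro hs
    have h1 : s < (stages k).length := by rw [length_stages]; exact hs
    rw [List.take_add_one, runK_append, ← ih (by omega), List.getElem?_eq_getElem h1]
    have : cmp k s = (stages k)[s] := List.getD_eq_getElem _ _ h1
    simp only [keyS, dirS, this, Option.toList_some, runK, List.foldl_cons, List.foldl_nil]

theorem stW_eq {α : Type*} (k : ℕ) (K : ℕ → ℕ) (w : ℕ → α) :
    ∀ s ≤ stN k, stW k K w s = applyR ((route (stages k) K).take s) w := by
  have key : ∀ (l : List (ℕ × ℕ)) (K : ℕ → ℕ) (s : ℕ) (hs : s < l.length),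
      (route l K)[s]? = some ((l[s]).2, csw (l[s]).1 (l[s]).2 (runK (l.take s) K)) := by
    intro l
    induction l with
    | nil => intro K s hs; simp at hs
    | cons p l ih =>
      intro K s hs
      cases s with
      | zero => rfl
      | succ s =>
        have := ih (swapW p.2 (csw p.1 p.2 K) K) s (by simpa using hs)
        simp only [route, List.getElem?_cons_succ, List.getElem_cons_succ, List.take_succ_cons]
        rw [this]
        rfl
  intro s
  induction s with
  | zero => intro _; rfl
  | succ s ih =>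
    intro hs
    have h1 : s < (stages k).length := by rw [length_stages]; exact hs
    rw [List.take_add_one, key _ _ _ h1]
    have h2 : cmp k s = (stages k)[s] := List.getD_eq_getElem _ _ h1
    unfold applyR at ih ⊢
    rw [List.foldl_append, ← ih (by omega)]
    simp only [Option.toList_some, List.foldl_cons, List.foldl_nil]
    funext x
    rw [stW_succ]
    unfold swapW swS dirS
    rw [keyS_eq k K s (by omega), h2]

theorem length_route (l : List (ℕ × ℕ)) (K : ℕ → ℕ) : (route l K).length = l.length := by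
  induction l generalizing K with
  | nil => rfl
  | cons p l ih => simp [route, ih]

/-- **Routing.** For keys which are a permutation of the numbers less than `2 ^ k`, the entry with
the key `x` arrives at the position `x`. -/
theorem stW_final {α : Type*} {k : ℕ} {K : ℕ → ℕ} (hK : ∀ x < 2 ^ k, K x < 2 ^ k)
    (hinj : ∀ x < 2 ^ k, ∀ y < 2 ^ k, K x = K y → x = y) (w : ℕ → α) {y : ℕ} (hy : y < 2 ^ k) :
    stW k K w (stN k) (K y) = w y := by
  obtain ⟨z, hz, hz2, hz3⟩ := route_spec hK hinj (hK y hy)
  have : z = y := hinj z hz y hy hz2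
  rw [stW_eq k K w _ le_rfl, List.take_of_length_le (by rw [length_route, length_stages, stN]),
    hz3, this]

/-- Only the values at the positions less than `2 ^ k` matter. -/
theorem keyS_congr {k : ℕ} {K K' : ℕ → ℕ} (h : ∀ x < 2 ^ k, K x = K' x) :
    ∀ s ≤ stN k, ∀ x < 2 ^ k, keyS k K s x = keyS k K' s x := by
  intro s
  induction s with
  | zero => exact fun _ => h
  | succ s ih =>
    intro hs x hx
    have ih' := ih (by omega)
    have hd := dirS_lt (k := k) (s := s) (by omega)
    simp only [keyS]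
    unfold swapW csw
    rw [ih' x hx, ih' _ (xor_pow_lt hd hx)]

theorem swS_congr {k : ℕ} {K K' : ℕ → ℕ} (h : ∀ x < 2 ^ k, K x = K' x) {s : ℕ} (hs : s < stN k)
    {x : ℕ} (hx : x < 2 ^ k) : swS k K s x = swS k K' s x := by
  have h1 := keyS_congr h s hs.le
  unfold swS csw
  rw [h1 x hx, h1 _ (xor_pow_lt (dirS_lt hs) hx)]

theorem stW_congr {α : Type*} {k : ℕ} {K : ℕ → ℕ} {w w' : ℕ → α} (h : ∀ x < 2 ^ k, w x = w' x) :
    ∀ s ≤ stN k, ∀ x < 2 ^ k, stW k K w s x = stW k K w' s x := by
  intro s
  induction s with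
  | zero => exact fun _ => h
  | succ s ih =>
    intro hs x hx
    have ih' := ih (by omega)
    have hd := dirS_lt (k := k) (s := s) (by omega)
    rw [stW_succ, stW_succ, ih' x hx, ih' _ (xor_pow_lt hd hx)]

/-- naturality -/
theorem stW_comp {α β : Type*} (k : ℕ) (K : ℕ → ℕ) (f : α → β) (w : ℕ → α) (s x : ℕ) :
    stW k K (fun y => f (w y)) s x = f (stW k K w s x) := by
  induction s generalizing x with
  | zero => rfl
  | succ s ih =>
    rw [stW_succ, stW_succ, ih, ih]
    split_ifs <;> rfl

/-- the position at which the entry from `y` is after `s` stages -/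
def posS (k : ℕ) (K : ℕ → ℕ) (y : ℕ) : ℕ → ℕ
  | 0 => y
  | s + 1 => if swS k K s (posS k K y s) then posS k K y s ^^^ 2 ^ dirS k s else posS k K y s

theorem posS_lt {k : ℕ} {K : ℕ → ℕ} {y : ℕ} (hy : y < 2 ^ k) :
    ∀ s ≤ stN k, posS k K y s < 2 ^ k := by
  intro s
  induction s with
  | zero => exact fun _ => hy
  | succ s ih =>
    intro hs
    have h := ih (by omega)
    simp only [posS]
    split_ifs
    · exact xor_pow_lt (dirS_lt (by omega)) h
    · exact h

theorem posS_succ (k : ℕ) (K : ℕ → ℕ) (y s : ℕ) : posS k K y (s + 1) =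
    if swS k K s (posS k K y s) then posS k K y s ^^^ 2 ^ dirS k s else posS k K y s := rfl

/-- The entry from `y` is found at the position `posS k K y s`, and only there. -/
theorem stW_posS {α : Type*} {k : ℕ} {K : ℕ → ℕ} (w : ℕ → α) (y : ℕ) :
    ∀ s ≤ stN k, stW k K w s (posS k K y s) = w y := by
  intro s
  induction s with
  | zero => exact fun _ => rfl
  | succ s ih =>
    intro hs
    have h := ih (by omega)
    by_cases h1 : swS k K s (posS k K y s) = true
    · have h2 : posS k K y (s + 1) = posS k K y s ^^^ 2 ^ dirS k s := by rw [posS_succ, if_pos h1]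
      rw [h2, stW_succ, swS_symm (by omega), if_pos h1, xor_pow_xor]
      exact h
    · have h2 : posS k K y (s + 1) = posS k K y s := by rw [posS_succ, if_neg h1]
      rw [h2, stW_succ, if_neg h1]
      exact h

theorem stW_eq_comp {α : Type*} (k : ℕ) (K : ℕ → ℕ) (w : ℕ → α) (s x : ℕ) :
    stW k K w s x = w (stW k K (fun y => y) s x) := stW_comp k K w (fun y => y) s x

/-- the position from which the entry at `x` after `s` stages comes -/
def srcS (k : ℕ) (K : ℕ → ℕ) (s x : ℕ) : ℕ := stW k K (fun y => y) s x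

theorem srcS_posS {k : ℕ} {K : ℕ → ℕ} {s : ℕ} (hs : s ≤ stN k) (y : ℕ) :
    srcS k K s (posS k K y s) = y := stW_posS _ y s hs

theorem srcS_lt {k : ℕ} {K : ℕ → ℕ} : ∀ s ≤ stN k, ∀ x < 2 ^ k, srcS k K s x < 2 ^ k := by
  intro s
  induction s with
  | zero => exact fun _ x hx => hx
  | succ s ih =>
    intro hs x hx
    have h := ih (by omega)
    unfold srcS at h ⊢
    rw [stW_succ]
    split_ifs
    · exact h _ (xor_pow_lt (dirS_lt (by omega)) hx)
    · exact h _ hx

theorem posS_srcS {k : ℕ} {K : ℕ → ℕ} : ∀ s ≤ stN k, ∀ x, posS k K (srcS k K s x) s = x := by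
  intro s
  induction s with
  | zero => exact fun _ x => rfl
  | succ s ih =>
    intro hs x
    have h := ih (by omega)
    unfold srcS at h ⊢
    rw [stW_succ]
    simp only [posS]
    by_cases h1 : swS k K s x = true
    · rw [if_pos h1, h, swS_symm (by omega), if_pos h1, xor_pow_xor]
    · rw [if_neg h1, h, if_neg h1]

/-- In the end the entry from `y` is at `K y`. -/
theorem posS_final {k : ℕ} {K : ℕ → ℕ} (hK : ∀ x < 2 ^ k, K x < 2 ^ k)
    (hinj : ∀ x < 2 ^ k, ∀ y < 2 ^ k, K x = K y → x = y) {y : ℕ} (hy : y < 2 ^ k) :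
    posS k K y (stN k) = K y := by
  have h1 : srcS k K (stN k) (K y) = y := stW_final hK hinj _ hy
  have h2 := posS_srcS (k := k) (K := K) (stN k) le_rfl (K y)
  rwa [h1] at h2

/-! ### Tables -/

/-- a list as a function -/
def fn {α : Type*} (d : α) (l : List α) : ℕ → α := fun x => l.getD x d

/-- the table of a function -/
def tab {α : Type*} (n : ℕ) (f : ℕ → α) : List α := (List.range n).map f

theorem fn_tab {α : Type*} (d : α) {n x : ℕ} (f : ℕ → α) (hx : x < n) : fn d (tab n f) x = f x := by
  unfold fn tab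
  rw [List.getD_eq_getElem?_getD, List.getElem?_map, List.getElem?_range hx]
  rfl

theorem length_tab {α : Type*} (n : ℕ) (f : ℕ → α) : (tab n f).length = n := by
  simp [tab]

theorem tab_congr {α : Type*} {n : ℕ} {f g : ℕ → α} (h : ∀ x < n, f x = g x) :
    tab n f = tab n g :=
  List.map_congr_left fun x hx => h x (List.mem_range.1 hx)

theorem getD_tab {α : Type*} (d : α) {n x : ℕ} (f : ℕ → α) (hx : x < n) :
    (tab n f).getD x d = f x := fn_tab d f hx

/-- the keys after the first `s` stages as a list -/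
def keyL (k : ℕ) (K : List ℕ) (s : ℕ) : List ℕ := tab (2 ^ k) (keyS k (fn 0 K) s)

theorem keyL_succ (k : ℕ) (K : List ℕ) {s : ℕ} (hs : s < stN k) :
    keyL k K (s + 1) = tab (2 ^ k) fun x =>
      swapW (dirS k s) (csw (cmp k s).1 (dirS k s) (fn 0 (keyL k K s))) (fn 0 (keyL k K s)) x := by
  refine tab_congr fun x hx => ?_
  have h1 : ∀ y < 2 ^ k, fn 0 (keyL k K s) y = keyS k (fn 0 K) s y := fun y hy => fn_tab _ _ hy
  have hd := xor_pow_lt (dirS_lt hs) hx
  simp only [keyS]
  unfold swapW csw
  rw [h1 x hx, h1 _ hd]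

/-- the switch words of the stages `0, …, stN k - 1` -/
def swTab (k : ℕ) (K : List ℕ) : List (List Bool) :=
  (List.range (stN k)).map fun s => tab (2 ^ k) (swS k (fn 0 K) s)

theorem getD_swTab {k : ℕ} (K : List ℕ) {s x : ℕ} (hs : s < stN k) (hx : x < 2 ^ k) :
    ((swTab k K).getD s []).getD x false = swS k (fn 0 K) s x := by
  have : (swTab k K).getD s [] = tab (2 ^ k) (swS k (fn 0 K) s) := by
    unfold swTab
    rw [List.getD_eq_getElem?_getD, List.getElem?_map, List.getElem?_range hs]
    rfl
  rw [this]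
  exact getD_tab _ _ hx

/-! ### Polynomial time -/

variable {A : Set Word} {α : Type*} [Enc α]

theorem PT.flipBit {f g : α → ℕ} (hf : PT A f) (hg : PT A g) (hb : PBd g) :
    PT A (fun a => f a ^^^ 2 ^ g a) :=
  PT.natXor hf (PT.pow (PT.const 2) hg hb)

/-- the comparators as a list built from `List.range k` only -/
def stL (k : ℕ) : List (ℕ × ℕ) :=
  (List.range k).flatMap fun i =>
    ((List.range k).reverse.filter fun j => decide (j ≤ i)).map fun j => (i + 1, j)

theorem mstages_eq (t m : ℕ) : mstages t m = (List.range m).reverse.map fun j => (t, j) := by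
  induction m with
  | zero => rfl
  | succ m ih =>
    rw [mstages, ih, List.range_succ, List.reverse_append, List.reverse_singleton,
      List.singleton_append, List.map_cons]

theorem filter_range_le {k i : ℕ} (hi : i < k) :
    (List.range k).reverse.filter (fun j => decide (j ≤ i)) = (List.range (i + 1)).reverse := by
  rw [List.filter_reverse]
  congr 1
  obtain ⟨d, rfl⟩ := Nat.exists_eq_add_of_le (Nat.succ_le_of_lt hi)
  rw [Nat.succ_eq_add_one, List.range_add, List.filter_append, List.filter_eq_self.2,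
    List.filter_eq_nil_iff.2, List.append_nil]
  · intro j hj
    rw [List.mem_map] at hj
    obtain ⟨l, _, rfl⟩ := hj
    simp; omega
  · intro j hj
    rw [List.mem_range] at hj
    simp; omega

theorem stages_eq (k : ℕ) : stages k = stL k := by
  have h1 : ∀ k, stages k = (List.range k).flatMap fun i => mstages (i + 1) (i + 1) := by
    intro k
    induction k with
    | zero => rfl
    | succ k ih =>
      rw [stages, ih, List.range_succ, List.flatMap_append]
      simp
  rw [h1, stL, List.flatMap_def, List.flatMap_def]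
  congr 1
  refine List.map_congr_left fun i hi => ?_
  rw [filter_range_le (List.mem_range.1 hi), mstages_eq]

theorem PT.stages {k : α → ℕ} (hk : PT A k) (hb : PBd k) : PT A (fun a => stages (k a)) := by
  have h1 : PT A (fun a => stL (k a)) := by
    unfold stL
    refine PT.flatMap (PT.range hk hb) ?_
    refine PT.map (l := fun p : α × ℕ => (List.range (k p.1)).reverse.filter fun j =>
      decide (j ≤ p.2)) (f := fun p j => (p.2 + 1, j)) ?_ ?_
    · exact PT.filter (l := fun p : α × ℕ => (List.range (k p.1)).reverse)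
        (f := fun p j => decide (j ≤ p.2))
        (PT.range (hk.comp PT.fst') (hb.comp (PT.fst' (A := A)))).reverse (PT.le PT.snd' PT.fst'.snd)
    · exact (PT.add PT.fst'.snd (PT.const 1)).pair PT.snd'
  exact h1.congr fun a => (stages_eq _).symm

theorem PBd_of_two_pow {k : α → ℕ} (hb : PBd fun a => 2 ^ k a) : PBd k :=
  hb.mono fun _ => Nat.lt_two_pow_self.le

theorem PBd_stN {k : α → ℕ} (hb : PBd k) : PBd fun a => stN (k a) :=
  (hb.mul (hb.add (PBd.const 1))).mono fun _ => Nat.div_le_self _ _

theorem PT.stN {k : α → ℕ} (hk : PT A k) : PT A fun a => stN (k a) :=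
  PT.half (PT.mul hk (PT.add hk (PT.const 1)))

theorem PT.fn {β : Type*} [Enc β] {f : α → List β} {x : α → ℕ} (d : β) (hf : PT A f)
    (hx : PT A x) : PT A (fun a => fn d (f a) (x a)) :=
  PT.getD hf hx (PT.const d)

theorem PT.tab {β : Type*} [Enc β] {n : α → ℕ} {f : α → ℕ → β} (hn : PT A n) (hb : PBd n)
    (hf : PT A (fun p : α × ℕ => f p.1 p.2)) : PT A (fun a => tab (n a) (f a)) :=
  PT.map (PT.range hn hb) hf

/-- `csw` on lists -/
theorem PT.cswList {t j : α → ℕ} {K : α → List ℕ} {x : α → ℕ} (ht : PT A t) (hj : PT A j)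
    (hjb : PBd j) (hK : PT A K) (hx : PT A x) :
    PT A (fun a => csw (t a) (j a) (H874.fn 0 (K a)) (x a)) := by
  have hy := PT.flipBit hx hj hjb
  have h1 := PT.fn 0 hK hx
  have h2 := PT.fn 0 hK hy
  refine (PT.cond (PT.xor (PT.testBit hx hj) (PT.testBit hx ht)) (PT.lt h1 h2)
    (PT.lt h2 h1)).congr fun a => ?_
  unfold csw
  cases Bool.xor ((x a).testBit (j a)) ((x a).testBit (t a)) <;> rfl

/-- the state of the computation of the switch words -/
def swState (k : ℕ) (K : List ℕ) (s : ℕ) : List ℕ × List (List Bool) :=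
  (keyL k K s, (List.range s).map fun i => H874.tab (2 ^ k) (swS k (H874.fn 0 K) i))

/-- a step of the computation of the switch words -/
def swStep (k : ℕ) (s : ℕ) (q : List ℕ × List (List Bool)) : List ℕ × List (List Bool) :=
  (H874.tab (2 ^ k) fun x =>
      if csw (cmp k s).1 (dirS k s) (H874.fn 0 q.1) x then H874.fn 0 q.1 (x ^^^ 2 ^ dirS k s)
      else H874.fn 0 q.1 x,
    q.2 ++ [H874.tab (2 ^ k) fun x => csw (cmp k s).1 (dirS k s) (H874.fn 0 q.1) x])

theorem swState_succ (k : ℕ) (K : List ℕ) {s : ℕ} (hs : s < H874.stN k) :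
    swState k K (s + 1) = swStep k s (swState k K s) := by
  unfold swState swStep
  refine Prod.ext ?_ ?_
  · exact keyL_succ k K hs
  · simp only [List.range_succ, List.map_append, List.map_cons, List.map_nil]
    congr 2
    refine tab_congr fun x hx => ?_
    have h1 : ∀ y < 2 ^ k, H874.fn 0 (keyL k K s) y = keyS k (H874.fn 0 K) s y :=
      fun y hy => fn_tab _ _ hy
    have hd := xor_pow_lt (dirS_lt hs) hx
    unfold swS csw
    rw [h1 x hx, h1 _ hd]

theorem swState_eq (k : ℕ) (K : List ℕ) : ∀ s ≤ H874.stN k,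
    Nat.rec (motive := fun _ => List ℕ × List (List Bool)) (swState k K 0) (swStep k) s =
      swState k K s := by
  intro s
  induction s with
  | zero => intro _; rfl
  | succ s ih =>
    intro hs
    rw [swState_succ k K (by omega), ← ih (by omega)]

/-- All keys come from the list of the keys. -/
theorem keyS_mem (k : ℕ) (K : ℕ → ℕ) (B : ℕ) (h : ∀ x, K x ≤ B) : ∀ s x, keyS k K s x ≤ B := by
  intro s
  induction s with
  | zero => exact h
  | succ s ih =>
    intro x
    simp only [keyS]
    unfold swapW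
    split_ifs
    · exact ih _
    · exact ih _

theorem esize_fn_le (K : List ℕ) (x : ℕ) : esize (H874.fn 0 K x) ≤ esize K := by
  unfold H874.fn
  rcases lt_or_ge x K.length with h | h
  · rw [List.getD_eq_getElem _ _ h]
    exact esize_le_of_mem (List.getElem_mem h)
  · rw [List.getD_eq_default _ _ h]
    simp [esize_nat]

theorem esize_keyS_le (k : ℕ) (K : List ℕ) : ∀ s x, esize (keyS k (H874.fn 0 K) s x) ≤ esize K := by
  intro s
  induction s with
  | zero => exact esize_fn_le K
  | succ s ih =>
    intro x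
    simp only [keyS]
    unfold swapW
    split_ifs
    · exact ih _
    · exact ih _

theorem esize_swState_le (k : ℕ) (K : List ℕ) (s : ℕ) :
    esize (swState k K s) ≤ 2 * (2 ^ k * (2 * esize K + 1)) + s * (2 * (2 ^ k * 3) + 1) + 1 := by
  unfold swState
  rw [esize_pair]
  have h1 : esize (keyL k K s) ≤ 2 ^ k * (2 * esize K + 1) := by
    refine (esize_list_le (B := esize K) ?_).trans ?_
    · intro y hy
      unfold keyL H874.tab at hy
      rw [List.mem_map] at hy
      obtain ⟨x, _, rfl⟩ := hy
      exact esize_keyS_le k K s x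
    · unfold keyL
      rw [length_tab]
  have h2 : esize ((List.range s).map fun i => H874.tab (2 ^ k) (swS k (H874.fn 0 K) i)) ≤
      s * (2 * (2 ^ k * 3) + 1) := by
    refine (esize_list_le (B := 2 ^ k * 3) ?_).trans ?_
    · intro y hy
      rw [List.mem_map] at hy
      obtain ⟨i, _, rfl⟩ := hy
      refine (esize_list_le (B := 1) ?_).trans ?_
      · intro b _
        rw [esize_bool]
      · rw [length_tab]
    · rw [List.length_map, List.length_range]
  omega

theorem PT.cmp {k s : α → ℕ} (hk : PT A k) (hb : PBd k) (hs : PT A s) :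
    PT A (fun a => cmp (k a) (s a)) :=
  PT.getD (PT.stages hk hb) hs (PT.const (1, 0))

theorem PT.dirS {k s : α → ℕ} (hk : PT A k) (hb : PBd k) (hs : PT A s) :
    PT A (fun a => dirS (k a) (s a)) := (PT.cmp hk hb hs).snd

theorem dirS_le (k s : ℕ) : H874.dirS k s ≤ k := by
  unfold H874.dirS H874.cmp
  rcases lt_or_ge s (H874.stages k).length with h | h
  · rw [List.getD_eq_getElem _ _ h]
    exact (mem_stages (List.getElem_mem h)).2.le
  · rw [List.getD_eq_default _ _ h]
    exact Nat.zero_le _

theorem PBd_dirS {k s : α → ℕ} (hb : PBd k) : PBd (fun a => H874.dirS (k a) (s a)) :=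
  hb.mono fun _ => dirS_le _ _

/-- **The switch words are computable in polynomial time.** -/
theorem PT.swTab {k : α → ℕ} {K : α → List ℕ} (hk : PT A k) (hb : PBd fun a => 2 ^ k a)
    (hK : PT A K) : PT A (fun a => swTab (k a) (K a)) := by
  have hkb := PBd_of_two_pow hb
  have hp : PT A (fun a => 2 ^ k a) := PT.pow (PT.const 2) hk hkb
  have h0 : PT A (fun a => swState (k a) (K a) 0) := by
    unfold swState
    refine PT.pair (PT.tab hp hb (PT.fn 0 (hK.comp PT.fst') PT.snd')) ?_
    exact (PT.const ([] : List (List Bool))).congr fun _ => rfl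
  have hst : PT A (fun p : α × ℕ × (List ℕ × List (List Bool)) => swStep (k p.1) p.2.1 p.2.2) := by
    unfold swStep
    have hk1 : PT A (fun p : α × ℕ × (List ℕ × List (List Bool)) => k p.1) := hk.comp PT.fst'
    have hk2 : PBd (fun p : α × ℕ × (List ℕ × List (List Bool)) => k p.1) :=
      hkb.comp (PT.fst' (A := A))
    have hp1 : PT A (fun p : α × ℕ × (List ℕ × List (List Bool)) => 2 ^ k p.1) := hp.comp PT.fst'
    have hp2 : PBd (fun p : α × ℕ × (List ℕ × List (List Bool)) => 2 ^ k p.1) :=
      hb.comp (PT.fst' (A := A))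
    have hs1 : PT A (fun p : α × ℕ × (List ℕ × List (List Bool)) => p.2.1) := PT.snd'.fst
    have hq1 : PT A (fun p : α × ℕ × (List ℕ × List (List Bool)) => p.2.2.1) := PT.snd'.snd.fst
    have hq2 : PT A (fun p : α × ℕ × (List ℕ × List (List Bool)) => p.2.2.2) := PT.snd'.snd.snd
    have hd : PT A (fun r : (α × ℕ × (List ℕ × List (List Bool))) × ℕ =>
        H874.dirS (k r.1.1) r.1.2.1) := (PT.dirS hk1 hk2 hs1).comp PT.fst'
    have hdb : PBd (fun r : (α × ℕ × (List ℕ × List (List Bool))) × ℕ =>
        H874.dirS (k r.1.1) r.1.2.1) :=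
      (PBd_dirS (s := fun p : α × ℕ × (List ℕ × List (List Bool)) => p.2.1) hk2).comp
        (PT.fst' (A := A))
    have hc : PT A (fun r : (α × ℕ × (List ℕ × List (List Bool))) × ℕ =>
        csw (H874.cmp (k r.1.1) r.1.2.1).1 (H874.dirS (k r.1.1) r.1.2.1)
          (H874.fn 0 r.1.2.2.1) r.2) :=
      PT.cswList ((PT.cmp hk1 hk2 hs1).comp PT.fst').fst hd hdb (hq1.comp PT.fst') PT.snd'
    refine PT.pair (PT.tab hp1 hp2 ?_) (PT.append hq2 (PT.cons (PT.tab hp1 hp2 hc) PT.nil))
    refine (PT.cond hc (PT.fn 0 (hq1.comp PT.fst') (PT.flipBit PT.snd' hd hdb))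
      (PT.fn 0 (hq1.comp PT.fst') PT.snd')).congr fun r => ?_
    cases csw (H874.cmp (k r.1.1) r.1.2.1).1 (H874.dirS (k r.1.1) r.1.2.1)
          (H874.fn 0 r.1.2.2.1) r.2 <;> rfl
  have hB : PBd (fun a => 2 * (2 ^ k a * (2 * esize (K a) + 1)) +
      H874.stN (k a) * (2 * (2 ^ k a * 3) + 1) + 1) := by
    have e1 := hK.pbd
    exact (((PBd.const 2).mul (hb.mul (((PBd.const 2).mul e1).add (PBd.const 1)))).add
      ((PBd_stN hkb).mul (((PBd.const 2).mul (hb.mul (PBd.const 3))).add (PBd.const 1)))).add
      (PBd.const 1)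
  refine (PT.natRec (step := fun a => swStep (k a)) (PT.stN hk) (PBd_stN hkb) h0 hst hB
    fun a j hj => ?_).snd.congr fun a => ?_
  · rw [swState_eq _ _ j hj]
    refine (esize_swState_le _ _ _).trans ?_
    have := Nat.mul_le_mul_right (2 * (2 ^ k a * 3) + 1) hj
    omega
  · rw [swState_eq _ _ _ le_rfl]
    rfl

/-- one switch bit -/
theorem PT.swS {k : α → ℕ} {K : α → List ℕ} {s x : α → ℕ} (hk : PT A k)
    (hb : PBd fun a => 2 ^ k a) (hK : PT A K) (hs : PT A s) (hx : PT A x)
    (hs2 : ∀ a, s a < H874.stN (k a)) (hx2 : ∀ a, x a < 2 ^ k a) :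
    PT A (fun a => H874.swS (k a) (H874.fn 0 (K a)) (s a) (x a)) :=
  (PT.getD (PT.getD (PT.swTab hk hb hK) hs (PT.const [])) hx (PT.const false)).congr fun a =>
    getD_swTab _ (hs2 a) (hx2 a)

end Vale.Agent.P330.H874
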