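import Vale.Agent.P330.H874.Wire
import Vale.Agent.P330.H874.Pos

/-!
# The slots of a NAND program

`P : List (ℕ × ℕ)` is a NAND program with `n ≥ 1` inputs: the cells `c < n` are the inputs, the cell
`c ≥ n` is the NAND of the two cells `gt n P c` (gate number `c - n`; missing gates read the cell
`0` twice).  The slots of the cell `c` are `4 * c + j`, `j < 4`:
* `j = 0`: the input if `c < n`, else a copy of the first argument;
* `j = 1`: a copy of the slot `4 * c` if `c < n`, else a copy of the second argument;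
* `j = 2`: the NAND of the slots `4 * c` and `4 * c + 1`;
* `j = 3`: zero.
The value of the cell `a` is read at the slot `cellSlot n a`.
-/

namespace Vale.Agent.P330.H874

open Vale.Agent.Lib.PolyTime

/-! ### Arithmetic of slots -/

theorem xor_three (x : ℕ) : x ^^^ 3 = (x ^^^ 2) ^^^ 1 := by
  rw [Nat.xor_assoc]
  rfl

theorem xor_two_of_mod {x : ℕ} (h : x % 4 = 2) : x ^^^ 2 = x - 2 := by
  obtain ⟨q, rfl⟩ : ∃ q, x = 2 ^ (1 + 1) * q + (2 ^ 1 + 0) :=
    ⟨x / 4, by have : (2 : ℕ) ^ (1 + 1) = 4 := rfl; omega⟩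
  have h1 := xor_pow_high (m := 1) (q := q) (x := 0) (by norm_num)
  have e2 : (2 : ℕ) ^ 1 = 2 := rfl
  rw [e2] at h1 ⊢
  rw [h1]
  omega

theorem xor_one_of_even {x : ℕ} (h : x % 2 = 0) : x ^^^ 1 = x + 1 := by
  obtain ⟨q, rfl⟩ : ∃ q, x = q * 2 := ⟨x / 2, by omega⟩
  have h1 := xor_pow_low (m := 0) (q := q) (x := 0) (by norm_num)
  have e : 2 ^ (0 + 1) * q + 0 = q * 2 := by omega
  have e2 : (2 : ℕ) ^ 0 = 1 := rfl
  rw [e, e2] at h1
  rw [h1]
  omega

theorem xor_three_of_mod {x : ℕ} (h : x % 4 = 2) : x ^^^ 3 = x - 1 := by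
  rw [xor_three, xor_two_of_mod h, xor_one_of_even (by omega)]
  omega

/-! ### The sources -/

/-- the two arguments of the cell `c` -/
def gt (n : ℕ) (P : List (ℕ × ℕ)) (c : ℕ) : ℕ × ℕ := P.getD (c - n) (0, 0)

/-- the slot where the cell `a` is read -/
def cellSlot (n a : ℕ) : ℕ := if a < n then 4 * a else 4 * a + 2

/-- the sources of the copy slots -/
def srcP (n : ℕ) (P : List (ℕ × ℕ)) (x : ℕ) : Option ℕ :=
  if x / 4 < n then (if x % 4 = 1 then some (x - 1) else none)
  else if x % 4 = 0 then some (cellSlot n (gt n P (x / 4)).1)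
  else if x % 4 = 1 then some (cellSlot n (gt n P (x / 4)).2)
  else none

/-- Every gate reads earlier cells, and there is an input. -/
structure IsProg (n : ℕ) (P : List (ℕ × ℕ)) : Prop where
  pos : 0 < n
  lt : ∀ i (h : i < P.length), P[i].1 < n + i ∧ P[i].2 < n + i

theorem IsProg.gt_lt {n : ℕ} {P : List (ℕ × ℕ)} (hP : IsProg n P) {c : ℕ} (hc : n ≤ c) :
    (gt n P c).1 < c ∧ (gt n P c).2 < c := by
  unfold gt
  have := hP.pos
  rcases lt_or_ge (c - n) P.length with h | h
  · rw [List.getD_eq_getElem _ _ h]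
    have := hP.lt (c - n) h
    omega
  · rw [List.getD_eq_default _ _ h]
    omega

theorem srcP_in {n : ℕ} {P : List (ℕ × ℕ)} {x : ℕ} (hx : x / 4 < n) (h : x % 4 = 0) :
    srcP n P x = none := by
  unfold srcP
  rw [if_pos hx, if_neg (by omega)]

theorem srcP_one {n : ℕ} {P : List (ℕ × ℕ)} {x : ℕ} (hx : x / 4 < n) (h : x % 4 = 1) :
    srcP n P x = some (x - 1) := by
  unfold srcP
  rw [if_pos hx, if_pos h]

theorem srcP_fst {n : ℕ} {P : List (ℕ × ℕ)} {x : ℕ} (hx : n ≤ x / 4) (h : x % 4 = 0) :
    srcP n P x = some (cellSlot n (gt n P (x / 4)).1) := by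
  unfold srcP
  rw [if_neg (by omega), if_pos h]

theorem srcP_snd {n : ℕ} {P : List (ℕ × ℕ)} {x : ℕ} (hx : n ≤ x / 4) (h : x % 4 = 1) :
    srcP n P x = some (cellSlot n (gt n P (x / 4)).2) := by
  unfold srcP
  rw [if_neg (by omega), if_neg (by omega), if_pos h]

theorem srcP_high {n : ℕ} {P : List (ℕ × ℕ)} {x : ℕ} (h : 2 ≤ x % 4) : srcP n P x = none := by
  unfold srcP
  split_ifs <;> first | rfl | omega

theorem srcP_cellSlot {n : ℕ} {P : List (ℕ × ℕ)} (a : ℕ) : srcP n P (cellSlot n a) = none := by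
  unfold cellSlot
  split_ifs with h
  · exact srcP_in (by omega) (by omega)
  · exact srcP_high (by omega)

theorem cellSlot_lt {n a x : ℕ} (h : a < x / 4) : cellSlot n a < x := by
  unfold cellSlot
  split_ifs <;> omega

/-- the copy slots are the slots of the kinds `0` (except the inputs) and `1` -/
theorem isSome_srcP {n : ℕ} {P : List (ℕ × ℕ)} {x : ℕ} :
    (srcP n P x).isSome = true ↔ x % 4 = 1 ∨ (x % 4 = 0 ∧ n ≤ x / 4) := by
  have h4 : x % 4 < 4 := Nat.mod_lt _ (by norm_num)
  rcases lt_or_ge (x / 4) n with h | h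
  · rcases Nat.lt_or_ge (x % 4) 2 with h2 | h2
    · rcases Nat.lt_or_ge (x % 4) 1 with h1 | h1
      · rw [srcP_in h (by omega)]
        simp; omega
      · rw [srcP_one h (by omega)]
        simp; omega
    · rw [srcP_high h2]
      simp; omega
  · rcases Nat.lt_or_ge (x % 4) 2 with h2 | h2
    · rcases Nat.lt_or_ge (x % 4) 1 with h1 | h1
      · rw [srcP_fst h (by omega)]
        simp; omega
      · rw [srcP_snd h (by omega)]
        simp; omega
    · rw [srcP_high h2]
      simp; omega

theorem IsProg.isSrc {n : ℕ} {P : List (ℕ × ℕ)} (hP : IsProg n P) (N : ℕ) :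
    IsSrc N (srcP n P) := by
  have key : ∀ x a, srcP n P x = some a → a < x ∧ srcP n P a = none := by
    intro x a ha
    have h4 : x % 4 < 4 := Nat.mod_lt _ (by norm_num)
    rcases lt_or_ge (x / 4) n with h | h
    · rcases Nat.lt_or_ge (x % 4) 2 with h2 | h2
      · rcases Nat.lt_or_ge (x % 4) 1 with h1 | h1
        · rw [srcP_in h (by omega)] at ha
          simp at ha
        · rw [srcP_one h (by omega)] at ha
          obtain rfl := Option.some.inj ha
          exact ⟨by omega, srcP_in (by omega) (by omega)⟩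
      · rw [srcP_high h2] at ha
        simp at ha
    · have hg := hP.gt_lt h
      rcases Nat.lt_or_ge (x % 4) 2 with h2 | h2
      · rcases Nat.lt_or_ge (x % 4) 1 with h1 | h1
        · rw [srcP_fst h (by omega)] at ha
          obtain rfl := Option.some.inj ha
          exact ⟨cellSlot_lt hg.1, srcP_cellSlot _⟩
        · rw [srcP_snd h (by omega)] at ha
          obtain rfl := Option.some.inj ha
          exact ⟨cellSlot_lt hg.2, srcP_cellSlot _⟩
      · rw [srcP_high h2] at ha
        simp at ha
  exact ⟨fun x _ a ha => (key x a ha).1, fun x _ a ha => (key x a ha).2⟩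

/-! ### The values -/

/-- `v` are values of the cells. -/
def IsVal (n : ℕ) (P : List (ℕ × ℕ)) (v : ℕ → Bool) : Prop :=
  ∀ c, n ≤ c → v c = !(v (gt n P c).1 && v (gt n P c).2)

/-- the values of the slots from the values of the cells -/
def slotV (n : ℕ) (P : List (ℕ × ℕ)) (v : ℕ → Bool) (x : ℕ) : Bool :=
  if x % 4 = 0 then (if x / 4 < n then v (x / 4) else v (gt n P (x / 4)).1)
  else if x % 4 = 1 then (if x / 4 < n then v (x / 4) else v (gt n P (x / 4)).2)
  else if x % 4 = 2 then (if x / 4 < n then !v (x / 4) else v (x / 4))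
  else false

variable {n : ℕ} {P : List (ℕ × ℕ)} {v : ℕ → Bool}

theorem slotV_in {x : ℕ} (hx : x / 4 < n) (h : x % 4 = 0) : slotV n P v x = v (x / 4) := by
  unfold slotV
  rw [if_pos h, if_pos hx]

theorem slotV_three {x : ℕ} (h : x % 4 = 3) : slotV n P v x = false := by
  unfold slotV
  rw [if_neg (by omega), if_neg (by omega), if_neg (by omega)]

theorem slotV_cellSlot (a : ℕ) : slotV n P v (cellSlot n a) = v a := by
  unfold cellSlot
  split_ifs with h
  · rw [slotV_in (by omega) (by omega)]
    congr 1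
    omega
  · have h1 : (4 * a + 2) / 4 = a := by omega
    unfold slotV
    rw [if_neg (by omega), if_neg (by omega), if_pos (by omega), h1, if_neg h]

/-- The copy slots carry the values of their sources. -/
theorem slotV_src {x a : ℕ} (ha : srcP n P x = some a) : slotV n P v x = slotV n P v a := by
  have h4 : x % 4 < 4 := Nat.mod_lt _ (by norm_num)
  rcases lt_or_ge (x / 4) n with h | h
  · rcases Nat.lt_or_ge (x % 4) 2 with h2 | h2
    · rcases Nat.lt_or_ge (x % 4) 1 with h1 | h1
      · rw [srcP_in h (by omega)] at ha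
        simp at ha
      · rw [srcP_one h (by omega)] at ha
        obtain rfl := Option.some.inj ha
        have e : (x - 1) / 4 = x / 4 := by omega
        rw [slotV_in (x := x - 1) (by omega) (by omega), e]
        unfold slotV
        rw [if_neg (by omega), if_pos (by omega), if_pos h]
    · rw [srcP_high h2] at ha
      simp at ha
  · rcases Nat.lt_or_ge (x % 4) 2 with h2 | h2
    · rcases Nat.lt_or_ge (x % 4) 1 with h1 | h1
      · rw [srcP_fst h (by omega)] at ha
        obtain rfl := Option.some.inj ha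
        rw [slotV_cellSlot]
        unfold slotV
        rw [if_pos (by omega), if_neg (by omega)]
      · rw [srcP_snd h (by omega)] at ha
        obtain rfl := Option.some.inj ha
        rw [slotV_cellSlot]
        unfold slotV
        rw [if_neg (by omega), if_pos (by omega), if_neg (by omega)]
    · rw [srcP_high h2] at ha
      simp at ha

/-- The slots of the kind `2` are NAND gates. -/
theorem slotV_nand (hv : IsVal n P v) {x : ℕ} (h : x % 4 = 2) :
    slotV n P v x = !(slotV n P v (x ^^^ 2) && slotV n P v (x ^^^ 3)) := by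
  rw [xor_two_of_mod h, xor_three_of_mod h]
  have e1 : (x - 2) / 4 = x / 4 := by omega
  have e2 : (x - 1) / 4 = x / 4 := by omega
  rcases lt_or_ge (x / 4) n with h1 | h1
  · have h2 : slotV n P v (x - 2) = v (x / 4) := by rw [slotV_in (by omega) (by omega), e1]
    have h3 : slotV n P v (x - 1) = v (x / 4) := by
      unfold slotV
      rw [if_neg (by omega), if_pos (by omega), if_pos (by omega), e2]
    rw [h2, h3, Bool.and_self]
    unfold slotV
    rw [if_neg (by omega), if_neg (by omega), if_pos h, if_pos h1]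
  · have h2 : slotV n P v (x - 2) = v (gt n P (x / 4)).1 := by
      unfold slotV
      rw [if_pos (by omega), if_neg (by omega), e1]
    have h3 : slotV n P v (x - 1) = v (gt n P (x / 4)).2 := by
      unfold slotV
      rw [if_neg (by omega), if_pos (by omega), if_neg (by omega), e2]
    rw [h2, h3, ← hv _ h1]
    unfold slotV
    rw [if_neg (by omega), if_neg (by omega), if_pos h, if_neg (by omega)]

/-- a bit as an element of a ring -/
def bitR (R : Type*) [Zero R] [One R] (b : Bool) : R := if b then 1 else 0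

theorem bitR_nand {R : Type*} [CommRing R] [CharP R 2] (a b : Bool) :
    bitR R (!(a && b)) = 1 + bitR R a * bitR R b := by
  have h : (1 : R) + 1 = 0 := CharTwo.add_self_eq_zero 1
  cases a <;> cases b <;> simp [bitR, h]

/-- The rules of the slots, for the slots less than `h`. -/
structure SlotRules {R : Type*} [CommRing R] (n : ℕ) (P : List (ℕ × ℕ)) (k : ℕ) (v : ℕ → Bool)
    (w : ℕ → R) (h : ℕ) : Prop where
  inp : ∀ x < h, x / 4 < n → x % 4 = 0 → w x = bitR R (v (x / 4))
  copy : ∀ x < h, (srcP n P x).isSome = true → w x = routed (srcP n P) k w x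
  nand : ∀ x < h, x % 4 = 2 → w x = 1 + w (x ^^^ 2) * w (x ^^^ 3)
  zero : ∀ x < h, x % 4 = 3 → w x = 0

/-- **Slot induction.** -/
theorem SlotRules.eq {R : Type*} [CommRing R] [CharP R 2] {k : ℕ} {w : ℕ → R} {h : ℕ}
    (hP : IsProg n P) (hv : IsVal n P v) (hh : h ≤ 2 ^ k) (H : SlotRules n P k v w h) :
    ∀ x < h, w x = bitR R (slotV n P v x) := by
  have hc := (wiring (hP.isSrc (2 ^ k)) w hh).1 H.copy
  intro x
  induction x using Nat.strong_induction_on with
  | _ x ih =>
    intro hx
    have h4 : x % 4 < 4 := Nat.mod_lt _ (by norm_num)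
    cases hs : srcP n P x with
    | some a =>
      have ha : a < x := (hP.isSrc (x + 1)).lt x (Nat.lt_succ_self x) a hs
      rw [hc x hx a hs, ih a ha (ha.trans hx), slotV_src hs]
    | none =>
      have h0 : ¬ (x % 4 = 1 ∨ (x % 4 = 0 ∧ n ≤ x / 4)) := by
        rw [← isSome_srcP (P := P), hs]
        simp
      rcases Nat.lt_or_ge (x % 4) 2 with h2 | h2
      · rw [H.inp x hx (by omega) (by omega), slotV_in (by omega) (by omega)]
      · rcases Nat.lt_or_ge (x % 4) 3 with h3 | h3
        · have h5 : x % 4 = 2 := by omega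
          rw [H.nand x hx h5, slotV_nand hv h5, bitR_nand, ih (x ^^^ 2), ih (x ^^^ 3)]
          · rw [xor_three_of_mod h5]; omega
          · rw [xor_three_of_mod h5]; omega
          · rw [xor_two_of_mod h5]; omega
          · rw [xor_two_of_mod h5]; omega
        · rw [H.zero x hx (by omega), slotV_three (by omega)]
          rfl

/-- **Completeness.** The word of the values of the first `h` slots satisfies the rules. -/
theorem slotRules_of_eq {R : Type*} [CommRing R] [CharP R 2] {k : ℕ} {w : ℕ → R} {h : ℕ}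
    (hP : IsProg n P) (hv : IsVal n P v) (hh : h ≤ 2 ^ k)
    (hw : ∀ x < h, w x = bitR R (slotV n P v x)) : SlotRules n P k v w h where
  inp x hx h1 h2 := by rw [hw x hx, slotV_in h1 h2]
  copy := by
    refine (wiring (hP.isSrc (2 ^ k)) w hh).2 fun x hx a ha => ?_
    have h1 : a < x := (hP.isSrc (x + 1)).lt x (Nat.lt_succ_self x) a ha
    rw [hw x hx, hw a (h1.trans hx), slotV_src ha]
  nand x hx h2 := by
    rw [hw x hx, slotV_nand hv h2, bitR_nand, hw, hw]
    · rw [xor_three_of_mod h2]; omega
    · rw [xor_two_of_mod h2]; omega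
  zero x hx h3 := by rw [hw x hx, slotV_three h3]; rfl

/-! ### Tables and polynomial time -/

theorem prevO_congr {src src' : ℕ → Option ℕ} {N x : ℕ} (hx : x < N)
    (h : ∀ y < N, src y = src' y) : prevO src N x = prevO src' N x := by
  have h1 : ∀ a, occL src N a x = occL src' N a x := fun a =>
    List.filter_congr fun y hy => by rw [h y (List.mem_range.1 hy)]
  unfold prevO
  rw [h x hx]
  cases src' x with
  | none => rfl
  | some a => exact congrArg List.getLast? (h1 a)

theorem wireK_congr {src src' : ℕ → Option ℕ} {k : ℕ} (h : ∀ x < 2 ^ k, src x = src' x) (y : ℕ) :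
    wireK src k y = wireK src' k y :=
  keyOf_congr (fun _ hx => prevO_congr hx h) y

/-- the table of the sources -/
def srcL (n : ℕ) (P : List (ℕ × ℕ)) (k : ℕ) : List (Option ℕ) := tab (2 ^ k) (srcP n P)

/-- the list of the keys of the program -/
def keyP (n : ℕ) (P : List (ℕ × ℕ)) (k : ℕ) : List ℕ := wireL (srcL n P k) k

theorem fn_keyP (n : ℕ) (P : List (ℕ × ℕ)) (k : ℕ) {x : ℕ} (hx : x < 2 ^ k) :
    fn 0 (keyP n P k) x = wireK (srcP n P) k x := by
  unfold keyP
  rw [fn_wireL _ _ hx]
  exact wireK_congr (fun y hy => fn_tab _ _ hy) x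

/-- the switch words of the program -/
def swP (n : ℕ) (P : List (ℕ × ℕ)) (k : ℕ) : List (List Bool) := swTab k (keyP n P k)

/-- the positions of the packets of the program -/
def posP (n : ℕ) (P : List (ℕ × ℕ)) (k : ℕ) : List (List ℕ) := posTab k (keyP n P k)

theorem getD_swP {n : ℕ} {P : List (ℕ × ℕ)} {k s x : ℕ} (hs : s < stN k) (hx : x < 2 ^ k) :
    ((swP n P k).getD s []).getD x false = swS k (wireK (srcP n P) k) s x := by
  unfold swP
  rw [getD_swTab _ hs hx]
  exact swS_congr (fun y hy => fn_keyP n P k hy) hs hx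

theorem posS_congr {k : ℕ} {K K' : ℕ → ℕ} (h : ∀ x < 2 ^ k, K x = K' x) {y : ℕ} (hy : y < 2 ^ k) :
    ∀ s ≤ stN k, posS k K y s = posS k K' y s := by
  intro s
  induction s with
  | zero => intro _; rfl
  | succ s ih =>
    intro hs
    have h1 := ih (by omega)
    rw [posS_succ, posS_succ, ← h1, swS_congr h (by omega) (posS_lt hy s (by omega))]

theorem getD_posP {n : ℕ} {P : List (ℕ × ℕ)} {k s y : ℕ} (hs : s ≤ stN k) (hy : y < 2 ^ k) :
    ((posP n P k).getD s []).getD y 0 = posS k (wireK (srcP n P) k) y s := by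
  unfold posP
  rw [getD_posTab _ hs hy]
  exact posS_congr (fun y hy => fn_keyP n P k hy) hy s hs

/-- a table of switch words gives the routed word -/
theorem routed_succ {α : Type*} (src : ℕ → Option ℕ) (k : ℕ) (w : ℕ → α) :
    routed src k w = stW k (wireK src k) w (stN k) := rfl

section PT

variable {A : Set Word} {α : Type*} [Enc α]

theorem PT.cellSlot {n a : α → ℕ} (hn : PT A n) (ha : PT A a) :
    PT A (fun x => H874.cellSlot (n x) (a x)) := by
  refine (PT.cond (PT.lt ha hn) (PT.mul (PT.const 4) ha)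
    (PT.add (PT.mul (PT.const 4) ha) (PT.const 2))).congr fun x => ?_
  unfold H874.cellSlot
  by_cases h : a x < n x <;> simp [h]

theorem PT.srcP {n : α → ℕ} {P : α → List (ℕ × ℕ)} {x : α → ℕ} (hn : PT A n) (hP : PT A P)
    (hx : PT A x) : PT A (fun a => H874.srcP (n a) (P a) (x a)) := by
  have hq : PT A (fun a => x a / 4) := PT.div hx (PT.const 4)
  have hm : PT A (fun a => x a % 4) := PT.mod hx (PT.const 4)
  have hg : PT A (fun a => gt (n a) (P a) (x a / 4)) :=
    PT.getD hP (PT.sub hq hn) (PT.const (0, 0))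
  refine (PT.cond (PT.lt hq hn)
    (PT.cond (PT.eqNat hm (PT.const 1)) (PT.some (PT.sub hx (PT.const 1))) (PT.const none))
    (PT.cond (PT.eqNat hm (PT.const 0)) (PT.some (PT.cellSlot hn hg.fst))
      (PT.cond (PT.eqNat hm (PT.const 1)) (PT.some (PT.cellSlot hn hg.snd))
        (PT.const none)))).congr fun a => ?_
  unfold H874.srcP
  by_cases h1 : x a / 4 < n a
  · by_cases h2 : x a % 4 = 1 <;> simp [h1, h2]
  · by_cases h2 : x a % 4 = 0
    · simp [h1, h2]
    · by_cases h3 : x a % 4 = 1 <;> simp [h1, h2, h3]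

theorem PT.srcL {n : α → ℕ} {P : α → List (ℕ × ℕ)} {k : α → ℕ} (hn : PT A n) (hP : PT A P)
    (hk : PT A k) (hb : PBd fun a => 2 ^ k a) :
    PT A (fun a => H874.srcL (n a) (P a) (k a)) := by
  have hp : PT A (fun a => 2 ^ k a) := PT.pow (PT.const 2) hk (PBd_of_two_pow hb)
  exact PT.tab hp hb (PT.srcP (hn.comp PT.fst') (hP.comp PT.fst') PT.snd')

/-- The keys of a program are computable in polynomial time. -/
theorem PT.keyP {n : α → ℕ} {P : α → List (ℕ × ℕ)} {k : α → ℕ} (hn : PT A n) (hP : PT A P)
    (hk : PT A k) (hb : PBd fun a => 2 ^ k a) :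
    PT A (fun a => H874.keyP (n a) (P a) (k a)) :=
  PT.wireL (PT.srcL hn hP hk hb) hk hb

/-- **The switch words of a program are computable in polynomial time.** -/
theorem PT.swP {n : α → ℕ} {P : α → List (ℕ × ℕ)} {k : α → ℕ} (hn : PT A n) (hP : PT A P)
    (hk : PT A k) (hb : PBd fun a => 2 ^ k a) :
    PT A (fun a => H874.swP (n a) (P a) (k a)) :=
  PT.swTab hk hb (PT.keyP hn hP hk hb)

/-- **The positions of the packets of a program are computable in polynomial time.** -/
theorem PT.posP {n : α → ℕ} {P : α → List (ℕ × ℕ)} {k : α → ℕ} (hn : PT A n) (hP : PT A P)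
    (hk : PT A k) (hb : PBd fun a => 2 ^ k a) :
    PT A (fun a => H874.posP (n a) (P a) (k a)) :=
  PT.posTab hk hb (PT.keyP hn hP hk hb)

end PT

end Vale.Agent.P330.H874
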