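import Vale.Agent.P330.H874.TopPT2
import Vale.Agent.P330.H743.TopFin
import Vale.Agent.P330.H933.PubC

/-!
# The content program of a machine in polynomial time

`topS p off`: the compiled program of the parameters `p`.  `topP_eq`: the content program of a
machine is the program of first order parameters `ppS`.
-/

namespace Vale.Agent.P330.H874

open Vale.Agent.Lib.PolyTime

open Vale.Agent.P330.H16 (Ins Mac UM Nm Kd Cmd PP MP RSys genK compile)

open Vale.Agent.P330.H155 (HProg)

open Vale.Agent.P330.H933 (Fl cod FT LPar NPar MPar RPar sg)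

/-! ### The table of the subspace polynomials is used below `κ` only -/

section

variable {F : Type}

theorem flatMap_congr' {I J : Type*} {l : List I} {f g : I → List J} (h : ∀ i ∈ l, f i = g i) :
    l.flatMap f = l.flatMap g := by
  induction l with
  | nil => rfl
  | cons i l ih =>
    rw [List.flatMap_cons, List.flatMap_cons, h i (List.mem_cons_self ..),
      ih fun j hj => h j (List.mem_cons_of_mem _ hj)]

theorem iterM_congr {M M' : ℕ → Mac F} {l : List ℕ} (h : ∀ j ∈ l, M j = M' j) :
    H16.iterM M l = H16.iterM M' l := by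
  induction l with
  | nil => rfl
  | cons i l ih =>
    rw [H16.iterM, H16.iterM, h i (List.mem_cons_self ..),
      ih fun j hj => h j (List.mem_cons_of_mem _ hj)]

section

variable [One F] {cf cf' : ℕ → ℕ → F} {κ k : ℕ}

omit [One F] in
theorem sM_congr {j : ℕ} (h : ∀ i < κ, cf j i = cf' j i) : H118.sM cf κ j = H118.sM cf' κ j := by
  unfold H118.sM
  rw [List.map_congr_left fun i hi => by rw [h i (List.mem_range.1 hi)]]

theorem mac_congr (hk : k ≤ κ) (h : ∀ j < κ, ∀ i < κ, cf j i = cf' j i) (off : Bool → ℕ) :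
    H118.mac cf κ k off = H118.mac cf' κ k off := by
  have h1 : ∀ j < κ, H118.sM cf κ j = H118.sM cf' κ j := fun j hj => sM_congr (h j hj)
  have h2 : ∀ j < κ, H118.iffM cf κ j = H118.iffM cf' κ j := fun j hj => by
    unfold H118.iffM H118.ifaM
    rw [h1 j hj]
  have h3 : ∀ j < κ, H118.ffM cf κ j = H118.ffM cf' κ j := fun j hj => by
    unfold H118.ffM
    rw [h1 j hj]
  funext m cs
  cases m
  case lde =>
    simp only [H118.mac, H118.ldeM]
    rw [iterM_congr (M := H118.iffM cf κ) fun j hj => h2 j ((List.mem_range.1 hj).trans_le hk),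
      iterM_congr (M := H118.ffM cf κ) fun j hj => h3 j (List.mem_range.1 (List.mem_reverse.1 hj))]
  case inv =>
    simp only [H118.mac, H118.invM]
    rw [iterM_congr (M := H118.iffM cf κ) fun j hj => h2 j (List.mem_range.1 hj)]
  case LL =>
    simp only [H118.mac, H118.LM]
    refine iterM_congr fun j hj => ?_
    unfold H118.s1M
    rw [h1 j ((List.mem_range.1 hj).trans_le hk)]
  all_goals rfl

end

variable [Field F]

/-- the same parameters with another table -/
def wsc (p : PP F) (g : ℕ → ℕ → F) : PP F := { p with sc := g }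

theorem prog_congr (p : PP F) (g : ℕ → ℕ → F) (hk : p.k ≤ p.κ) (h1 : 1 < p.κ)
    (hd : ∀ s < p.L, p.dir s < p.κ) (h : ∀ j < p.κ, ∀ i < p.κ, p.sc j i = g j i) :
    (wsc p g).prog = p.prog := by
  have hsc : ∀ j < p.k, (List.range p.k).map (g j) = (List.range p.k).map (p.sc j) :=
    fun j hj => List.map_congr_left fun i hi =>
      (h j (hj.trans_le hk) i ((List.mem_range.1 hi).trans_le hk)).symm
  have hU2 : ∀ m, ∀ s < p.L, (wsc p g).prU2 m s = p.prU2 m s := by
    intro m s hs
    refine flatMap_congr' fun j hj => ?_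
    have hj' := List.mem_range.1 hj
    have e1 : (wsc p g).sc = g := rfl
    have e2 : (wsc p g).k = p.k := rfl
    have e3 : (wsc p g).dir = p.dir := rfl
    rw [e1, e2, e3, hsc j hj', h j (hj'.trans_le hk) _ (hd s hs)]
  have hA : ∀ m, (wsc p g).prA m = p.prA m := by
    intro m
    refine flatMap_congr' fun j hj => ?_
    have hj' := List.mem_range.1 hj
    have e1 : (wsc p g).sc = g := rfl
    have e2 : (wsc p g).k = p.k := rfl
    rw [e1, e2, hsc j hj', h j (hj'.trans_le hk) _ h1, h j (hj'.trans_le hk) _ (by omega)]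
  have hU : ∀ m, (wsc p g).prU m = p.prU m := by
    intro m
    have e1 : (List.range p.L).flatMap ((wsc p g).prUs m) =
        (List.range p.L).flatMap (p.prUs m) := by
      refine flatMap_congr' fun s hs => ?_
      unfold PP.prUs
      rw [hU2 m s (List.mem_range.1 hs)]
      rfl
    unfold PP.prU
    rw [hA m, ← e1]
    rfl
  refine flatMap_congr' fun i _ => ?_
  match i with
  | 0 | 1 | 2 | 3 | 4 | 5 | 6 | 7 | 8 | 9 | 10 | 11 => rfl
  | 12 => exact hU false
  | 13 => exact hU true
  | 14 | 15 | 16 | 17 | 18 | 19 | 20 | 21 | 22 | 23 | 24 | 25 | 26 | 27 | 28 | 29 => rfl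
  | _ + 30 => rfl

/-- The compiled program. -/
noncomputable def topS (p : PP F) (off : Bool → ℕ) : HProg F where
  prog := (cpl p off).2
  eqs := p.eqs.map fun q => ((cpl p off).1 q.1, (cpl p off).1 q.2)
  prods := p.prods.map fun q => ((cpl p off).1 q.1, (cpl p off).1 q.2.1, (cpl p off).1 q.2.2)
  out z i := (cpl p off).1 ((p.outN z).getD i .z)

end

/-- The parameters, with the table of the subspace polynomials. -/
noncomputable def ppS (k κ n L : ℕ) (dir : ℕ → ℕ) (l : ℕ) : PP (Fl l) :=
  ⟨k, κ, n, L, dir, fun j i => sg l (min j κ) (min i κ)⟩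

theorem cpl_ppS {l : ℕ} {M : MP} {R : RSys M.κ (Fl l)} (hM : M.Good)
    (hR : ∀ j < M.κ, ∀ i < M.κ, R.s j (H16.e M.κ i) = sg l j i) :
    H743.cpl M R = cpl (ppS M.k M.κ M.n M.L M.dir l) M.off := by
  have hk := hM.hk
  have hκ := hM.hκ
  have h1 : ∀ j < M.κ, ∀ i < M.κ, (M.pp R).sc j i = sg l (min j M.κ) (min i M.κ) := by
    intro j hj i hi
    rw [min_eq_left hj.le, min_eq_left hi.le]
    exact hR j hj i hi
  have h2 : (ppS M.k M.κ M.n M.L M.dir l).prog = (M.pp R).prog :=
    prog_congr (M.pp R) (fun j i => sg l (min j M.κ) (min i M.κ)) (by show M.k ≤ M.κ; omega)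
      (by show 1 < M.κ; omega)
      (fun s hs => (hM.dir_lt s hs).trans_le (by show M.k ≤ M.κ; omega)) h1
  have h3 : (ppS M.k M.κ M.n M.L M.dir l).base = (M.pp R).base := rfl
  unfold H743.cpl cpl H743.env0
  rw [h2, h3, H743.base_length, mac_congr (by omega) h1 M.off]
  rfl

/-- **The content program of a machine is the program of the parameters.** -/
theorem topP_eq {l : ℕ} {M : MP} {R : RSys M.κ (Fl l)} (hM : M.Good)
    (hR : ∀ j < M.κ, ∀ i < M.κ, R.s j (H16.e M.κ i) = sg l j i) :
    H743.topP M R = topS (ppS M.k M.κ M.n M.L M.dir l) M.off := by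
  unfold H743.topP topS H743.rg
  rw [cpl_ppS hM hR]
  rfl

/-! ### Polynomial time -/

variable {A : Set Word} {α β : Type*} [Enc α] [Enc β] {l : α → ℕ}

theorem PPar.ppS {k κ n L : α → ℕ} {dir : α → ℕ → ℕ} (hl : LPar A l) (hk : NPar A k)
    (hκ : NPar A κ) (hn : PT A n) (hL : NPar A L) (hd : PT A (fun q : α × ℕ => dir q.1 q.2)) :
    PPar A l (fun a => H874.ppS (k a) (κ a) (n a) (L a) (dir a) (l a)) where
  pk := hk.pt
  bk := hk.bd
  pκ := hκ.pt
  bκ := hκ.bd
  pn := hn
  pL := hL.pt
  bL := hL.bd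
  pdir := hd
  psc := by
    have h1 : NPar A (fun q : α × ℕ × ℕ => κ q.1) := hκ.comp PT.fst'
    exact FT.sg (l := fun q : α × ℕ × ℕ => l q.1) (hl.comp PT.fst')
      (j := fun q => min q.2.1 (κ q.1)) (i := fun q => min q.2.2 (κ q.1))
      ⟨PT.min PT.snd'.fst h1.pt, h1.bd.mono fun _ => min_le_right _ _⟩
      ⟨PT.min PT.snd'.snd h1.pt, h1.bd.mono fun _ => min_le_right _ _⟩

section

variable {p : ∀ a, PP (Fl (l a))} {off : α → Bool → ℕ}

/-- **The instructions.** -/
theorem PPar.tprog (h : PPar A l p) (ho : ∀ z, PT A (fun a => off a z)) :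
    PT A (fun a => (topS (p a) (off a)).prog.map (insMap (cod (l a)))) := h.ins ho

theorem PPar.teqs (h : PPar A l p) (ho : ∀ z, PT A (fun a => off a z)) :
    PT A (fun a => (topS (p a) (off a)).eqs) := h.eqsR ho

theorem PPar.tprods (h : PPar A l p) (ho : ∀ z, PT A (fun a => off a z)) :
    PT A (fun a => (topS (p a) (off a)).prods) := h.prodsR ho

theorem PPar.tout (h : PPar A l p) (ho : ∀ z, PT A (fun a => off a z)) {z : α → Bool} {i : α → ℕ}
    (hz : PT A z) (hi : PT A i) : PT A (fun a => (topS (p a) (off a)).out (z a) (i a)) :=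
  h.outR' ho hz hi

theorem PPar.toutL (h : PPar A l p) (ho : ∀ z, PT A (fun a => off a z)) (z : Bool) {n : α → ℕ}
    (hn : PT A n) (hnb : PBd n) :
    PT A (fun a => (List.range (n a)).map ((topS (p a) (off a)).out z)) :=
  PT.map (PT.range hn hnb) ((h.comp PT.fst').tout (off := fun q : α × ℕ => off q.1)
    (fun z => (ho z).comp PT.fst') (PT.const z) PT.snd')

theorem PPar.tHL (h : PPar A l p) (ho : ∀ z, PT A (fun a => off a z)) :
    PT A (fun a => (topS (p a) (off a)).HL) ∧ PBd (fun a => (topS (p a) (off a)).HL) := by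
  have h1 : ∀ a, ((topS (p a) (off a)).prog.map (insMap (cod (l a)))).length =
      (topS (p a) (off a)).HL := fun a => List.length_map _
  exact ⟨(PT.length (h.tprog ho)).congr h1, (PBd.length (h.tprog ho)).mono fun a => (h1 a).ge⟩

end

/-! ### Machines -/

/-- The first order parameters of the content programs of the machines `M` over `Fl l` are
computable in polynomial time. -/
structure SPar (A : Set Word) (l : α → ℕ) (M : α → MP)
    (R : ∀ a, RSys (M a).κ (Fl (l a))) : Prop where
  lpar : LPar A l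
  k : NPar A (fun a => (M a).k)
  κ : NPar A (fun a => (M a).κ)
  n : PT A (fun a => (M a).n)
  L : NPar A (fun a => (M a).L)
  dir : PT A (fun q : α × ℕ => (M q.1).dir q.2)
  off : ∀ z, PT A (fun a => (M a).off z)
  good : ∀ a, (M a).Good
  s_e : ∀ a, ∀ j < (M a).κ, ∀ i < (M a).κ, (R a).s j (H16.e (M a).κ i) = sg (l a) j i

namespace SPar

variable {M : α → MP} {R : ∀ a, RSys (M a).κ (Fl (l a))}

theorem of_mpar (hM : MPar A M) (hG : ∀ a, (M a).Good) (hR : RPar A (fun a => (M a).κ) l R) :
    SPar A l M R :=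
  ⟨hR.lpar, hM.kN, hM.κN, hM.n, ⟨hM.L, hM.Lbd⟩, hM.dir, hM.off, hG, hR.s_e⟩

theorem comp {u : β → α} (h : SPar A l M R) (hu : PT A u) :
    SPar A (fun b => l (u b)) (fun b => M (u b)) (fun b => R (u b)) :=
  ⟨h.lpar.comp hu, h.k.comp hu, h.κ.comp hu, h.n.comp hu, h.L.comp hu,
    PT.comp (g := fun q : α × ℕ => (M q.1).dir q.2) (f := fun q : β × ℕ => (u q.1, q.2))
      h.dir ((hu.comp PT.fst').pair PT.snd'), fun z => (h.off z).comp hu,
    fun b => h.good (u b), fun b => h.s_e (u b)⟩

variable (h : SPar A l M R)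

include h

theorem ppar :
    PPar A l (fun a => H874.ppS (M a).k (M a).κ (M a).n (M a).L (M a).dir (l a)) :=
  PPar.ppS h.lpar h.k h.κ h.n h.L h.dir

theorem top_eq (a : α) : H743.topP (M a) (R a) =
    topS (H874.ppS (M a).k (M a).κ (M a).n (M a).L (M a).dir (l a)) (M a).off :=
  topP_eq (h.good a) (h.s_e a)

/-- **The instructions of the content program.** -/
theorem prog : PT A (fun a => (H743.topP (M a) (R a)).prog.map (insMap (cod (l a)))) :=
  (h.ppar.tprog h.off).congr fun a => by rw [h.top_eq a]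

/-- **The asserted equalities.** -/
theorem eqs : PT A (fun a => (H743.topP (M a) (R a)).eqs) :=
  (h.ppar.teqs h.off).congr fun a => by rw [h.top_eq a]

/-- **The asserted products.** -/
theorem prods : PT A (fun a => (H743.topP (M a) (R a)).prods) :=
  (h.ppar.tprods h.off).congr fun a => by rw [h.top_eq a]

/-- **The registers of the outputs.** -/
theorem out {z : α → Bool} {i : α → ℕ} (hz : PT A z) (hi : PT A i) :
    PT A (fun a => (H743.topP (M a) (R a)).out (z a) (i a)) :=
  (h.ppar.tout h.off hz hi).congr fun a => by rw [h.top_eq a]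

theorem outL (z : Bool) {n : α → ℕ} (hn : PT A n) (hnb : PBd n) :
    PT A (fun a => (List.range (n a)).map ((H743.topP (M a) (R a)).out z)) :=
  (h.ppar.toutL h.off z hn hnb).congr fun a => by rw [h.top_eq a]

theorem HL : PT A (fun a => (H743.topP (M a) (R a)).HL) :=
  (h.ppar.tHL h.off).1.congr fun a => by rw [h.top_eq a]

theorem HL_bd : PBd (fun a => (H743.topP (M a) (R a)).HL) :=
  (h.ppar.tHL h.off).2.mono fun a => by rw [h.top_eq a]

end SPar

end Vale.Agent.P330.H874
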