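import Vale.Agent.P330.H874.CmdPT

/-!
# The content program in polynomial time
-/

namespace Vale.Agent.P330.H874

open Vale.Agent.Lib.PolyTime

open Vale.Agent.P330.H16 (Ins Mac UM Nm Kd Cmd PP)

open Vale.Agent.P330.H933 (Fl cod FT)

variable {A : Set Word} {α β : Type*} [Enc α] [Enc β] {l : α → ℕ}

/-- The parameters of the program are computable in polynomial time. -/
structure PPar (A : Set Word) (l : α → ℕ) (p : ∀ a, PP (Fl (l a))) : Prop where
  pk : PT A (fun a => (p a).k)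
  bk : PBd (fun a => (p a).k)
  pκ : PT A (fun a => (p a).κ)
  bκ : PBd (fun a => (p a).κ)
  pn : PT A (fun a => (p a).n)
  pL : PT A (fun a => (p a).L)
  bL : PBd (fun a => (p a).L)
  pdir : PT A (fun q : α × ℕ => (p q.1).dir q.2)
  psc : FT A (fun q : α × ℕ × ℕ => l q.1) (fun q => (p q.1).sc q.2.1 q.2.2)

theorem CT.flatMapC {I : Type} (K : List I) {f : ∀ a, I → List (Cmd Nm (Kd (Fl (l a))))}
    (h : ∀ i, CT A l (fun a => f a i)) : CT A l (fun a => K.flatMap (f a)) := by
  induction K with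
  | nil => exact CT.nil
  | cons i K ih => exact CT.append (h i) ih

namespace PPar

variable {p : ∀ a, PP (Fl (l a))}

theorem comp (h : PPar A l p) {u : β → α} (hu : PT A u) :
    PPar A (fun b => l (u b)) (fun b => p (u b)) where
  pk := h.pk.comp hu
  bk := h.bk.comp hu
  pκ := h.pκ.comp hu
  bκ := h.bκ.comp hu
  pn := h.pn.comp hu
  pL := h.pL.comp hu
  bL := h.bL.comp hu
  pdir := PT.comp (g := fun q : α × ℕ => (p q.1).dir q.2) h.pdir
    (f := fun q : β × ℕ => (u q.1, q.2)) ((hu.comp PT.fst').pair PT.snd')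
  psc := FT.comp (l := fun q : α × ℕ × ℕ => l q.1) (f := fun q => (p q.1).sc q.2.1 q.2.2) h.psc
    (u := fun q : β × ℕ × ℕ => (u q.1, q.2)) ((hu.comp PT.fst').pair PT.snd')

variable (h : PPar A l p)

include h

theorem cpar {off : α → Bool → ℕ} (ho : ∀ z, PT A (fun a => off a z)) :
    CPar A l (fun a => (p a).κ) (fun a => (p a).k) (fun a => (p a).sc) off :=
  ⟨h.pκ, h.bκ, h.pk, h.bk, h.psc, ho⟩

theorem rk : PT A (fun a => List.range (p a).k) := PT.range h.pk h.bk

theorem rk1 : PT A (fun a => List.range ((p a).k + 1)) :=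
  PT.range (PT.add h.pk (PT.const 1)) (h.bk.add (PBd.const 1))

theorem rκ : PT A (fun a => List.range (p a).κ) := PT.range h.pκ h.bκ

theorem rL : PT A (fun a => List.range (p a).L) := PT.range h.pL h.bL

theorem dir {s : α → ℕ} (hs : PT A s) : PT A (fun a => (p a).dir (s a)) :=
  PT.comp (g := fun q : α × ℕ => (p q.1).dir q.2) h.pdir (f := fun a => (a, s a)) (PT.id.pair hs)

theorem sc {i j : α → ℕ} (hi : PT A i) (hj : PT A j) :
    PT A (fun a => cod (l a) ((p a).sc (i a) (j a))) :=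
  FT.comp (l := fun q : α × ℕ × ℕ => l q.1) (f := fun q => (p q.1).sc q.2.1 q.2.2) h.psc
    (u := fun a => (a, i a, j a)) (PT.id.pair (hi.pair hj))

theorem eqk {j : α → ℕ} (hj : PT A j) : PT A (fun a => decide (j a = (p a).k)) :=
  PT.eqNat hj h.pk

theorem scs {j : α → ℕ} (hj : PT A j) : PT A (fun a => (List.range (p a).k).map fun i =>
    cod (l a) ((p a).sc (j a) i)) :=
  PT.map (f := fun a i => cod (l a) ((p a).sc (j a) i)) h.rk
    ((h.comp PT.fst').sc (hj.comp PT.fst') PT.snd')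

omit h in
theorem prS1 : CT A l (fun _ => PP.prS1) := by
  unfold PP.prS1
  refine CT.cons (CT1.pub (PT.const _) (PT.const _)) ?_
  refine CT.cons (CT1.lin (PT.const _) (PT.const _) (PT.const _)) ?_
  refine CT.cons (CT1.un (PT.const _) (PT.const _) (PT.const _)) ?_
  refine CT.cons (CT1.un (PT.const _) (PT.const _) (PT.const _)) ?_
  refine CT.cons (CT1.add (PT.const _) (PT.const _)) ?_
  refine CT.cons (CT1.add (PT.const _) (PT.const _)) ?_
  refine CT.cons (CT1.add (PT.const _) (PT.const _)) ?_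
  refine CT.cons (CT1.add (PT.const _) (PT.const _)) ?_
  refine CT.cons (CT1.smul (PT.const _) (PT.const _)) ?_
  exact CT.nil

theorem prS2 : CT A l (fun a => (p a).prS2) := by
  unfold PP.prS2
  refine CT.flatMap h.rk1 ?_
  have j : PT A (fun q : α × ℕ => q.2) := PT.snd'
  refine CT.cons (CT1.un (PT.nm1 j fun _ => rfl) (PT.const _) (PT.cons (PT.nm1 j fun _ => rfl)
    PT.nil)) ?_
  refine CT.cons (CT1.un (PT.nm1 j fun _ => rfl) (PT.const _) (PT.cons (PT.nm1 j fun _ => rfl)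
    PT.nil)) ?_
  refine CT.cons (CT1.add (PT.nm1 j fun _ => rfl) (PT.cons (PT.const _) (PT.cons (PT.nm1 j fun
    _ => rfl) PT.nil))) ?_
  exact CT.nil

theorem prS3 : CT A l (fun a => (p a).prS3) := by
  unfold PP.prS3
  refine CT.flatMap h.rk1 ?_
  have j : PT A (fun q : α × ℕ => q.2) := PT.snd'
  have j1 : PT A (fun q : α × ℕ => q.2 + 1) := PT.add j (PT.const 1)
  have k := (h.comp (PT.fst' (A := A) (α := α) (β := ℕ))).pk
  have hk := (h.comp (PT.fst' (A := A) (α := α) (β := ℕ))).eqk j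
  have hn : PT A (fun q : α × ℕ => decide ((4 * (p q.1).n).testBit q.2 = true)) :=
    (PT.testBit (PT.mul (PT.const 4) (h.pn.comp PT.fst')) j).congr fun q => by simp
  have n0 : PT A (fun q : α × ℕ => Nm.hx false q.2) := PT.nm1 j fun _ => rfl
  have n1 : PT A (fun q : α × ℕ => Nm.hx true q.2) := PT.nm1 j fun _ => rfl
  have i1 : PT A (fun q : α × ℕ => if q.2 = (p q.1).k then [Nm.hx false q.2, Nm.zb false]
      else [Nm.hx false q.2]) := PT.ite hk (PT.cons n0 (PT.const _)) (PT.cons n0 PT.nil)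
  have i2 : PT A (fun q : α × ℕ => if q.2 = (p q.1).k then [Nm.hx true q.2, Nm.zb true]
      else [Nm.hx true q.2]) := PT.ite hk (PT.cons n1 (PT.const _)) (PT.cons n1 PT.nil)
  have i3 : PT A (fun q : α × ℕ => if (4 * (p q.1).n).testBit q.2 then [Nm.one] else []) :=
    PT.ite hn (PT.const _) (PT.const _)
  refine CT.cons (CT1.smul (PT.nm1 j1 fun _ => rfl) (PT.cons (PT.nm1 j fun _ => rfl) (PT.cons
    (PT.nm1 j fun _ => rfl) PT.nil))) ?_
  refine CT.cons (CT1.add (PT.nm1 j fun _ => rfl) (PT.cons (PT.nm1 j fun _ => rfl) (PT.cons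
    (PT.nm1 j fun _ => rfl) PT.nil))) ?_
  refine CT.cons (CT1.smul (PT.nm1 j1 fun _ => rfl) (PT.cons (PT.nm1 j fun _ => rfl) (PT.cons
    (PT.nm1 j fun _ => rfl) PT.nil))) ?_
  refine CT.cons (CT1.add (PT.nm1 j fun _ => rfl) (PT.cons (PT.nm1 j fun _ => rfl) (PT.cons
    (PT.nm1 j fun _ => rfl) PT.nil))) ?_
  refine CT.cons (CT1.smul (PT.nm1 j fun _ => rfl) (PT.cons (PT.const _) (PT.cons (PT.nm1 j fun
    _ => rfl) PT.nil))) ?_
  refine CT.cons (CT1.smul (PT.nm1 j fun _ => rfl) (PT.cons (PT.const _) (PT.cons (PT.nm1 j fun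
    _ => rfl) PT.nil))) ?_
  refine CT.cons (CT1.add (PT.nm1 j fun _ => rfl) i1) ?_
  refine CT.cons (CT1.add (PT.nm1 j fun _ => rfl) i2) ?_
  refine CT.cons (CT1.add (PT.nm1 j fun _ => rfl) i3) ?_
  refine CT.cons (CT1.smul (PT.nm1 j fun _ => rfl) (PT.cons (PT.nm1 j fun _ => rfl) (PT.cons
    (PT.nm1 j fun _ => rfl) PT.nil))) ?_
  refine CT.cons (CT1.smul (PT.nm1 j fun _ => rfl) (PT.cons (PT.nm1 k fun _ => rfl) (PT.cons
    (PT.nm1 j fun _ => rfl) PT.nil))) ?_
  exact CT.nil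

theorem prS4 : CT A l (fun a => (p a).prS4) := by
  unfold PP.prS4
  have j : PT A (fun a => (p a).k + 1) := PT.add h.pk (PT.const 1)
  refine CT.cons (CT1.add (PT.const _) (PT.cons (PT.const _) (PT.cons (PT.nm1 j fun _ => rfl)
    PT.nil))) (CT.flatMap h.rL ?_)
  have s : PT A (fun q : α × ℕ => q.2) := PT.snd'
  have s1 : PT A (fun q : α × ℕ => q.2 + 1) := PT.add s (PT.const 1)
  refine CT.cons (CT1.pub (PT.nm1 s fun _ => rfl) s1) ?_
  exact CT.nil

theorem prR1 (b : Bool) {s : α → ℕ} (hs : PT A s) : CT A l (fun a => (p a).prR1 b (s a)) := by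
  unfold PP.prR1
  have s1 : PT A (fun a => s a + 1) := PT.add hs (PT.const 1)
  have um : PT A (fun a => UM.tr ((p a).dir (s a))) := PT.um1 (h.dir hs) fun _ => rfl
  refine CT.cons (CT1.un (PT.nm1 hs fun _ => rfl) um (PT.cons (PT.nm1 hs fun _ => rfl) PT.nil)) ?_
  refine CT.cons (CT1.add (PT.nm1 hs fun _ => rfl) (PT.cons (PT.nm1 hs fun _ => rfl) (PT.cons
    (PT.nm1 hs fun _ => rfl) PT.nil))) ?_
  refine CT.cons (CT1.un (PT.nm1 hs fun _ => rfl) (PT.const _) (PT.cons (PT.nm1 hs fun _ =>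
    rfl) PT.nil)) ?_
  refine CT.cons (CT1.un (PT.nm1 hs fun _ => rfl) (PT.const _) (PT.cons (PT.nm1 hs fun _ =>
    rfl) PT.nil)) ?_
  refine CT.cons (CT1.add (PT.nm1 s1 fun _ => rfl) (PT.cons (PT.nm1 hs fun _ => rfl) (PT.cons
    (PT.nm1 hs fun _ => rfl) PT.nil))) ?_
  refine CT.cons (CT1.un (PT.nm1 hs fun _ => rfl) (PT.const _) (PT.cons (PT.nm1 hs fun _ =>
    rfl) PT.nil)) ?_
  exact CT.nil

theorem prR2 (b : Bool) {s : α → ℕ} (hs : PT A s) : CT A l (fun a => (p a).prR2 b (s a)) := by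
  unfold PP.prR2
  refine CT.flatMap h.rκ ?_
  have s' : PT A (fun q : α × ℕ => s q.1) := hs.comp PT.fst'
  have j : PT A (fun q : α × ℕ => q.2) := PT.snd'
  have um : PT A (fun q : α × ℕ => UM.mx q.2) := PT.um1 j fun _ => rfl
  refine CT.cons (CT1.un (PT.nm2 s' j fun _ => rfl) um (PT.cons (PT.nm1 s' fun _ => rfl)
    PT.nil)) ?_
  exact CT.nil

theorem prR (b : Bool) : CT A l (fun a => (p a).prR b) := by
  unfold PP.prR
  refine CT.cons (CT1.add (PT.const _) (PT.const _)) (CT.flatMap h.rL ?_)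
  exact CT.append ((h.comp PT.fst').prR1 b PT.snd') ((h.comp PT.fst').prR2 b PT.snd')

omit h in
theorem prG1 (b : Bool) : CT A l (fun _ => PP.prG1 b) := by
  unfold PP.prG1
  refine CT.cons (CT1.un (PT.const _) (PT.const _) (PT.const _)) ?_
  refine CT.cons (CT1.un (PT.const _) (PT.const _) (PT.const _)) ?_
  refine CT.cons (CT1.un (PT.const _) (PT.const _) (PT.const _)) ?_
  refine CT.cons (CT1.un (PT.const _) (PT.const _) (PT.const _)) ?_
  refine CT.cons (CT1.un (PT.const _) (PT.const _) (PT.const _)) ?_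
  refine CT.cons (CT1.un (PT.const _) (PT.const _) (PT.const _)) ?_
  refine CT.cons (CT1.un (PT.const _) (PT.const _) (PT.const _)) ?_
  refine CT.cons (CT1.un (PT.const _) (PT.const _) (PT.const _)) ?_
  exact CT.nil

theorem prG2 (b : Bool) : CT A l (fun a => (p a).prG2 b) := by
  unfold PP.prG2
  refine CT.flatMap h.rκ ?_
  have j : PT A (fun q : α × ℕ => q.2) := PT.snd'
  have um : PT A (fun q : α × ℕ => UM.mx q.2) := PT.um1 j fun _ => rfl
  refine CT.cons (CT1.un (PT.nm1 j fun _ => rfl) um (PT.const _)) ?_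
  exact CT.nil

theorem prV (b : Bool) : CT A l (fun a => (p a).prV b) := by
  unfold PP.prV
  have L := h.pL
  have e1 : PT A (fun a => (List.range ((p a).k + 1)).map Nm.pb) :=
    PT.map h.rk1 (PT.nm1 PT.snd' fun _ => rfl)
  have e2 : PT A (fun a => (List.range ((p a).k + 1)).map (Nm.hb b)) :=
    PT.map h.rk1 (PT.nm1 PT.snd' fun _ => rfl)
  refine CT.cons (CT1.un (PT.const _) (PT.const _) (PT.const _)) ?_
  refine CT.cons (CT1.smul (PT.const _) (PT.const _)) ?_
  refine CT.cons (CT1.smul (PT.const _) (PT.const _)) ?_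
  refine CT.cons (CT1.add (PT.const _) (PT.cons (PT.const _) (PT.cons (PT.const _) (PT.cons
    (PT.nm1 L fun _ => rfl) PT.nil)))) ?_
  refine CT.cons (CT1.un (PT.const _) (PT.const _) (PT.const _)) ?_
  refine CT.cons (CT1.un (PT.const _) (PT.const _) (PT.cons (PT.const _) e1)) ?_
  refine CT.cons (CT1.un (PT.const _) (PT.const _) (PT.cons (PT.nm1 L fun _ => rfl) PT.nil)) ?_
  refine CT.cons (CT1.un (PT.const _) (PT.const _) (PT.cons (PT.nm1 L fun _ => rfl) PT.nil)) ?_
  refine CT.cons (CT1.add (PT.const _) (PT.const _)) ?_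
  refine CT.cons (CT1.un (PT.const _) (PT.const _) (PT.const _)) ?_
  refine CT.cons (CT1.add (PT.const _) (PT.const _)) ?_
  refine CT.cons (CT1.un (PT.const _) (PT.const _) (PT.cons (PT.const _) e2)) ?_
  refine CT.cons (CT1.un (PT.const _) (PT.const _) (PT.const _)) ?_
  refine CT.cons (CT1.add (PT.const _) (PT.const _)) ?_
  refine CT.cons (CT1.un (PT.const _) (PT.const _) (PT.const _)) ?_
  refine CT.cons (CT1.un (PT.const _) (PT.const _) (PT.cons (PT.const _) e1)) ?_
  refine CT.cons (CT1.smul (PT.const _) (PT.const _)) ?_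
  exact CT.nil

theorem prU1 (m : Bool) {s : α → ℕ} (hs : PT A s) : CT A l (fun a => (p a).prU1 m (s a)) := by
  unfold PP.prU1
  refine CT.flatMap h.rk ?_
  have s' : PT A (fun q : α × ℕ => s q.1) := hs.comp PT.fst'
  have i : PT A (fun q : α × ℕ => q.2) := PT.snd'
  have um : PT A (fun q : α × ℕ => UM.mx q.2) := PT.um1 i fun _ => rfl
  refine CT.cons (CT1.un (PT.nm2 s' i fun _ => rfl) um (PT.cons (PT.nm1 s' fun _ => rfl)
    PT.nil)) ?_
  refine CT.cons (CT1.un (PT.nm2 s' i fun _ => rfl) (PT.const _) (PT.cons (PT.nm2 s' i fun _ =>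
    rfl) PT.nil)) ?_
  exact CT.nil

theorem prU2 (m : Bool) {s : α → ℕ} (hs : PT A s) : CT A l (fun a => (p a).prU2 m (s a)) := by
  unfold PP.prU2
  refine CT.flatMap h.rk ?_
  have h' := h.comp (PT.fst' (A := A) (α := α) (β := ℕ))
  have s' : PT A (fun q : α × ℕ => s q.1) := hs.comp PT.fst'
  have j : PT A (fun q : α × ℕ => q.2) := PT.snd'
  have e1 : PT A (fun q : α × ℕ => (List.range (p q.1).k).map (Nm.pi m (s q.1))) :=
    PT.map h'.rk (PT.nm2 (s'.comp PT.fst') PT.snd' fun _ => rfl)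
  have e2 : PT A (fun q : α × ℕ => ((List.range (p q.1).k).map ((p q.1).sc q.2)).map
      (cod (l q.1))) := (h'.scs j).congr fun q => by rw [List.map_map]; rfl
  have e3 : PT A (fun q : α × ℕ => ([1, (p q.1).sc q.2 ((p q.1).dir (s q.1))] :
      List (Fl (l q.1))).map (cod (l q.1))) :=
    (PT.cons (PT.const 1) (PT.cons (h'.sc j (h'.dir s')) PT.nil)).congr fun q => by
      rw [List.map_cons, List.map_cons, List.map_nil, H933.cod_one]
  refine CT.cons (CT1.lin (PT.nm2 s' j fun _ => rfl) e2 e1) ?_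
  refine CT.cons (CT1.lin (PT.nm2 s' j fun _ => rfl) e3 (PT.cons (PT.nm2 s' j fun _ => rfl)
    (PT.cons (PT.const _) PT.nil))) ?_
  exact CT.nil

theorem prU3 (m : Bool) {s : α → ℕ} (hs : PT A s) : CT A l (fun a => (p a).prU3 m (s a)) := by
  unfold PP.prU3
  have s1 : PT A (fun a => s a + 1) := PT.add hs (PT.const 1)
  have e1 : PT A (fun a => (List.range (p a).k).map (Nm.S m (s a))) :=
    PT.map h.rk (PT.nm2 (hs.comp PT.fst') PT.snd' fun _ => rfl)
  have e2 : PT A (fun a => (List.range (p a).k).map (Nm.S' m (s a))) :=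
    PT.map h.rk (PT.nm2 (hs.comp PT.fst') PT.snd' fun _ => rfl)
  refine CT.cons (CT1.un (PT.nm1 hs fun _ => rfl) (PT.const _) (PT.cons (PT.nm1 hs fun _ =>
    rfl) e1)) ?_
  refine CT.cons (CT1.un (PT.nm1 hs fun _ => rfl) (PT.const _) (PT.cons (PT.nm1 hs fun _ =>
    rfl) e2)) ?_
  refine CT.cons (CT1.add (PT.nm1 hs fun _ => rfl) (PT.cons (PT.nm1 hs fun _ => rfl) (PT.cons
    (PT.nm1 hs fun _ => rfl) PT.nil))) ?_
  refine CT.cons (CT1.un (PT.nm1 hs fun _ => rfl) (PT.const _) (PT.cons (PT.nm1 hs fun _ =>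
    rfl) PT.nil)) ?_
  refine CT.cons (CT1.add (PT.nm1 s1 fun _ => rfl) (PT.cons (PT.nm1 hs fun _ => rfl) (PT.cons
    (PT.nm1 hs fun _ => rfl) PT.nil))) ?_
  exact CT.nil

theorem prUs (m : Bool) {s : α → ℕ} (hs : PT A s) : CT A l (fun a => (p a).prUs m (s a)) :=
  CT.append (h.prU1 m hs) (CT.append (h.prU2 m hs) (h.prU3 m hs))

omit h in
theorem pab (m : Bool) {j : α → ℕ} (hj : PT A j) : PT A (fun a => PP.ab m (j a)) := by
  cases m
  · exact PT.nm1 hj fun _ => rfl
  · exact PT.nm1 hj fun _ => rfl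

theorem abs (m : Bool) : PT A (fun a => (List.range (p a).k).map (PP.ab m)) :=
  PT.map h.rk (pab m PT.snd')

theorem prA (m : Bool) : CT A l (fun a => (p a).prA m) := by
  unfold PP.prA
  refine CT.flatMap h.rk ?_
  have h' := h.comp (PT.fst' (A := A) (α := α) (β := ℕ))
  have j : PT A (fun q : α × ℕ => q.2) := PT.snd'
  have e1 := h'.abs m
  have e2 : PT A (fun q : α × ℕ => (((p q.1).sc q.2 1 :: (List.range (p q.1).k).map
      ((p q.1).sc q.2))).map (cod (l q.1))) :=
    (PT.cons (h'.sc j (PT.const 1)) (h'.scs j)).congr fun q => by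
      rw [List.map_cons, List.map_map]; rfl
  have e3 : PT A (fun q : α × ℕ => ([1, (p q.1).sc q.2 0] : List (Fl (l q.1))).map
      (cod (l q.1))) :=
    (PT.cons (PT.const 1) (PT.cons (h'.sc j (PT.const 0)) PT.nil)).congr fun q => by
      rw [List.map_cons, List.map_cons, List.map_nil, H933.cod_one]
  refine CT.cons (CT1.lin (PT.nm1 j fun _ => rfl) e2 (PT.cons (PT.const _) e1)) ?_
  refine CT.cons (CT1.lin (PT.nm1 j fun _ => rfl) e3 (PT.cons (PT.nm1 j fun _ => rfl) (PT.cons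
    (PT.const _) PT.nil))) ?_
  exact CT.nil

omit h in
theorem prE (m : Bool) : CT A l (fun _ => PP.prE m) := by
  unfold PP.prE
  refine CT.cons (CT1.add (PT.const _) (PT.const _)) ?_
  refine CT.cons (CT1.add (PT.const _) (PT.const _)) ?_
  refine CT.cons (CT1.smul (PT.const _) (PT.const _)) ?_
  refine CT.cons (CT1.smul (PT.const _) (PT.const _)) ?_
  exact CT.nil

theorem prD (m : Bool) : CT A l (fun a => (p a).prD m) :=
  CT.cons (CT1.un (PT.const _) (PT.const _) (PT.cons (PT.const _) (h.abs m))) CT.nil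

theorem prU (m : Bool) : CT A l (fun a => (p a).prU m) :=
  CT.append (h.prD m) (CT.append (CT.flatMap h.rL ((h.comp PT.fst').prUs m PT.snd'))
    (CT.append (h.prA m) (prE m)))

theorem prN1 (m b : Bool) : CT A l (fun a => (p a).prN1 m b) := by
  unfold PP.prN1
  have e1 := h.abs m
  refine CT.cons (CT1.un (PT.const _) (PT.const _) (PT.cons (PT.const _) e1)) ?_
  refine CT.cons (CT1.un (PT.const _) (PT.const _) (PT.const _)) ?_
  refine CT.cons (CT1.smul (PT.const _) (PT.const _)) ?_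
  refine CT.cons (CT1.add (PT.const _) (PT.const _)) ?_
  exact CT.nil

theorem prN2 (m b : Bool) : CT A l (fun a => (p a).prN2 m b) := by
  unfold PP.prN2
  refine CT.flatMap h.rL ?_
  have s : PT A (fun q : α × ℕ => q.2) := PT.snd'
  refine CT.cons (CT1.smul (PT.nm1 s fun _ => rfl) (PT.cons (PT.const _) (PT.cons (PT.nm1 s fun
    _ => rfl) PT.nil))) ?_
  refine CT.cons (CT1.add (PT.nm1 s fun _ => rfl) (PT.cons (PT.nm1 s fun _ => rfl) (PT.cons
    (PT.nm1 s fun _ => rfl) PT.nil))) ?_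
  exact CT.nil

theorem prN3 (m b : Bool) : CT A l (fun a => (p a).prN3 m b) := by
  unfold PP.prN3
  have e1 : PT A (fun a => (List.range (p a).k).map (Nm.SA m)) :=
    PT.map h.rk (PT.nm1 PT.snd' fun _ => rfl)
  have e2 : PT A (fun a => (List.range (p a).k).map (Nm.SB m)) :=
    PT.map h.rk (PT.nm1 PT.snd' fun _ => rfl)
  refine CT.cons (CT1.un (PT.const _) (PT.const _) (PT.cons (PT.const _) e1)) ?_
  refine CT.cons (CT1.un (PT.const _) (PT.const _) (PT.cons (PT.const _) e2)) ?_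
  refine CT.cons (CT1.smul (PT.const _) (PT.const _)) ?_
  refine CT.cons (CT1.smul (PT.const _) (PT.const _)) ?_
  refine CT.cons (CT1.add (PT.const _) (PT.const _)) ?_
  refine CT.cons (CT1.smul (PT.const _) (PT.const _)) ?_
  refine CT.cons (CT1.add (PT.const _) (PT.const _)) ?_
  exact CT.nil

theorem prN (m b : Bool) : CT A l (fun a => (p a).prN m b) :=
  CT.append (h.prN1 m b) (CT.append (h.prN2 m b) (h.prN3 m b))

theorem prF (d : Bool) : CT A l (fun a => (p a).prF d) := by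
  unfold PP.prF
  have k := h.pk
  have k1 : PT A (fun a => (p a).k + 1) := PT.add k (PT.const 1)
  refine CT.cons (CT1.smul (PT.const _) (PT.cons (PT.const _) (PT.cons (PT.nm1 k fun _ => rfl)
    PT.nil))) ?_
  refine CT.cons (CT1.smul (PT.const _) (PT.cons (PT.const _) (PT.cons (PT.nm1 k fun _ => rfl)
    PT.nil))) ?_
  refine CT.cons (CT1.smul (PT.const _) (PT.const _)) ?_
  refine CT.cons (CT1.smul (PT.const _) (PT.cons (PT.const _) (PT.cons (PT.nm1 k1 fun _ => rfl)
    PT.nil))) ?_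
  refine CT.cons (CT1.add (PT.const _) (PT.const _)) ?_
  refine CT.cons (CT1.add (PT.const _) (PT.const _)) ?_
  refine CT.cons (CT1.add (PT.const _) (PT.const _)) ?_
  refine CT.cons (CT1.add (PT.const _) (PT.const _)) ?_
  refine CT.cons (CT1.add (PT.const _) (PT.const _)) ?_
  refine CT.cons (CT1.add (PT.const _) (PT.const _)) ?_
  exact CT.nil

theorem prT (d : Bool) : CT A l (fun a => (p a).prT d) := by
  unfold PP.prT
  refine CT.flatMap h.rk1 ?_
  have j : PT A (fun q : α × ℕ => q.2) := PT.snd'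
  refine CT.cons (CT1.smul (PT.nm1 j fun _ => rfl) (PT.cons (PT.const _) (PT.cons (PT.nm1 j fun
    _ => rfl) PT.nil))) ?_
  refine CT.cons (CT1.smul (PT.nm1 j fun _ => rfl) (PT.cons (PT.const _) (PT.cons (PT.nm1 j fun
    _ => rfl) PT.nil))) ?_
  refine CT.cons (CT1.smul (PT.nm1 j fun _ => rfl) (PT.cons (PT.const _) (PT.cons (PT.nm1 j fun
    _ => rfl) PT.nil))) ?_
  refine CT.cons (CT1.add (PT.nm1 j fun _ => rfl) (PT.cons (PT.nm1 j fun _ => rfl) (PT.cons
    (PT.nm1 j fun _ => rfl) (PT.cons (PT.nm1 j fun _ => rfl) PT.nil)))) ?_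
  exact CT.nil

omit h in
theorem prB1 (d b : Bool) : CT A l (fun _ => PP.prB1 d b) := by
  unfold PP.prB1
  refine CT.cons (CT1.smul (PT.const _) (PT.const _)) ?_
  refine CT.cons (CT1.smul (PT.const _) (PT.const _)) ?_
  refine CT.cons (CT1.smul (PT.const _) (PT.const _)) ?_
  refine CT.cons (CT1.add (PT.const _) (PT.const _)) ?_
  refine CT.cons (CT1.smul (PT.const _) (PT.const _)) ?_
  refine CT.cons (CT1.smul (PT.const _) (PT.const _)) ?_
  refine CT.cons (CT1.smul (PT.const _) (PT.const _)) ?_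
  refine CT.cons (CT1.add (PT.const _) (PT.const _)) ?_
  exact CT.nil

theorem prB2 (d b : Bool) : CT A l (fun a => (p a).prB2 d b) := by
  unfold PP.prB2
  refine CT.flatMap h.rL ?_
  have s : PT A (fun q : α × ℕ => q.2) := PT.snd'
  refine CT.cons (CT1.smul (PT.nm1 s fun _ => rfl) (PT.cons (PT.const _) (PT.cons (PT.nm1 s fun
    _ => rfl) PT.nil))) ?_
  refine CT.cons (CT1.smul (PT.nm1 s fun _ => rfl) (PT.cons (PT.const _) (PT.cons (PT.nm1 s fun
    _ => rfl) PT.nil))) ?_
  refine CT.cons (CT1.smul (PT.nm1 s fun _ => rfl) (PT.cons (PT.const _) (PT.cons (PT.nm1 s fun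
    _ => rfl) PT.nil))) ?_
  refine CT.cons (CT1.add (PT.nm1 s fun _ => rfl) (PT.cons (PT.nm1 s fun _ => rfl) (PT.cons
    (PT.nm1 s fun _ => rfl) (PT.cons (PT.nm1 s fun _ => rfl) PT.nil)))) ?_
  exact CT.nil

theorem seg (i : ℕ) : CT A l (fun a => (p a).seg i) := by
  match i with
  | 0 => exact prS1
  | 1 => exact h.prS2
  | 2 => exact h.prS3
  | 3 => exact h.prS4
  | 4 => exact h.prR false
  | 5 => exact h.prR true
  | 6 => exact prG1 false
  | 7 => exact prG1 true
  | 8 => exact h.prG2 false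
  | 9 => exact h.prG2 true
  | 10 => exact h.prV false
  | 11 => exact h.prV true
  | 12 => exact h.prU false
  | 13 => exact h.prU true
  | 14 => exact h.prN false false
  | 15 => exact h.prN false true
  | 16 => exact h.prN true false
  | 17 => exact h.prN true true
  | 18 => exact h.prF false
  | 19 => exact h.prF true
  | 20 => exact h.prT false
  | 21 => exact h.prT true
  | 22 => exact prB1 false false
  | 23 => exact prB1 false true
  | 24 => exact prB1 true false
  | 25 => exact prB1 true true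
  | 26 => exact h.prB2 false false
  | 27 => exact h.prB2 false true
  | 28 => exact h.prB2 true false
  | 29 => exact h.prB2 true true
  | _ + 30 => exact CT.nil

/-- **The content program.** -/
theorem prog : CT A l (fun a => (p a).prog) :=
  CT.flatMapC (List.range 30) fun i => h.seg i

/-! ### Lists of names -/

theorem tup {z : α → Nm} {t : α → ℕ → Nm} {w : α → Bool → Nm} {P : α → Bool → ℕ → Nm}
    {Q : α → Bool → Nm} (hz : PT A z) (ht : PT A (fun q : α × ℕ => t q.1 q.2))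
    (hw : ∀ b, PT A (fun a => w a b)) (hP : ∀ b, PT A (fun q : α × ℕ => P q.1 b q.2))
    (hQ : ∀ b, PT A (fun a => Q a b)) : PT A (fun a => (p a).tup (z a) (t a) (w a) (P a) (Q a)) :=
  PT.cons hz (PT.append (PT.map h.rk1 ht) (PT.cons (hw false) (PT.cons (hw true)
    (PT.append (PT.map h.rL (hP false)) (PT.append (PT.map h.rL (hP true))
      (PT.cons (hQ false) (PT.cons (hQ true) PT.nil)))))))

theorem base : PT A (fun a => (p a).base) :=
  h.tup (PT.const _) (PT.nm1 PT.snd' fun _ => rfl) (fun _ => PT.const _)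
    (fun _ => PT.nm1 PT.snd' fun _ => rfl) fun _ => PT.const _

theorem outN (d : Bool) : PT A (fun a => (p a).outN d) :=
  h.tup (PT.const _) (PT.nm1 PT.snd' fun _ => rfl) (fun _ => PT.const _)
    (fun _ => PT.nm1 PT.snd' fun _ => rfl) fun _ => PT.const _

theorem eqs1 : PT A (fun a => (p a).eqs1) := by
  unfold PP.eqs1
  have j : PT A (fun q : α × ℕ => q.2) := PT.snd'
  refine PT.append (PT.const _) (PT.append (PT.flatMap h.rk1 ?_) (PT.map h.rk ?_))
  · exact PT.cons ((PT.nm1 j fun _ => rfl).pair (PT.nm1 j fun _ => rfl))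
      (PT.cons ((PT.nm1 j fun _ => rfl).pair (PT.nm1 j fun _ => rfl)) PT.nil)
  · exact (PT.nm1 j fun _ => rfl).pair (PT.const _)

theorem eqs2 (b : Bool) : PT A (fun a => (p a).eqs2 b) := by
  unfold PP.eqs2
  have h' := h.comp (PT.fst' (A := A) (α := α) (β := ℕ))
  have h'' := h.comp ((PT.fst' (A := A) (α := α × ℕ) (β := ℕ)).fst)
  refine PT.append (PT.flatMap h.rL (PT.map h'.rκ (PT.pair (PT.ite ?_ ?_ ?_) (PT.const _))))
    (PT.map h.rκ (PT.pair (PT.ite ?_ ?_ ?_) (PT.const _)))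
  · exact PT.lt h''.pk PT.snd'
  · exact PT.nm2 PT.fst'.snd PT.snd' fun _ => rfl
  · exact PT.const _
  · exact PT.lt h'.pk PT.snd'
  · exact PT.nm1 PT.snd' fun _ => rfl
  · exact PT.const _

/-- **The asserted equalities.** -/
theorem eqs : PT A (fun a => (p a).eqs) :=
  PT.append h.eqs1 (PT.append (h.eqs2 false) (PT.append (h.eqs2 true) (PT.const _)))

/-- **The asserted products.** -/
theorem prods : PT A (fun a => (p a).prods) := by
  unfold PP.prods
  have s : PT A (fun q : α × ℕ => q.2) := PT.snd'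
  exact PT.append (PT.map h.rL ((PT.nm1 s fun _ => rfl).pair ((PT.nm1 s fun _ => rfl).pair
    (PT.nm1 s fun _ => rfl)))) (PT.append (PT.map h.rL ((PT.nm1 s fun _ => rfl).pair
      ((PT.nm1 s fun _ => rfl).pair (PT.nm1 s fun _ => rfl)))) (PT.const _))

end PPar

end Vale.Agent.P330.H874
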